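import Crest.Agent.R264.P3.Rat

/-!
# Row 264, P3: the bad boundary points are thin
-/

set_option autoImplicit false
open Set Filter Topology Metric Crest.AlgGeometry.Semialg

noncomputable section
namespace Crest.Agent.R264
namespace AlgFrame
variable {N n : ℕ} {U : Set (CN N)} {F : AlgFrame n U} {ch : Chart n F.V}

theorem Bad_not_ev {u : CN n} (hu : u ∈ ch.s) (hcl : ch.c u ∈ closure U) :
    ¬ ∀ᶠ u' in 𝓝 u, ch.c u' ∉ U := by
  intro h
  obtain ⟨x, h1, h2⟩ := ((mem_closure_iff_frequently.1 hcl).and_eventually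
    (ch.eventually_of_chart hu (Q := fun x => x ∉ U) h)).exists
  exact h2 (F.U_subset h1) h1

/-- A regular zero of `g` with `U` constant on the three parts is a good point.  Hint: `ρ` Hermitian
with `rv ρ ∘ c = g * ‖D‖^(2m)`, same signs, regular zero; `b₂` is false because `c u ∉ U`; as
`c u ∈ closure U`, `b₁` or `b₃` holds (`Chart.eventually_of_chart`, `U_subset`); use `ρ` or `-ρ` in
`goodSide_of_chart`. -/
theorem IsRat.mem_Gd (hs : F.IsSect ch) {g : CN n → ℝ} (h : F.IsRat ch g) {u : CN n}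
    (hu : u ∈ ch.s) (h0 : g u = 0) (h1 : fderiv ℝ g u ≠ 0) (hcl : ch.c u ∈ closure U)
    (hU : ch.c u ∉ U) {b₁ b₂ b₃ : Prop}
    (hb : ∀ᶠ u' in 𝓝 u, (0 < g u' → (ch.c u' ∈ U ↔ b₁)) ∧ (g u' = 0 → (ch.c u' ∈ U ↔ b₂)) ∧
      (g u' < 0 → (ch.c u' ∈ U ↔ b₃))) : ch.c u ∈ F.Gd := by
  obtain ⟨P, m, hP⟩ := h
  obtain ⟨ρ, hρ, hρP⟩ := exists_herm P
  have hev : ∀ᶠ u' in 𝓝 u, u' ∈ ch.s := ch.s_open.mem_nhds hu
  have hw : ∀ u' ∈ ch.s, 0 < ‖MvPolynomial.eval u' F.D‖ ^ (2 * m) := fun u' hu' =>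
    pow_pos (norm_pos_iff.2 (hs.2 u' hu').1) _
  have e : (fun u' => rv ρ (ch.c u')) =ᶠ[𝓝 u]
      fun u' => g u' * ‖MvPolynomial.eval u' F.D‖ ^ (2 * m) :=
    hev.mono fun u' hu' => by simp only [hρP, hP u' hu']
  have h0' : rv ρ (ch.c u) = 0 := by rw [hρP, ← hP u hu, h0, zero_mul]
  have h1' : fderiv ℝ (fun u' => rv ρ (ch.c u')) u ≠ 0 := by
    have d1 : DifferentiableAt ℝ g u := by
      by_contra hd
      exact h1 (fderiv_zero_of_not_differentiableAt hd)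
    have d2 : DifferentiableAt ℝ (fun u' : CN n => ‖MvPolynomial.eval u' F.D‖ ^ (2 * m)) u := by
      simp only [pow_mul]
      exact (((AnalyticOnNhd.eval_mvPolynomial F.D u (mem_univ _)).differentiableAt.restrictScalars
        ℝ).norm_sq ℂ).pow m
    rw [e.fderiv_eq, fderiv_fun_mul d1 d2, h0, zero_smul, zero_add]
    exact smul_ne_zero (hw u hu).ne' h1
  have hsg : ∀ᶠ u' in 𝓝 u, (0 < rv ρ (ch.c u') → (ch.c u' ∈ U ↔ b₁)) ∧
      (rv ρ (ch.c u') = 0 → (ch.c u' ∈ U ↔ b₂)) ∧ (rv ρ (ch.c u') < 0 → (ch.c u' ∈ U ↔ b₃)) := by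
    filter_upwards [hev, hb, e] with u' a1 a2 a3
    rw [a3]
    exact ⟨fun c => a2.1 ((mul_pos_iff_of_pos_right (hw u' a1)).1 c),
      fun c => a2.2.1 ((mul_eq_zero.1 c).resolve_right (hw u' a1).ne'),
      fun c => a2.2.2 (neg_of_mul_neg_left c (hw u' a1).le)⟩
  have hb₂ : ¬ b₂ := fun c => hU ((hb.self_of_nhds.2.1 h0).2 c)
  by_cases hb₁ : b₁
  · refine ⟨ρ, goodSide_of_chart hs hu hρ h0' h1' (hsg.mono fun u' a c => (a.1 c).2 hb₁)
      (hsg.mono fun u' a c d => hb₂ ((a.2.1 c).1 d)) ?_⟩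
    by_cases hb₃ : b₃
    · exact .inl (hsg.mono fun u' a c => (a.2.2 c).2 hb₃)
    · exact .inr (hsg.mono fun u' a c d => hb₃ ((a.2.2 c).1 d))
  by_cases hb₃ : b₃
  · refine ⟨-ρ, goodSide_of_chart hs hu hρ.neg (by rw [rv_neg, h0', neg_zero]) ?_
      (hsg.mono fun u' a c => (a.2.2 (by rwa [rv_neg, neg_pos] at c)).2 hb₃)
      (hsg.mono fun u' a c d => hb₂ ((a.2.1 (by rwa [rv_neg, neg_eq_zero] at c)).1 d))
      (.inr (hsg.mono fun u' a c d => hb₁ ((a.1 (by rwa [rv_neg, neg_lt_zero] at c)).1 d)))⟩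
    simp only [rv_neg]
    rw [fderiv_fun_neg]
    exact neg_ne_zero.2 h1'
  · refine absurd (hsg.mono fun u' a d => ?_) (Bad_not_ev hu hcl)
    rcases lt_trichotomy 0 (rv ρ (ch.c u')) with c | c | c
    · exact hb₁ ((a.1 c).1 d)
    · exact hb₂ ((a.2.1 c.symm).1 d)
    · exact hb₃ ((a.2.2 c).1 d)

/-- Hint: `𝒢` = all `ddL (l.map b) f` with `f` one of the finitely many functions
`u ↦ eval (realCoords (c u)) (P i j)` or `(Q i j)`, `b = Module.finBasis ℝ (CN n)`,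
`finrank ℝ (CN n) = 2 * n`.  Membership `c u' ∈ U` depends only on the signs of these functions.
In the first alternative of `exists_strat` membership is locally constant, which contradicts
`c u ∈ closure U \ U`; in the second use `IsRat.mem_Gd`. -/
theorem lipCov_bad_chart (hsa : IsSemialgebraic U) (hs : F.IsSect ch) :
    LipCov (2 * n - 2) {u | u ∈ ch.s ∧ ch.c u ∈ F.Bad} := by
  obtain ⟨k, m, P, Q, hPQ⟩ := hsa
  let b := Module.finBasis ℝ (CN n)
  let f : (Fin k × Fin m) ⊕ (Fin k × Fin m) → CN n → ℝ := fun a u =>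
    MvPolynomial.eval (realCoords (ch.c u)) (Sum.elim (fun p => P p.1 p.2) (fun p => Q p.1 p.2) a)
  let Mem : ((Fin k × Fin m) ⊕ (Fin k × Fin m) → SignType) → Prop := fun σ =>
    ∃ i, (∀ j, σ (.inl (i, j)) = 0) ∧ ∀ j, σ (.inr (i, j)) = 1
  have hmem : ∀ u, ch.c u ∈ U ↔ Mem fun a => SignType.sign (f a u) := fun u => by
    refine (Set.ext_iff.1 hPQ _).trans ?_
    simp [Mem, f, sign_eq_one_iff]
  have hrat : ∀ (l : List (Fin (Module.finrank ℝ (CN n)))) a, F.IsRat ch (ddL (l.map b) (f a)) := by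
    intro l a
    induction l with
    | nil => exact isRat_real _
    | cons i l ih => exact ih.dirDeriv hs _
  obtain ⟨X, hX, hst⟩ := exists_strat b ch.s_open
    (𝒢 := range fun p : List (Fin (Module.finrank ℝ (CN n))) × _ => ddL (p.1.map b) (f p.2))
    (countable_range _) (by rintro _ ⟨p, rfl⟩; exact (hrat p.1 p.2).analytic hs)
    (by rintro _ ⟨p, rfl⟩ i; exact ⟨(i :: p.1, p.2), rfl⟩)
  rw [finrank_real_of_complex, Module.finrank_fin_fun] at hX
  refine hX.mono fun u hu => ?_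
  by_contra hn
  obtain ⟨hu, hcl, hU, -, hG⟩ := hu
  rcases hst u hu hn with h | ⟨_, ⟨p, rfl⟩, g0, g1, h⟩
  · refine Bad_not_ev hu hcl ?_
    filter_upwards [eventually_all.2 fun a => h (f a) ⟨([], a), rfl⟩] with u' hu' c
    rw [hmem, funext hu', ← hmem] at c
    exact hU c
  · choose σ₁ σ₂ σ₃ hσ using fun a => h (f a) ⟨([], a), rfl⟩
    refine hG ((hrat p.1 p.2).mem_Gd hs hu g0 g1 hcl hU (b₁ := Mem σ₁) (b₂ := Mem σ₂)
      (b₃ := Mem σ₃) ?_)
    filter_upwards [eventually_all.2 hσ] with u' hu'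
    rw [hmem]
    exact ⟨fun c => by rw [funext fun a => (hu' a).1 c], fun c => by
      rw [funext fun a => (hu' a).2.1 c], fun c => by rw [funext fun a => (hu' a).2.2 c]⟩

/-- `LipCov.of_locally`, `exists_sect'`, `LipCov.image_of_contDiffAt`. -/
theorem lipCov_bad (F : AlgFrame n U) (hsa : IsSemialgebraic U) : LipCov (2 * n - 2) F.Bad := by
  refine LipCov.of_locally fun x hx => ?_
  obtain ⟨ch, hs, u, hu, rfl⟩ := F.exists_sect' (F.closure_subset hx.1) hx.2.2.1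
  refine ⟨ch.c '' ch.s, nhdsWithin_mono _ (fun y hy => F.closure_subset hy.1) (ch.nhds u hu), ?_⟩
  refine ((lipCov_bad_chart hsa hs).image_of_contDiffAt (g := ch.c) fun v hv =>
    ((ch.an v hv.1).contDiffAt.restrict_scalars ℝ)).mono ?_
  rintro _ ⟨hy, v, hv, rfl⟩
  exact ⟨v, ⟨hv, hy⟩, rfl⟩

theorem thin_bad (F : AlgFrame n U) (hsa : IsSemialgebraic U) : Thin2 (F.pr '' F.Bad) := by
  exact (F.lipCov_bad hsa).image_of_contDiffAt fun x _ =>
    (SCV.analyticOnNhd isOpen_univ F.differentiable_pr.differentiableOn x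
      (mem_univ x)).contDiffAt.restrict_scalars ℝ

end AlgFrame
end Crest.Agent.R264
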