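import Crest.Agent.R264.P3.Leaf0

/-!
# Row 264, P3: the conormal is constant along leaves; characteristics
-/

set_option autoImplicit false
open Set Filter Topology Metric

noncomputable section
namespace Crest.Agent.R264

variable {r k : ℕ} {P : PM r k × PM r k → ℂ} {χ : PM r k × PM r k → PM r k × PM r k}
  {O : Set (PM r k × PM r k)} {R : ℝ}

theorem leaf2_split {G : Type*} [NormedAddCommGroup G] [NormedSpace ℂ G]
    (L : PM r k × PM r k →L[ℂ] G) (v w : PM r k) : L (v, w) = L (v, 0) + L (0, w) := by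
  rw [← map_add]; simp

/-- chain rule for the conormal composed with the local inverse -/
theorem leaf2_hasFDerivAt (h : LCtx P χ O R) {y : PM r k × PM r k} (hy : y ∈ ball (lF P 0) R)
    (w : PM r k) :
    HasFDerivAt (fun y' => lnu P (χ y') w)
      ((fderiv ℂ (fun z' => lnu P z' w) (χ y)).comp (fderiv ℂ χ y)) y := by
  have hz := h.inv.m2 hy
  exact HasFDerivAt.comp (g := fun z' => lnu P z' w) y
    (analyticAt_lnu (h.an _ hz) (h.lam_ne _ hz) w).differentiableAt.hasFDerivAt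
    (h.inv.a2 _ hy).differentiableAt.hasFDerivAt

theorem leaf2_ker (h : LCtx P χ O R) {z z' : PM r k × PM r k} (hz' : z' ∈ O) {w : PM r k}
    (e : lnu P z w = lnu P z' w) (hw : fderiv ℂ P z (0, w) = 0) : fderiv ℂ P z' (0, w) = 0 := by
  unfold lnu at e
  rw [hw, mul_zero] at e
  exact (mul_eq_zero.1 e.symm).resolve_left (inv_ne_zero (h.lam_ne _ hz'))

/-- The conormal does not depend on the leaf coordinate.  Hint: the segment from `y` to `y'` lies
in the ball; the derivative of `s ↦ lnu P (χ (y + s • (y' - y))) w` vanishes by `fderiv_lnu`,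
`LCtx.fderiv_chi`, `ort_iff_fderiv`, `fderiv_sub_lnu` and the rank condition (e.g.
`constant_of_has_deriv_right_zero`, or `Convex.is_const_of_fderivWithin_eq_zero` for
`t ↦ lnu P (χ ((0, c, t), η)) w` on the convex open set of admissible `t`). -/
theorem lnu_indep (h : LCtx P χ O R) (rc : ∀ z ∈ O, P z = 0 → RC P z) {c : CN r} {η : PM r k}
    {t t' : CN k} (hy : (((0 : ℂ), c, t), η) ∈ ball (lF P 0) R)
    (hy' : (((0 : ℂ), c, t'), η) ∈ ball (lF P 0) R) (w : PM r k) :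
    lnu P (χ ((0, c, t), η)) w = lnu P (χ ((0, c, t'), η)) w := by
  let L : CN k →L[ℂ] PM r k × PM r k :=
    (ContinuousLinearMap.inl ℂ (PM r k) (PM r k)).comp
      ((ContinuousLinearMap.inr ℂ ℂ (CN r × CN k)).comp (ContinuousLinearMap.inr ℂ (CN r) (CN k)))
  have hL : ∀ τ, L τ = ((0, 0, τ), 0) := fun τ => rfl
  let A : CN k → PM r k × PM r k := fun τ => ((0, c, τ), η)
  have hA : ∀ τ, A τ = (((0 : ℂ), c, (0 : CN k)), η) + L τ := fun τ => by simp [A, hL]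
  have hAd : ∀ τ, HasFDerivAt A L τ := fun τ => by
    have : A = fun τ => (((0 : ℂ), c, (0 : CN k)), η) + L τ := funext hA
    rw [this]
    exact L.hasFDerivAt.const_add _
  have hAc : Continuous A := continuous_iff_continuousAt.2 fun τ => (hAd τ).continuousAt
  let S : Set (CN k) := A ⁻¹' ball (lF P 0) R
  have hSo : IsOpen S := isOpen_ball.preimage hAc
  have hSc : Convex ℝ S := by
    intro a ha b hb s s' hs hs' hss
    have := convex_ball (lF P 0) R ha hb hs hs' hss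
    have e : s • A a + s' • A b = A (s • a + s' • b) := by
      simp only [A, Prod.smul_mk, Prod.mk_add_mk, smul_zero, add_zero, ← add_smul, hss, one_smul]
    rw [e] at this
    exact this
  have hd : ∀ τ ∈ S, HasFDerivAt (fun τ => lnu P (χ (A τ)) w) (0 : CN k →L[ℂ] ℂ) τ := by
    intro τ hτ
    have hτ' : A τ ∈ ball (lF P 0) R := hτ
    have hz := h.inv.m2 hτ'
    have h1 := HasFDerivAt.comp (g := fun y' => lnu P (χ y') w) τ
      (leaf2_hasFDerivAt h hτ' w) (hAd τ)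
    refine h1.congr_fderiv ?_
    ext1 σ
    obtain ⟨a1, -, a3⟩ := h.fderiv_chi hτ' (L σ)
    have a4 := h.inv.fderiv_right hτ' (L σ)
    simp only [ContinuousLinearMap.comp_apply, zero_apply]
    rw [fderiv_lnu (h.an _ hz) (h.lam_ne _ hz)]
    have e : fderiv ℂ χ (A τ) (L σ) = ((fderiv ℂ χ (A τ) (L σ)).1, 0) := Prod.ext rfl a3
    rw [e] at a1 a4 ⊢
    have ho : Ort P (χ (A τ)) (fderiv ℂ χ (A τ) (L σ)).1 := by
      rw [ort_iff_fderiv (h.an _ hz) (h.lam_ne _ hz), a4]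
      rfl
    rw [rc _ hz (h.P_chi hτ') _ a1 ho _ (fderiv_sub_lnu (h.lam_ne _ hz) w), mul_zero]
  exact hSo.is_const_of_fderiv_eq_zero (𝕜 := ℂ) (f := fun τ => lnu P (χ (A τ)) w)
    hSc.isPreconnected (fun τ hτ => (hd τ hτ).differentiableAt.differentiableWithinAt)
    (fun τ hτ => (hd τ hτ).fderiv) hy hy'

/-- Differentiated form of `lnu_indep` along `((0, γ, 0), u)`.  Hint: the functions
`(c', η') ↦ lnu P (χ ((0, c', t), η')) w` for `t` and `t'` agree near `(c, η)`; chain rule and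
`fderiv_lnu`; `lnu .. w = 0`. -/
theorem d2_indep (h : LCtx P χ O R) (rc : ∀ z ∈ O, P z = 0 → RC P z) {c : CN r} {η : PM r k}
    {t t' : CN k} (hy : (((0 : ℂ), c, t), η) ∈ ball (lF P 0) R)
    (hy' : (((0 : ℂ), c, t'), η) ∈ ball (lF P 0) R) (γ : CN r) (u : PM r k) {w : PM r k}
    (hw : fderiv ℂ P (χ ((0, c, t), η)) (0, w) = 0) :
    (lam P (χ ((0, c, t), η)))⁻¹ *
        d2 P (χ ((0, c, t), η)) (fderiv ℂ χ ((0, c, t), η) ((0, γ, 0), u)) (0, w) =
      (lam P (χ ((0, c, t'), η)))⁻¹ *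
        d2 P (χ ((0, c, t'), η)) (fderiv ℂ χ ((0, c, t'), η) ((0, γ, 0), u)) (0, w) := by
  let L : CN r × PM r k →L[ℂ] PM r k × PM r k :=
    ((ContinuousLinearMap.inr ℂ ℂ (CN r × CN k)).comp
      (ContinuousLinearMap.inl ℂ (CN r) (CN k))).prodMap (ContinuousLinearMap.id ℂ (PM r k))
  have hL : ∀ x : CN r × PM r k, L x = ((0, x.1, 0), x.2) := fun τ => rfl
  let A : CN k → CN r × PM r k → PM r k × PM r k := fun τ x => ((0, x.1, τ), x.2)
  have hAd : ∀ τ x, HasFDerivAt (A τ) L x := fun τ x => by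
    have : A τ = fun x => ((((0 : ℂ), (0 : CN r), τ), 0) : PM r k × PM r k) + L x := by
      funext x; simp [A, hL]
    rw [this]
    exact L.hasFDerivAt.const_add _
  have hev : (fun x => lnu P (χ (A t x)) w) =ᶠ[𝓝 (c, η)] fun x => lnu P (χ (A t' x)) w := by
    filter_upwards [(hAd t (c, η)).continuousAt.eventually (isOpen_ball.mem_nhds hy),
      (hAd t' (c, η)).continuousAt.eventually (isOpen_ball.mem_nhds hy')] with x h1 h2
    exact lnu_indep h rc h1 h2 w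
  have d1 := HasFDerivAt.comp (g := fun y' => lnu P (χ y') w) (c, η)
    (leaf2_hasFDerivAt h (y := A t (c, η)) hy w) (hAd t (c, η))
  have d2' := HasFDerivAt.comp (g := fun y' => lnu P (χ y') w) (c, η)
    (leaf2_hasFDerivAt h (y := A t' (c, η)) hy' w) (hAd t' (c, η))
  have e := congrArg (fun M : CN r × PM r k →L[ℂ] ℂ => M (γ, u))
    ((d1.congr_of_eventuallyEq hev.symm).unique d2')
  have hz := h.inv.m2 hy
  have hz' := h.inv.m2 hy'
  have n1 : lnu P (χ ((0, c, t), η)) w = 0 := by unfold lnu; rw [hw, mul_zero]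
  have n2 : lnu P (χ ((0, c, t'), η)) w = 0 := by rw [← lnu_indep h rc hy hy' w, n1]
  simp only [ContinuousLinearMap.comp_apply, hL, A] at e
  rw [fderiv_lnu (h.an _ hz) (h.lam_ne _ hz), fderiv_lnu (h.an _ hz') (h.lam_ne _ hz'), n1, n2,
    zero_smul, sub_zero] at e
  exact e

/-- Characteristic directions are the same for all points of a leaf.  Write `z₁ = χ y₁`,
`z₂ = χ y₂`, `Dχ y₂ ζ = (v₂, w)`.  By `LCtx.fderiv_chi` and `lnu_indep`: `DP z₁ (0,w) = 0`,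
`DP z₂ (0,w) = 0`, `DP z₂ (v₂,0) = 0`, `v₂.2.2 = 0`.  For `w₂` with `w₂.2.2 = 0`, `DP z₂ (0,w₂) = 0`
let `ζ₂ = D(lF P) z₂ (0,w₂) = ((0,γ₂,0),w₂)`; then `Dχ y₂ ζ₂ = (0,w₂)` and `Dχ y₁ ζ₂ = (u,w₂)` with
`u.2.2 = 0`, `DP z₁ (u,0) = 0`.  Apply `d2_indep` to `(ζ, w₂)` and to `(ζ₂, w)`, use `d2_symm` and
`hchar u`: `d2 P z₂ (v₂,0) (0,w₂) = 0`.  So `Ort P z₂ v₂`, and `LCtx.nondeg` gives `v₂ = 0`. -/
theorem leaf_core (h : LCtx P χ O R) (rc : ∀ z ∈ O, P z = 0 → RC P z) {c : CN r} {η : PM r k}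
    {t t' : CN k} (hy : (((0 : ℂ), c, t), η) ∈ ball (lF P 0) R)
    (hy' : (((0 : ℂ), c, t'), η) ∈ ball (lF P 0) R) {γ : CN r} {w : PM r k}
    (h1 : fderiv ℂ χ ((0, c, t), η) ((0, γ, 0), w) = (0, w))
    (hchar : ∀ v : PM r k, v.2.2 = 0 → fderiv ℂ P (χ ((0, c, t), η)) (v, 0) = 0 →
      d2 P (χ ((0, c, t), η)) (v, 0) (0, w) = 0) :
    fderiv ℂ χ ((0, c, t'), η) ((0, γ, 0), w) = (0, w) := by
  have hz := h.inv.m2 hy
  have hz' := h.inv.m2 hy'
  obtain ⟨a1, -, -⟩ := h.fderiv_chi hy ((0, γ, 0), w)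
  rw [h1] at a1
  have a1 : fderiv ℂ P (χ ((0, c, t), η)) (0, w) = 0 := a1
  have a2 : fderiv ℂ P (χ ((0, c, t'), η)) (0, w) = 0 :=
    leaf2_ker h hz' (lnu_indep h rc hy hy' w) a1
  obtain ⟨b1, b2, b3⟩ := h.fderiv_chi hy' ((0, γ, 0), w)
  obtain ⟨v₂, hv₂⟩ : ∃ v₂, fderiv ℂ χ ((0, c, t'), η) ((0, γ, 0), w) = (v₂, w) :=
    ⟨_, Prod.ext rfl b3⟩
  rw [hv₂] at b1 b2
  have b2 : v₂.2.2 = 0 := b2
  have b4 : fderiv ℂ P (χ ((0, c, t'), η)) (v₂, 0) = 0 := by
    rw [leaf2_split, a2, add_zero] at b1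
    exact b1
  have ho : Ort P (χ ((0, c, t'), η)) v₂ := by
    intro w₂ c1 c2
    obtain ⟨γ₂, hγ₂⟩ : ∃ γ₂, fderiv ℂ (lF P) (χ ((0, c, t'), η)) (0, w₂) = ((0, γ₂, 0), w₂) := by
      rw [fderiv_lF (h.an _ hz') (h.lam_ne _ hz'), c2]
      exact ⟨_, rfl⟩
    have e1 := h.inv.fderiv_left hz' (0, w₂)
    rw [hγ₂, h.inv.ri _ hy'] at e1
    obtain ⟨f1, f2, f3⟩ := h.fderiv_chi hy ((0, γ₂, 0), w₂)
    obtain ⟨u, hu⟩ : ∃ u, fderiv ℂ χ ((0, c, t), η) ((0, γ₂, 0), w₂) = (u, w₂) :=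
      ⟨_, Prod.ext rfl f3⟩
    rw [hu] at f1 f2
    have c3 : fderiv ℂ P (χ ((0, c, t), η)) (0, w₂) = 0 :=
      leaf2_ker h hz (lnu_indep h rc hy' hy w₂) c2
    have f4 : fderiv ℂ P (χ ((0, c, t), η)) (u, 0) = 0 := by
      rw [leaf2_split, c3, add_zero] at f1
      exact f1
    have g1 := d2_indep h rc hy hy' γ w c3
    have g2 := d2_indep h rc hy hy' γ₂ w₂ a1
    rw [h1, hv₂] at g1
    rw [hu, e1] at g2
    have s1 : ((u, w₂) : PM r k × PM r k) = (u, 0) + (0, w₂) := by simp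
    have s2 : ((v₂, w) : PM r k × PM r k) = (v₂, 0) + (0, w) := by simp
    rw [s1, d2_add_left, hchar u f2 f4, zero_add, d2_symm (h.an _ hz),
      d2_symm (h.an _ hz') (0, w₂), g1, s2, d2_add_left] at g2
    have g3 := mul_left_cancel₀ (inv_ne_zero (h.lam_ne _ hz')) g2
    exact add_eq_right.1 g3
  rw [hv₂, h.nondeg hz' b2 b4 ho]

end Crest.Agent.R264
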