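import Crest.Agent.R264.P3.Leaf1
import Crest.Agent.R264.P3.Leaf2

/-!
# Row 264, P3: the leaves lie in the real hypersurface
-/

set_option autoImplicit false
open Set Filter Topology Metric

noncomputable section
namespace Crest.Agent.R264

variable {r k : ℕ} {P : PM r k × PM r k → ℂ}

theorem Leaf3_comp {E F : Type*} [NormedAddCommGroup E] [NormedSpace ℝ E] [NormedSpace ℂ E]
    [IsScalarTower ℝ ℂ E] [NormedAddCommGroup F] [NormedSpace ℝ F] [NormedSpace ℂ F]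
    [IsScalarTower ℝ ℂ F] {Φ : E → F} {y : ℝ → E} {y' : E} {s : ℝ} (hΦ : AnalyticAt ℂ Φ (y s))
    (hy : HasDerivAt y y' s) : HasDerivAt (fun s => Φ (y s)) (fderiv ℂ Φ (y s) y') s :=
  (hΦ.differentiableAt.hasFDerivAt.restrictScalars ℝ).comp_hasDerivAt s hy

theorem Leaf3_fst {E F : Type*} [NormedAddCommGroup E] [NormedSpace ℝ E] [NormedAddCommGroup F]
    [NormedSpace ℝ F] {y : ℝ → E × F} {y' : E × F} {s : ℝ} (hy : HasDerivAt y y' s) :
    HasDerivAt (fun s => (y s).1) y'.1 s :=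
  (ContinuousLinearMap.fst ℝ E F).hasFDerivAt.comp_hasDerivAt s hy

theorem Leaf3_snd {E F : Type*} [NormedAddCommGroup E] [NormedSpace ℝ E] [NormedAddCommGroup F]
    [NormedSpace ℝ F] {y : ℝ → E × F} {y' : E × F} {s : ℝ} (hy : HasDerivAt y y' s) :
    HasDerivAt (fun s => (y s).2) y'.2 s :=
  (ContinuousLinearMap.snd ℝ E F).hasFDerivAt.comp_hasDerivAt s hy

/-- The derivative along the path vanishes. -/
theorem Leaf3_deriv {χ : PM r k × PM r k → PM r k × PM r k} {O : Set (PM r k × PM r k)} {R : ℝ}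
    (h : LCtx P χ O R) (rc : ∀ z ∈ O, P z = 0 → RC P z)
    (herm : ∀ z ∈ O, P (sw z) = star (P z)) (a : PM r k) (c : CN r) (t' : CN k) {t : ℝ → CN k}
    {τ : CN k} {s : ℝ} (ht : HasDerivAt t τ s)
    (h0 : (((0 : ℂ), c, t s), star a) ∈ ball (lF P 0) R)
    (h1 : (a, star (χ ((0, c, t s), star a)).1) ∈ O)
    (h2 : (((0 : ℂ), lq P (a, star (χ ((0, c, t s), star a)).1), t'),
      star (χ ((0, c, t s), star a)).1) ∈ ball (lF P 0) R) :
    HasDerivAt (fun s => (χ ((0, lq P (a, star (χ ((0, c, t s), star a)).1), t'),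
      star (χ ((0, c, t s), star a)).1)).1) 0 s := by
  have d0 : HasDerivAt (fun s => ((((0 : ℂ), c, t s), star a) : PM r k × PM r k))
      ((0, 0, τ), 0) s :=
    ((hasDerivAt_const s _).prodMk ((hasDerivAt_const s _).prodMk ht)).prodMk
      (hasDerivAt_const s _)
  have d1 := Leaf3_comp (y := fun s => ((((0 : ℂ), c, t s), star a) : PM r k × PM r k))
    (h.inv.a2 _ h0) d0
  obtain ⟨f1, -, f3⟩ := h.fderiv_chi h0 ((0, 0, τ), 0)
  have f4 := h.inv.fderiv_right h0 ((0, 0, τ), 0)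
  have hz0 := h.inv.m2 h0
  have hP0 : P (χ ((0, c, t s), star a)) = 0 := h.P_chi h0
  have hsw : sw (χ ((0, c, t s), star a)) = (a, star (χ ((0, c, t s), star a)).1) := by
    rw [sw, h.snd_chi h0, star_star]
  obtain ⟨X', hX'⟩ : ∃ X' : PM r k,
      fderiv ℂ χ (((0 : ℂ), c, t s), star a) ((0, 0, τ), 0) = (X', 0) :=
    ⟨_, Prod.ext rfl f3⟩
  rw [hX'] at d1 f1 f4
  have dη : HasDerivAt (fun s => star (χ ((0, c, t s), star a)).1) (star X') s :=
    (Leaf3_fst d1).star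
  have hev : ∀ᶠ z' in 𝓝 (χ ((0, c, t s), star a)), P (sw z') = star (P z') :=
    eventually_of_mem (h.inv.o1.mem_nhds hz0) herm
  have han := h.an _ hz0
  have hort : Ort P (χ ((0, c, t s), star a)) X' := by
    rw [ort_iff_fderiv han (h.lam_ne _ hz0), f4]
  have hsw1 : sw ((X', 0) : PM r k × PM r k) = (0, star X') := by simp [sw]
  have hP1 : P (a, star (χ ((0, c, t s), star a)).1) = 0 := by
    rw [← hsw, herm _ hz0, hP0, star_zero]
  have hD1 : fderiv ℂ P (a, star (χ ((0, c, t s), star a)).1) (0, star X') = 0 := by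
    rw [← hsw, ← hsw1, fderiv_sw han hev, f1, star_zero]
  have hchar : ∀ v : PM r k, v.2.2 = 0 →
      fderiv ℂ P (a, star (χ ((0, c, t s), star a)).1) (v, 0) = 0 →
      d2 P (a, star (χ ((0, c, t s), star a)).1) (v, 0) (0, star X') = 0 := by
    intro v hv1 hv2
    have hsw2 : sw ((0, star v) : PM r k × PM r k) = (v, 0) := by simp [sw]
    rw [← hsw, ← hsw2, fderiv_sw han hev, star_eq_zero] at hv2
    rw [← hsw, ← hsw1, ← hsw2, d2_sw han hev, d2_symm han, hort (star v) ?_ hv2, star_zero]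
    change star v.2.2 = 0
    rw [hv1, star_zero]
  set η : ℝ → PM r k := fun s => star (χ ((0, c, t s), star a)).1 with hη
  change (a, η s) ∈ O at h1
  change (((0 : ℂ), lq P (a, η s), t'), η s) ∈ _ at h2
  change P (a, η s) = 0 at hP1
  change fderiv ℂ P (a, η s) _ = 0 at hD1
  change ∀ v : PM r k, _ → fderiv ℂ P (a, η s) _ = 0 → d2 P (a, η s) _ _ = 0 at hchar
  change HasDerivAt (fun s => (χ ((0, lq P (a, η s), t'), η s)).1) 0 s
  have d2' := Leaf3_comp (y := fun s => ((a, η s) : PM r k × PM r k)) (h.inv.a1 _ h1)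
    ((hasDerivAt_const s a).prodMk dη)
  have f5 := h.inv.fderiv_left h1 (0, star X')
  obtain ⟨γ, hγ⟩ : ∃ γ : CN r,
      fderiv ℂ (lF P) (a, η s) (0, star X') = ((0, γ, 0), star X') := by
    rw [fderiv_lF (h.an _ h1) (h.lam_ne _ h1), hD1]
    exact ⟨_, rfl⟩
  rw [hγ] at d2' f5
  have dq : HasDerivAt (fun s => lq P (a, η s)) γ s := Leaf3_fst (Leaf3_snd (Leaf3_fst d2'))
  have e1 : lF P (a, η s) = ((0, lq P (a, η s), a.2.2), η s) := by rw [lF, hP1]
  have hy1 := h.inv.m1 h1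
  have hχ1 := h.inv.li _ h1
  rw [e1] at hy1 hχ1 f5
  have core := leaf_core h rc hy1 h2 f5 (by rw [hχ1]; exact hchar)
  have d3 : HasDerivAt (fun s => ((((0 : ℂ), lq P (a, η s), t'), η s) : PM r k × PM r k))
      ((0, γ, 0), star X') s :=
    ((hasDerivAt_const s _).prodMk (dq.prodMk (hasDerivAt_const s _))).prodMk dη
  have d4 := Leaf3_comp
    (y := fun s => ((((0 : ℂ), lq P (a, η s), t'), η s) : PM r k × PM r k)) (h.inv.a2 _ h2) d3
  rw [core] at d4
  exact Leaf3_fst d4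

/-- The path argument.  Let `c = lq P (a, ā)`, `t s = a.2.2 + s • (x.2.2 - a.2.2)`,
`X s = (χ ((0, c, t s), ā)).1`, `η s = star (X s)`, `z₁ s = (a, η s) = sw (X s, ā)`,
`y₁ s = lF P (z₁ s) = ((0, lq P (z₁ s), a.2.2), η s)`, `y₂ s = ((0, lq P (z₁ s), x.2.2), η s)`.
All are real-differentiable in `s` (`HasDerivAt.star`, `HasFDerivAt.restrictScalars`), `y₁` and `y₂`
have the same derivative `((0, γ, 0), η')`; `χ (y₁ s) = z₁ s` gives `h1` of `leaf_core`; `hchar`
follows from `d2_sw`, `fderiv_sw` at `(X s, ā) = χ ((0, c, t s), ā)`, `d2_symm`, and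
`Ort P (X s, ā) X'` (`ort_iff_fderiv`, `LocInv.fderiv_right`).  So `s ↦ (χ (y₂ s)).1` is constant on
`[0,1]`; it is `x` at `s = 0`, and `η 1 = star x`, `P (χ (y₂ 1)) = 0`. -/
theorem leaf_path {χ : PM r k × PM r k → PM r k × PM r k} {O : Set (PM r k × PM r k)} {R : ℝ}
    (h : LCtx P χ O R) (rc : ∀ z ∈ O, P z = 0 → RC P z)
    (herm : ∀ z ∈ O, P (sw z) = star (P z)) {a x : PM r k}
    (ha : (a, star a) ∈ O) (hx : (x, star a) ∈ O) (Pa : P (a, star a) = 0)
    (Px : P (x, star a) = 0) (hq : lq P (x, star a) = lq P (a, star a))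
    (hseg : ∀ t ∈ segment ℝ a.2.2 x.2.2,
      (((0 : ℂ), lq P (a, star a), t), star a) ∈ ball (lF P 0) R ∧
      (a, star (χ ((0, lq P (a, star a), t), star a)).1) ∈ O ∧
      (((0 : ℂ), lq P (a, star (χ ((0, lq P (a, star a), t), star a)).1), x.2.2),
        star (χ ((0, lq P (a, star a), t), star a)).1) ∈ ball (lF P 0) R) :
    P (x, star x) = 0 := by
  set c := lq P (a, star a) with hc
  set t : ℝ → CN k := fun s => a.2.2 + s • (x.2.2 - a.2.2) with ht
  have hts : ∀ s ∈ Icc (0 : ℝ) 1, t s ∈ segment ℝ a.2.2 x.2.2 := fun s hs => by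
    rw [segment_eq_image']
    exact ⟨s, hs, rfl⟩
  have hdt : ∀ s, HasDerivAt t (x.2.2 - a.2.2) s := fun s => by
    have := ((hasDerivAt_id s).smul_const (x.2.2 - a.2.2)).const_add a.2.2
    rwa [one_smul] at this
  have hd := fun s (hs : s ∈ Icc (0 : ℝ) 1) => Leaf3_deriv h rc herm a c x.2.2 (hdt s)
    (hseg _ (hts s hs)).1 (hseg _ (hts s hs)).2.1 (hseg _ (hts s hs)).2.2
  have hconst := constant_of_has_deriv_right_zero
    (fun s hs => (hd s hs).continuousAt.continuousWithinAt)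
    (fun s hs => (hd s (Ico_subset_Icc_self hs)).hasDerivWithinAt) 1 ⟨zero_le_one, le_rfl⟩
  have t0 : t 0 = a.2.2 := by simp [ht]
  have t1 : t 1 = x.2.2 := by simp [ht]
  have ea : χ ((0, c, a.2.2), star a) = (a, star a) := by
    have := h.inv.li _ ha
    rwa [lF, Pa] at this
  have ex : χ ((0, c, x.2.2), star a) = (x, star a) := by
    have := h.inv.li _ hx
    rwa [lF, Px, hq] at this
  have h3 := (hseg _ (right_mem_segment ℝ a.2.2 x.2.2)).2.2
  simp only [t0, t1, ea, ex, ← hc] at hconst h3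
  have h4 := h.P_chi h3
  have h5 : χ ((0, lq P (a, star x), x.2.2), star x) = (x, star x) :=
    Prod.ext hconst (h.snd_chi h3)
  rwa [h5] at h4

/-- The leaf theorem.  Hint: `exists_lctx`, `rc_complex`, `LCtx.shrink`; the three conditions of
`hseg` hold for `(a, t, t')` near `0` by continuity (`lF P 0 = ((0, lq P 0, 0), 0)`,
`χ (lF P 0) = 0`); extract a ball and use its convexity; `lq_eq_of_ker`. -/
theorem leaf_abstract (hP : AnalyticAt ℂ P 0)
    (herm : ∀ᶠ z in 𝓝 (0 : PM r k × PM r k), P (sw z) = star (P z)) (h0 : P 0 = 0)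
    (h : lam P 0 ≠ 0)
    (nd : ∀ v : PM r k, v.2.2 = 0 → fderiv ℂ P 0 (v, 0) = 0 → Ort P 0 v → v = 0)
    (rc : ∀ᶠ x in 𝓝 (0 : PM r k), P (x, star x) = 0 → RC P (x, star x)) :
    ∃ δ > 0, ∀ a ∈ ball (0 : PM r k) δ, ∀ x ∈ ball (0 : PM r k) δ,
      P (a, star a) = 0 → P (x, star a) = 0 →
      (∀ w : PM r k, w.2.2 = 0 → fderiv ℂ P (a, star a) (0, w) = 0 →
        fderiv ℂ P (x, star a) (0, w) = 0) → P (x, star x) = 0 := by
  obtain ⟨χ, O₀, R₀, h₀⟩ := exists_lctx hP h nd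
  obtain ⟨O, R, hO, hc⟩ := h₀.shrink ((rc_complex h₀ herm h0 rc).and herm)
  have e0 : lF P 0 = ((0, lq P 0, 0), 0) := by rw [lF, h0]; rfl
  have hq : Tendsto (lq P) (𝓝 0) (𝓝 (lq P 0)) := (analyticAt_lq hP h).continuousAt
  have hstar : Tendsto (star : PM r k → PM r k) (𝓝 0) (𝓝 0) :=
    continuous_star.tendsto' 0 0 (star_zero _)
  have ta : Tendsto (fun p : PM r k × PM r k × CN k => p.1) (𝓝 0) (𝓝 0) :=
    continuous_fst.tendsto 0
  have tx : Tendsto (fun p : PM r k × PM r k × CN k => p.2.1) (𝓝 0) (𝓝 0) :=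
    continuous_snd.fst.tendsto 0
  have tx' : Tendsto (fun p : PM r k × PM r k × CN k => p.2.1.2.2) (𝓝 0) (𝓝 0) :=
    continuous_snd.fst.snd.snd.tendsto 0
  have tt : Tendsto (fun p : PM r k × PM r k × CN k => p.2.2) (𝓝 0) (𝓝 0) :=
    continuous_snd.snd.tendsto 0
  have t1 : Tendsto (fun p : PM r k × PM r k × CN k => (p.1, star p.1)) (𝓝 0) (𝓝 0) :=
    ta.prodMk_nhds (hstar.comp ta)
  have t2 : Tendsto (fun p : PM r k × PM r k × CN k => (p.2.1, star p.1)) (𝓝 0) (𝓝 0) :=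
    tx.prodMk_nhds (hstar.comp ta)
  have t3 : Tendsto (fun p : PM r k × PM r k × CN k =>
      ((((0 : ℂ), lq P (p.1, star p.1), p.2.2), star p.1) : PM r k × PM r k)) (𝓝 0)
      (𝓝 (lF P 0)) := by
    rw [e0]
    exact (tendsto_const_nhds.prodMk_nhds ((hq.comp t1).prodMk_nhds tt)).prodMk_nhds
      (hstar.comp ta)
  have t4 : Tendsto (fun p : PM r k × PM r k × CN k =>
      star (χ ((0, lq P (p.1, star p.1), p.2.2), star p.1)).1) (𝓝 0) (𝓝 0) :=
    hstar.comp ((continuous_fst.tendsto 0).comp ((hc.inv.tendsto_inv hc.zero_mem).comp t3))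
  have t5 : Tendsto (fun p : PM r k × PM r k × CN k =>
      (p.1, star (χ ((0, lq P (p.1, star p.1), p.2.2), star p.1)).1)) (𝓝 0) (𝓝 0) :=
    ta.prodMk_nhds t4
  have t6 : Tendsto (fun p : PM r k × PM r k × CN k =>
      ((((0 : ℂ), lq P (p.1, star (χ ((0, lq P (p.1, star p.1), p.2.2), star p.1)).1),
        p.2.1.2.2), star (χ ((0, lq P (p.1, star p.1), p.2.2), star p.1)).1) :
          PM r k × PM r k)) (𝓝 0) (𝓝 (lF P 0)) := by
    rw [e0]
    exact (tendsto_const_nhds.prodMk_nhds ((hq.comp t5).prodMk_nhds tx')).prodMk_nhds t4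
  have nO : O ∈ 𝓝 0 := hc.inv.o1.mem_nhds hc.zero_mem
  have nB : ball (lF P 0) R ∈ 𝓝 (lF P 0) := ball_mem_nhds _ hc.R_pos
  obtain ⟨δ, hδ, hb⟩ := Metric.eventually_nhds_iff_ball.1
    ((t1.eventually nO).and ((t2.eventually nO).and
      ((t3.eventually nB).and ((t5.eventually nO).and (t6.eventually nB)))))
  refine ⟨δ, hδ, fun a ha x hx Pa Px hk => ?_⟩
  have hsnd : ∀ y ∈ ball (0 : PM r k) δ, y.2.2 ∈ ball (0 : CN k) δ := fun y hy => by
    rw [mem_ball_zero_iff] at hy ⊢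
    exact ((norm_snd_le y.2).trans (norm_snd_le y)).trans_lt hy
  have hmem : ∀ t ∈ segment ℝ a.2.2 x.2.2,
      (a, x, t) ∈ ball (0 : PM r k × PM r k × CN k) δ := fun t ht => by
    have h1 := (convex_ball (0 : CN k) δ).segment_subset (hsnd a ha) (hsnd x hx) ht
    rw [mem_ball_zero_iff] at ha hx h1 ⊢
    exact max_lt ha (max_lt hx h1)
  obtain ⟨m1, m2, -⟩ := hb _ (hmem _ (left_mem_segment ℝ _ _))
  exact leaf_path hc (fun z hz => (hO hz).1) (fun z hz => (hO hz).2) m1 m2 Pa Px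
    (lq_eq_of_ker (hc.lam_ne _ m1) (hc.lam_ne _ m2) hk) fun t ht => (hb _ (hmem t ht)).2.2

end Crest.Agent.R264
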