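import Crest.Agent.R264.P3.Pre1
import Crest.Agent.R264.P3.Leaf3

/-!
# Row 264, P3: existence of Segre data before normalisation
-/

set_option autoImplicit false
open Set Filter Topology Metric Complex

noncomputable section
namespace Crest.Agent.R264.P3

variable {N n : ℕ} {U : Set (CN N)} {F : AlgFrame n U}

/-- Hint: `C x = ch.c (u₀ + Λ x)`, `t x = (Λ.symm (F.pr x)).2.2`, `σ = raw ρ C t δ`.  Take `δ₁` from
`leaf_abstract` (`SliceNeg.nondeg`), shrink it so that `u₀ + Λ x ∈ ch.s` on `ball 0 δ₁`; `O` is the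
interior of `{x | x ∈ V → pr x ∈ ch.s ∧ c (pr x) = x ∧ Λ.symm (pr x - u₀) ∈ ball 0 δ₁}`
(`Chart.eventually_mem`, `ch.l = F.pr`); choose `δ ≤ δ₁` so that on `ball 0 δ`: `C x ∈ O ∩ W`,
`rv ρ (C x) = 0 → GoodSide (C x) ρ`, `eventually_sliceNeg`.  `r0_ne`, `leaf`: `raw_fderiv`,
`mem_L_iff`; `span`: `IsSect.sum_xi`, `t (c u) = (Λ.symm u).2.2` near `u ∈ ch.s`, chain rule. -/
theorem preSegre_of_adapted {ρ : P2 N} {W : Set (CN N)} {r k : ℕ} {ch : Chart n F.V} {u₀ : CN n}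
    {Λ : PM r k ≃L[ℂ] CN n} (hs : F.IsSect ch) (hn : n = 1 + r + k) (hu : u₀ ∈ ch.s)
    (hW : W ∈ 𝓝 (ch.c u₀)) (hg : F.GoodSide (ch.c u₀) ρ)
    (hl : lam (cpol ρ fun x => ch.c (u₀ + Λ x)) 0 ≠ 0)
    (hneg : SliceNeg (cpol ρ fun x => ch.c (u₀ + Λ x)) 0)
    (hrc : ∀ᶠ x in 𝓝 (0 : PM r k), cpol ρ (fun x => ch.c (u₀ + Λ x)) (x, star x) = 0 →
      RC (cpol ρ fun x => ch.c (u₀ + Λ x)) (x, star x)) :
    ∃ σ : PreSegre F r k, σ.ρ = ρ ∧ MapsTo σ.a (ball 0 σ.δ) W := by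
  set C : PM r k → CN N := fun x => ch.c (u₀ + Λ x) with hC
  let t : CN N → CN k := fun x => (Λ.symm (F.pr x)).2.2
  have hA : ∀ x : PM r k, AnalyticAt ℂ (fun x => u₀ + Λ x) x := fun x =>
    analyticAt_const.add ((Λ : PM r k →L[ℂ] CN n).analyticAt x)
  have hCan : ∀ x : PM r k, u₀ + Λ x ∈ ch.s → AnalyticAt ℂ C x := fun x hx =>
    AnalyticAt.comp (g := ch.c) (ch.an _ hx) (hA x)
  have hA0 : u₀ + Λ 0 = u₀ := by simp
  have hC0 : C 0 = ch.c u₀ := by simp [hC]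
  have han0 : AnalyticAt ℂ C 0 := hCan 0 (hA0.symm ▸ hu)
  have hQ : AnalyticAt ℂ (cpol ρ C) 0 := cpol_analyticAt ρ han0 (by simpa using han0)
  have hQ0 : cpol ρ C 0 = 0 := by
    have := cpol_real hg.herm C 0
    rw [star_zero, hC0, hg.zero] at this
    exact this
  obtain ⟨δ₀, hδ₀, hleaf⟩ := leaf_abstract hQ (Eventually.of_forall (cpol_sw hg.herm C)) hQ0 hl
    (fun v h1 h2 h3 => hneg.nondeg hQ (cpol_sw hg.herm C) h1 h2 h3) hrc
  have hpr : F.pr (ch.c u₀) = u₀ := (hs.pr_c hu).1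
  have hO : ∀ᶠ x in 𝓝 (ch.c u₀), (x ∈ F.V → F.pr x ∈ ch.s ∧ ch.c (F.pr x) = x) ∧
      Λ.symm (F.pr x - u₀) ∈ ball (0 : PM r k) δ₀ := by
    refine (hs.1 ▸ ch.eventually_mem hu).and ?_
    have hc : Continuous fun x => Λ.symm (F.pr x - u₀) :=
      Λ.symm.continuous.comp (F.differentiable_pr.continuous.sub continuous_const)
    refine hc.continuousAt.eventually (isOpen_ball.mem_nhds ?_)
    simpa [hpr] using hδ₀
  obtain ⟨O, hOsub, hOo, hO0⟩ := _root_.mem_nhds_iff.1 hO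
  have hT : Tendsto C (𝓝 0) (𝓝 (ch.c u₀)) := hC0 ▸ han0.continuousAt.tendsto
  have hev : ∀ᶠ x in 𝓝 (0 : PM r k), u₀ + Λ x ∈ ch.s ∧ C x ∈ O ∧ C x ∈ W ∧
      (C x ∈ F.V → rv ρ (C x) = 0 → F.GoodSide (C x) ρ) ∧
      (lam (cpol ρ C) (x, star x) ≠ 0 ∧ SliceNeg (cpol ρ C) x) ∧ x ∈ ball (0 : PM r k) δ₀ := by
    refine ((hA 0).continuousAt.eventually (ch.s_open.mem_nhds (by simpa using hu))).and
      ((hT.eventually (hOo.mem_nhds hO0)).and ((hT.eventually hW).and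
        ((hT.eventually hg.eventually).and
          ((eventually_sliceNeg hQ (cpol_sw hg.herm C) hl hneg).and (ball_mem_nhds 0 hδ₀)))))
  obtain ⟨δ, hδ, hb⟩ := Metric.eventually_nhds_iff_ball.1 hev
  have hinc : ∀ ω ∈ ball (0 : ℂ × CN r) δ, inc r k ω ∈ ball (0 : PM r k) δ := fun ω hω => by
    rwa [mem_ball_zero_iff, norm_inc, ← mem_ball_zero_iff]
  have hbs : ∀ η ∈ (raw ρ C t δ).S, inc r k (star η) ∈ ball (0 : PM r k) δ := fun η hη =>
    hinc _ (star_mem_ball.2 hη.1)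
  have hVx : ∀ x ∈ ball (0 : PM r k) δ, C x ∈ F.V := fun x hx => ch.maps (hb x hx).1
  have hreal : ∀ η ∈ (raw ρ C t δ).S, cpol ρ C (inc r k (star η), inc r k η) = 0 := fun η hη => by
    have := hη.2
    simp only [SegRaw.ϱ, raw] at this
    simp only [cpol, ← inc_star]
    exact this
  have hss : ∀ η : ℂ × CN r, star (inc r k (star η)) = inc r k η := fun η => by
    rw [inc_star, star_star]
  have htd : Differentiable ℂ t :=
    (Λ.symm.differentiable.comp F.differentiable_pr).snd.snd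
  have htc : ∀ u ∈ ch.s, t (ch.c u) = (Λ.symm u).2.2 := fun u hu' => by
    simp only [t, (hs.pr_c hu').1]
  have hr0 : ∀ η ∈ (raw ρ C t δ).S, (raw ρ C t δ).r0 (C (inc r k (star η))) η ≠ 0 := by
    intro η hη
    have h1 := hCan _ (hb _ (hbs η hη)).1
    have h2 := raw_fderiv ρ t δ h1 (inc_star η ▸ h1) (1, 0)
    have h3 := (hb _ (hbs η hη)).2.2.2.2.1.1
    rw [hss] at h3
    exact fun h => h3 (h2.symm.trans h)
  refine ⟨{ toSegRaw := raw ρ C t δ
            dim := hn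
            herm := hg.herm
            a_an := fun ω hω => AnalyticAt.comp (g := C) (hCan _ (hb _ (hinc ω hω)).1)
              ((inc r k).analyticAt ω)
            a_mem := fun ω hω => hVx _ (hinc ω hω)
            t_diff := htd
            t_a := ?_
            zero_mem := ⟨mem_ball_self hδ, ?_⟩
            good := ?_
            r0_ne := hr0
            neg := fun η hη v hv h => raw_neg ρ t δ (hCan _ (hb _ (hbs η hη)).1)
              (hb _ (hbs η hη)).2.2.2.2.1.2 v hv h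
            span := ?_
            leaf := ⟨O, hOo, fun η hη => ⟨(hb _ (hbs η hη)).2.1, ?_⟩⟩ }, rfl,
    fun ω hω => (hb _ (hinc ω hω)).2.2.1⟩
  · intro ω hω
    change t (ch.c _) = t (ch.c _)
    rw [htc _ (hb _ (hinc ω hω)).1, htc _ (hb _ (hinc 0 (mem_ball_self hδ))).1]
    simp
  · simp only [SegRaw.ϱ, raw, star_zero, map_zero]
    rw [hg.herm.pe_real, hC0, hg.zero]
    rfl
  · intro η hη
    refine (hb _ (hbs η hη)).2.2.2.1 (hVx _ (hbs η hη)) ?_
    have := cpol_real hg.herm C (inc r k (star η))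
    rw [hss, hreal η hη] at this
    exact_mod_cast this.symm
  · intro ω hω c hc
    have hu' := (hb _ (hinc ω hω)).1
    set u := u₀ + Λ (inc r k ω) with hu_def
    change fderiv ℂ t (ch.c u) (∑ i, c i • F.xi i (ch.c u)) = 0 at hc
    change ∃ β, ∑ i, c i • F.xi i (ch.c u) = fderiv ℂ (fun ω => C (inc r k ω)) ω β
    rw [hs.sum_xi hu'] at hc ⊢
    set w := MvPolynomial.eval u F.D • c
    have hcd := (ch.an u hu').differentiableAt
    have e1 : fderiv ℂ (fun u' => t (ch.c u')) u w = 0 := by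
      rw [fderiv_fun_comp u (htd _) hcd]
      exact hc
    have e2 : (fun u' => t (ch.c u')) =ᶠ[𝓝 u] fun u' => (Λ.symm u').2.2 := by
      filter_upwards [ch.s_open.mem_nhds hu'] with u' h using htc u' h
    have e3 : HasFDerivAt (fun u' => (Λ.symm u').2.2) _ u :=
      (Λ.symm : CN n →L[ℂ] PM r k).hasFDerivAt.snd.snd
    rw [e2.fderiv_eq, e3.fderiv] at e1
    have e4 : (Λ.symm w).2.2 = 0 := e1
    refine ⟨((Λ.symm w).1, (Λ.symm w).2.1), ?_⟩
    have e5 : HasFDerivAt (fun ω => u₀ + Λ (inc r k ω)) _ ω :=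
      (((Λ : PM r k →L[ℂ] CN n).comp (inc r k)).hasFDerivAt).const_add u₀
    have e6 : HasFDerivAt (fun ω => C (inc r k ω)) _ ω := hcd.hasFDerivAt.comp ω e5
    rw [e6.fderiv]
    simp only [ContinuousLinearMap.comp_apply, inc_apply, ← e4]
    simp
  · rintro x ⟨hxL, hxO⟩
    obtain ⟨hxV, hx0, c, hc⟩ := (mem_L_iff F.V (hr0 η hη) x).1 hxL
    obtain ⟨h1, h2⟩ := hOsub hxO
    obtain ⟨h3, h4⟩ := h1 hxV
    set x' := Λ.symm (F.pr x - u₀) with hx'
    have h5 : u₀ + Λ x' = F.pr x := by simp [hx']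
    have h6 : C x' = x := by simp only [hC, h5, h4]
    have ha := hCan _ (hb _ (hbs η hη)).1
    have hx'an := hCan x' (h5 ▸ h3)
    have := hleaf _ (hb _ (hbs η hη)).2.2.2.2.2 x' h2 (by rw [hss]; exact hreal η hη) ?_ ?_
    · rw [cpol_real hg.herm, h6] at this
      exact_mod_cast this
    · simp only [SegRaw.ϱ, raw] at hx0
      simp only [cpol, star_star, h6]
      exact hx0
    · intro w hw hw0
      have hw' : w = inc r k (w.1, w.2.1) := by
        rw [inc_apply, ← hw]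
      rw [hss, hw'] at hw0 ⊢
      rw [← raw_fderiv ρ t δ hx'an (inc_star η ▸ ha), h6, hc]
      rw [← raw_fderiv ρ t δ ha (inc_star η ▸ ha)] at hw0
      exact mul_eq_zero_of_right _ hw0

theorem exists_preSegre (hU : TautSet U) {p : CN N} {ρ : P2 N} (hp : F.GoodSide p ρ)
    {W : Set (CN N)} (hW : W ∈ 𝓝 p) :
    ∃ (r k : ℕ) (σ : PreSegre F r k), σ.ρ = ρ ∧ MapsTo σ.a (ball 0 σ.δ) W := by
  obtain ⟨r, k, ch, u₀, Λ, h1, h2, h3, h4, h5, h6, h7, h8⟩ := exists_adapted_sect hU hp hW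
  exact ⟨r, k, preSegre_of_adapted h1 h2 h3 h4 h5 h6 h7 h8⟩

end Crest.Agent.R264.P3
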