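import Crest.Agent.R264.Defs

/-!
# Row 264, P3: generic points (Baire) and a basis lemma
-/

set_option autoImplicit false
open Set Filter Topology Metric

noncomputable section
namespace Crest.Agent.R264

/-- A point that is generic for countably many sets.  Hint: `S` is locally compact
(`IsLocallyClosed.locallyCompactSpace`), hence Baire; with `C i = (↑) ⁻¹' closure (A i)` closed in
`S`, the sets `(C i \ interior (C i))ᶜ` are open and dense (`dense_iInter_of_isOpen`,
`frontier`, `interior_frontier`). -/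
theorem exists_generic {X : Type*} [TopologicalSpace X] [LocallyCompactSpace X] [T2Space X]
    {S : Set X} (hS : IsLocallyClosed S) (hne : S.Nonempty) {ι : Type*} [Countable ι]
    (A : ι → Set X) : ∃ x ∈ S, ∀ i, x ∈ A i → ∀ᶠ y in 𝓝[S] x, y ∈ closure (A i) := by
  haveI : LocallyCompactSpace S := hS.locallyCompactSpace
  haveI : Nonempty S := hne.to_subtype
  have hc : ∀ i, IsClosed ((↑) ⁻¹' closure (A i) : Set S) := fun i =>
    isClosed_closure.preimage continuous_subtype_val
  obtain ⟨x, hx⟩ := (dense_iInter_of_isOpen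
    (f := fun i => (frontier ((↑) ⁻¹' closure (A i) : Set S))ᶜ)
    (fun i => isClosed_frontier.isOpen_compl)
    (fun i => interior_eq_empty_iff_dense_compl.1 (interior_frontier (hc i)))).nonempty
  refine ⟨x, x.2, fun i hi => ?_⟩
  have h1 : x ∈ interior ((↑) ⁻¹' closure (A i) : Set S) := by
    by_contra h
    exact mem_iInter.1 hx i ⟨subset_closure (subset_closure hi), h⟩
  exact preimage_coe_mem_nhds_subtype.1 (mem_interior_iff_mem_nhds.1 h1)

/-- Extension of an injective linear map on the first two factors to an isomorphism.  Hint: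
`Submodule.exists_isCompl` for the range, `k = finrank` of the complement,
`Module.finBasis`, `LinearMap.coprod`; `LinearEquiv.toContinuousLinearEquiv`. -/
theorem exists_adapted_equiv {n r : ℕ} (j : (ℂ × CN r) →ₗ[ℂ] CN n) (hj : Function.Injective j) :
    ∃ (k : ℕ) (Λ : PM r k ≃L[ℂ] CN n), n = 1 + r + k ∧
      ∀ (w : ℂ) (ζ : CN r), Λ (w, ζ, 0) = j (w, ζ) := by
  obtain ⟨q, hq⟩ := (LinearMap.range j).exists_isCompl
  let e1 : (ℂ × CN r) ≃ₗ[ℂ] LinearMap.range j := LinearEquiv.ofInjective j hj
  let e2 : CN (Module.finrank ℂ q) ≃ₗ[ℂ] q := (Module.finBasis ℂ q).equivFun.symm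
  let e : PM r (Module.finrank ℂ q) ≃ₗ[ℂ] CN n :=
    (LinearEquiv.prodAssoc ℂ ℂ (CN r) (CN (Module.finrank ℂ q))).symm ≪≫ₗ
      (e1.prodCongr e2 ≪≫ₗ Submodule.prodEquivOfIsCompl _ _ hq)
  refine ⟨Module.finrank ℂ q, e.toContinuousLinearEquiv, ?_, fun w ζ => ?_⟩
  · have := e.finrank_eq
    simp only [Module.finrank_prod, Module.finrank_self, Module.finrank_fin_fun] at this
    omega
  · show j (w, ζ) + ((e2 0 : q) : CN n) = j (w, ζ)
    simp

theorem gen_basis {E : Type*} [AddCommGroup E] [Module ℂ E] [FiniteDimensional ℂ E]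
    (B : E → E → ℂ)
    (add : ∀ x x' y, B (x + x') y = B x y + B x' y) (smul : ∀ (c : ℂ) x y, B (c • x) y = c * B x y)
    (symm : ∀ x y, B y x = star (B x y)) (neg : ∀ x, x ≠ 0 → (B x x).re < 0) {r : ℕ}
    (hr : Module.finrank ℂ E = r) :
    ∃ b : Module.Basis (Fin r) ℂ E, ∀ i j, B (b i) (b j) = if i = j then -1 else 0 := by
  subst hr
  have h0 : B 0 0 = 0 := by simpa using smul 0 0 0
  let cd : InnerProductSpace.Core ℂ E :=
    { inner := fun x y => -B y x
      conj_inner_symm := fun x y => by rw [symm x y]; simp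
      re_inner_nonneg := fun x => by
        by_cases hx : x = 0
        · simp [hx, h0]
        · simpa using (neg x hx).le
      add_left := fun x y z => by
        rw [symm (x + y) z, add, symm x z, symm y z, star_add]; ring
      smul_left := fun x y c => by
        rw [symm (c • x) y, smul, symm x y, star_mul']; simp
      definite := fun x hx => by
        by_contra h
        have := neg x h
        rw [neg_eq_zero.1 hx] at this
        simp at this }
  letI : NormedAddCommGroup E := cd.toNormedAddCommGroup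
  letI : InnerProductSpace ℂ E := InnerProductSpace.ofCore cd.toCore
  refine ⟨(stdOrthonormalBasis ℂ E).toBasis, fun i j => ?_⟩
  have h : -B (stdOrthonormalBasis ℂ E i) (stdOrthonormalBasis ℂ E j) =
      if j = i then 1 else 0 := orthonormal_iff_ite.1 (stdOrthonormalBasis ℂ E).orthonormal j i
  rw [OrthonormalBasis.coe_toBasis, ← neg_neg (B _ _), h]
  by_cases hij : i = j
  · simp [hij]
  · simp [hij, Ne.symm hij]

/-- A negative definite Hermitian form has an orthonormal basis.  Hint: the matrix
`H i j = - B (e i) (e j)` (arranged so that `star x ⬝ᵥ H *ᵥ x = - B x x`) is `PosDef`, write it as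
`Cᴴ * C` with `C` invertible (`Matrix.posDef_iff_eq_conjTranspose_mul_self` or `CFC.sqrt`) and take
`T = C⁻¹`; or use `InnerProductSpace.Core` and `stdOrthonormalBasis`. -/
theorem exists_orthonormal {r : ℕ} (B : CN r → CN r → ℂ)
    (add : ∀ x x' y, B (x + x') y = B x y + B x' y) (smul : ∀ (c : ℂ) x y, B (c • x) y = c * B x y)
    (symm : ∀ x y, B y x = star (B x y)) (neg : ∀ x, x ≠ 0 → (B x x).re < 0) :
    ∃ T : CN r ≃L[ℂ] CN r, ∀ i j,
      B (T (Pi.single i 1)) (T (Pi.single j 1)) = if i = j then -1 else 0 := by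
  obtain ⟨b, hb⟩ := gen_basis B add smul symm neg (Module.finrank_fin_fun ℂ)
  refine ⟨b.equivFun.symm.toContinuousLinearEquiv, fun i j => ?_⟩
  have h : ∀ i, b.equivFun.symm.toContinuousLinearEquiv (Pi.single i 1) = b i := fun i => by
    simp [Pi.single_apply]
  rw [h, h, hb]

/-- A null vector of a semidefinite Hermitian form on a subspace is in the kernel
(expand `B (v + c • w) (v + c • w)`). -/
theorem herm_null {E : Type*} [AddCommGroup E] [Module ℂ E] (T : Submodule ℂ E) (B : E → E → ℂ)
    (add : ∀ x x' y, B (x + x') y = B x y + B x' y) (smul : ∀ (c : ℂ) x y, B (c • x) y = c * B x y)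
    (symm : ∀ x y, B y x = star (B x y)) (nonpos : ∀ x ∈ T, (B x x).re ≤ 0) {v : E} (hv : v ∈ T)
    (h : (B v v).re = 0) : ∀ w ∈ T, B v w = 0 := by
  intro w hw
  by_contra hne
  have hn : 0 < Complex.normSq (B v w) := Complex.normSq_pos.2 hne
  have key : ∀ t : ℝ, 2 * t * Complex.normSq (B v w) +
      t ^ 2 * Complex.normSq (B v w) * (B w w).re ≤ 0 := fun t => by
    have h1 := nonpos (v + ((t : ℂ) * B v w) • w) (T.add_mem hv (T.smul_mem _ hw))
    have h2 : ∀ x, B x (v + ((t : ℂ) * B v w) • w) =
        B x v + star ((t : ℂ) * B v w) * B x w := fun x => by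
      rw [symm, add, smul, star_add, star_mul', ← symm v x, ← symm w x]
    have h3 : (B w w).im = 0 := by
      have := congrArg Complex.im (symm w w)
      simp only [RCLike.star_def, Complex.conj_im] at this
      linarith
    rw [add, smul, h2, h2, symm v w] at h1
    simp only [RCLike.star_def, Complex.add_re, Complex.mul_re, Complex.mul_im, Complex.add_im,
      Complex.conj_re, Complex.conj_im, Complex.ofReal_re, Complex.ofReal_im, h, h3] at h1
    rw [Complex.normSq_apply]
    nlinarith
  have hd := nonpos w hw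
  set d := (B w w).re
  have h1 : 0 < 1 - d := by linarith
  have h2 := key (1 / (1 - d))
  have h3 : 2 * (1 / (1 - d)) * Complex.normSq (B v w) +
      (1 / (1 - d)) ^ 2 * Complex.normSq (B v w) * d =
      Complex.normSq (B v w) * (2 - d) / (1 - d) ^ 2 := by
    field_simp
    ring
  have h4 : 0 < 2 - d := by linarith
  rw [h3] at h2
  exact absurd h2 (not_le.2 (by positivity))

/-- Negative definiteness is an open condition (compactness of the unit sphere, homogeneity). -/
theorem eventually_neg_def {X : Type*} [TopologicalSpace X] {r : ℕ} (B : X → CN r → ℂ) {x₀ : X}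
    (hom : ∀ x (c : ℝ) ζ, B x ((c : ℂ) • ζ) = (c : ℂ) ^ 2 * B x ζ)
    (cont : ∀ ζ, ContinuousAt (fun y : X × CN r => B y.1 y.2) (x₀, ζ))
    (neg : ∀ ζ, ζ ≠ 0 → (B x₀ ζ).re < 0) : ∀ᶠ x in 𝓝 x₀, ∀ ζ, ζ ≠ 0 → (B x ζ).re < 0 := by
  have h := (isCompact_sphere (0 : CN r) 1).eventually_forall_of_forall_eventually (x₀ := x₀)
    (P := fun x ζ => (B x ζ).re < 0) fun ζ hζ =>
      (Complex.continuous_re.continuousAt.comp (cont ζ)).eventually_lt continuousAt_const
        (neg ζ (by rintro rfl; simp at hζ))
  filter_upwards [h] with x hx ζ hζ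
  have h0 : 0 < ‖ζ‖ := norm_pos_iff.2 hζ
  have h1 := hx (((‖ζ‖⁻¹ : ℝ) : ℂ) • ζ) (by
    rw [mem_sphere_zero_iff_norm, norm_smul, Complex.norm_real, norm_inv, norm_norm,
      inv_mul_cancel₀ h0.ne'])
  rw [hom, ← Complex.ofReal_pow, Complex.re_ofReal_mul] at h1
  exact neg_of_mul_neg_right h1 (sq_nonneg _)

end Crest.Agent.R264
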