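import Crest.Agent.R264.P3.Cx
import Crest.Agent.R264.P3.Gen

/-!
# Row 264, P3: second order normal form of a strictly pseudoconvex hypersurface
-/

set_option autoImplicit false
open Set Filter Topology Metric Complex

noncomputable section
namespace Crest.Agent.R264

variable {r : ℕ}

/-- Pull back of a polarised function by a holomorphic map. -/
def rp (P : (ℂ × CN r) × (ℂ × CN r) → ℂ) (φ : ℂ × CN r → ℂ × CN r)
    (z : (ℂ × CN r) × (ℂ × CN r)) : ℂ := P (φ z.1, star (φ (star z.2)))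

section Aux
variable {E : Type*} [NormedAddCommGroup E] [NormedSpace ℂ E] [CompleteSpace E]

theorem normal_fderiv_prodMap {f g : E → E} (hf : ∀ x, AnalyticAt ℂ f x)
    (hg : ∀ x, AnalyticAt ℂ g x) (z α : E × E) :
    fderiv ℂ (fun z : E × E => (f z.1, g z.2)) z α = (fderiv ℂ f z.1 α.1, fderiv ℂ g z.2 α.2) := by
  have h1 := ((hf z.1).differentiableAt.hasFDerivAt.comp z hasFDerivAt_fst).prodMk
    ((hg z.2).differentiableAt.hasFDerivAt.comp z hasFDerivAt_snd)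
  have h2 : HasFDerivAt (fun z : E × E => (f z.1, g z.2)) _ z := h1
  rw [h2.fderiv]
  rfl

theorem normal_an_prodMap {f g : E → E} (hf : ∀ x, AnalyticAt ℂ f x)
    (hg : ∀ x, AnalyticAt ℂ g x) (z : E × E) :
    AnalyticAt ℂ (fun z : E × E => (f z.1, g z.2)) z :=
  ((hf z.1).comp analyticAt_fst).prod ((hg z.2).comp analyticAt_snd)

theorem normal_d2_prodMap {f g : E → E} (hf : ∀ x, AnalyticAt ℂ f x)
    (hg : ∀ x, AnalyticAt ℂ g x) (z α β : E × E) :
    d2 (fun z : E × E => (f z.1, g z.2)) z α β = (d2 f z.1 α.1 β.1, d2 g z.2 α.2 β.2) := by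
  rw [← fderiv_fderiv_apply (normal_an_prodMap hf hg z)]
  simp only [normal_fderiv_prodMap hf hg]
  rw [normal_fderiv_prodMap (f := fun x => fderiv ℂ f x β.1) (g := fun x => fderiv ℂ g x β.2)
    (fun x => analyticAt_fderiv_apply (hf x) _) (fun x => analyticAt_fderiv_apply (hg x) _),
    fderiv_fderiv_apply (hf _), fderiv_fderiv_apply (hg _)]

theorem normal_quad_an (b e : E) (L : E →L[ℂ] E) (B : E →L[ℂ] E →L[ℂ] ℂ) (ω : E) :
    AnalyticAt ℂ (fun ω => b + L ω + B ω ω • e) ω :=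
  (analyticAt_const.add (L.analyticAt ω)).add
    (((B.analyticAt_bilinear (ω, ω)).comp₂ analyticAt_id analyticAt_id).smul analyticAt_const)

omit [CompleteSpace E] in
theorem normal_quad_fderiv (b e : E) (L : E →L[ℂ] E) (B : E →L[ℂ] E →L[ℂ] ℂ) (ω v : E) :
    fderiv ℂ (fun ω => b + L ω + B ω ω • e) ω v = L v + (B v ω + B ω v) • e := by
  have h1 : HasFDerivAt (fun ω => B ω ω) _ ω := B.hasFDerivAt.clm_apply (hasFDerivAt_id ω)
  have h2 := ((hasFDerivAt_const b ω).add L.hasFDerivAt).add (h1.smul_const e)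
  have h3 : HasFDerivAt (fun ω => b + L ω + B ω ω • e) _ ω := h2
  rw [h3.fderiv]
  simp [add_comm]

theorem normal_quad_d2 (b e : E) (L : E →L[ℂ] E) (B : E →L[ℂ] E →L[ℂ] ℂ) (ω v w : E) :
    d2 (fun ω => b + L ω + B ω ω • e) ω v w = (B w v + B v w) • e := by
  rw [← fderiv_fderiv_apply (normal_quad_an b e L B ω)]
  simp only [normal_quad_fderiv]
  have h1 := (hasFDerivAt_const (L w) ω).add
    (((B w).hasFDerivAt.add (B.flip w).hasFDerivAt).smul_const e)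
  have h2 : HasFDerivAt (fun ω => L w + (B w ω + B ω w) • e) _ ω := h1
  rw [h2.fderiv]
  simp

end Aux

theorem normal_rp {P : (ℂ × CN r) × (ℂ × CN r) → ℂ} {φ : ℂ × CN r → ℂ × CN r}
    (hφ : ∀ ω, AnalyticAt ℂ φ ω) (hP : AnalyticAt ℂ P (φ 0, star (φ 0))) :
    AnalyticAt ℂ (rp P φ) 0 ∧
    (∀ α, fderiv ℂ (rp P φ) 0 α = fderiv ℂ P (φ 0, star (φ 0))
      (fderiv ℂ φ 0 α.1, star (fderiv ℂ φ 0 (star α.2)))) ∧
    ∀ α β, d2 (rp P φ) 0 α β = d2 P (φ 0, star (φ 0))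
      (fderiv ℂ φ 0 α.1, star (fderiv ℂ φ 0 (star α.2)))
      (fderiv ℂ φ 0 β.1, star (fderiv ℂ φ 0 (star β.2))) +
      fderiv ℂ P (φ 0, star (φ 0)) (d2 φ 0 α.1 β.1, star (d2 φ 0 (star α.2) (star β.2))) := by
  have hs : ∀ w, AnalyticAt ℂ (fun w => star (φ (star w))) w := fun w =>
    analyticAt_star_star (hφ _)
  have hΨ := normal_an_prodMap hφ hs 0
  have e0 : (φ (0 : (ℂ × CN r) × (ℂ × CN r)).1,
      star (φ (star (0 : (ℂ × CN r) × (ℂ × CN r)).2))) = (φ 0, star (φ 0)) := by simp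
  have hP' := e0 ▸ hP
  have hd : ∀ α : (ℂ × CN r) × (ℂ × CN r),
      fderiv ℂ (fun z : (ℂ × CN r) × (ℂ × CN r) => (φ z.1, star (φ (star z.2)))) 0 α =
        (fderiv ℂ φ 0 α.1, star (fderiv ℂ φ 0 (star α.2))) := fun α => by
    rw [normal_fderiv_prodMap hφ hs, fderiv_star_star (hφ _).differentiableAt]
    simp
  refine ⟨AnalyticAt.comp (g := P) hP' hΨ, fun α => ?_, fun α β => ?_⟩
  · have := fderiv_comp (𝕜 := ℂ) 0 (g := P) hP'.differentiableAt hΨ.differentiableAt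
    have h2 : fderiv ℂ (rp P φ) 0 = _ := this
    rw [h2, ContinuousLinearMap.comp_apply, hd, e0]
  · have := d2_comp (P := P)
      (Ψ := fun z : (ℂ × CN r) × (ℂ × CN r) => (φ z.1, star (φ (star z.2)))) (z := 0) hP' hΨ α β
    have h2 : d2 (rp P φ) 0 α β = _ := this
    rw [h2, hd, hd, e0, normal_d2_prodMap hφ hs, d2_star_star (hφ _)]
    simp

/-- Normal form.  Let `ℓ v = DP (b, b̄) (v, 0)`; `ℓ (1,0) ≠ 0` by `fderiv_sw`.  Put
`j ζ = (-ℓ (0,ζ) / ℓ (1,0), ζ)`, `B ζ ζ' = d2 P (b,b̄) (j ζ, 0) (0, star (j ζ'))`, `T` from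
`exists_orthonormal`, `e₀ = (-(I/2) / ℓ (1,0), 0)` (so `ℓ e₀ = -I/2`), `L (w, ζ) = w • e₀ + j (T ζ)`
and `φ ω = b + L ω + q ω • e₀` with `q ω = - d2 P (b,b̄) (j (T ω.2), 0) (j (T ω.2), 0) / (2 ℓ e₀)`
(a continuous bilinear map on the diagonal; its first derivative at `0` is zero).  With
`Ψ z = (φ z.1, star (φ (star z.2)))` use `d2_comp`, `analyticAt_star_star`, `fderiv_star_star`; it
is simplest to compute `fderiv (rp P φ) 0 (v, 0)` and `d2 (rp P φ) 0 (v, 0) (v', 0)` first and to get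
the second-variable statements from `fderiv_sw`, `d2_sw` applied to `rp P φ` at `0`.  For the mixed
term, `d2 Ψ 0 (v, 0) (0, w) = 0`. -/
theorem exists_normal {P : (ℂ × CN r) × (ℂ × CN r) → ℂ} {b : ℂ × CN r}
    (hP : AnalyticAt ℂ P (b, star b)) (herm : ∀ z, P (sw z) = star (P z))
    (h0 : fderiv ℂ P (b, star b) (0, (1, 0)) ≠ 0)
    (neg : ∀ v, v ≠ 0 → fderiv ℂ P (b, star b) (v, 0) = 0 →
      (d2 P (b, star b) (v, 0) (0, star v)).re < 0) :
    ∃ φ : ℂ × CN r → ℂ × CN r, (∀ ω, AnalyticAt ℂ φ ω) ∧ φ 0 = b ∧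
      Function.Bijective (fderiv ℂ φ 0) ∧
      fderiv ℂ (rp P φ) 0 (0, (1, 0)) = I / 2 ∧
      (∀ i, fderiv ℂ (rp P φ) 0 (0, (0, Pi.single i 1)) = 0) ∧
      (∀ i j, d2 (rp P φ) 0 (0, (0, Pi.single i 1)) (0, (0, Pi.single j 1)) = 0) ∧
      ∀ i j, d2 (rp P φ) 0 ((0, Pi.single i 1), 0) (0, (0, Pi.single j 1)) =
        if i = j then -1 else 0 := by
  set z₀ : (ℂ × CN r) × (ℂ × CN r) := (b, star b) with hz₀
  have hsw : sw z₀ = z₀ := sw_real b
  have hherm : ∀ᶠ z in 𝓝 z₀, P (sw z) = star (P z) := Eventually.of_forall herm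
  have f1 : ∀ v : ℂ × CN r, fderiv ℂ P z₀ (0, star v) = star (fderiv ℂ P z₀ (v, 0)) := fun v => by
    have := fderiv_sw hP hherm (v, 0)
    rw [hsw] at this
    simpa [sw] using this
  have f2 : ∀ v w : ℂ × CN r, d2 P z₀ (0, star v) (0, star w) = star (d2 P z₀ (v, 0) (w, 0)) :=
    fun v w => by
      have := d2_sw hP hherm (v, 0) (w, 0)
      rw [hsw] at this
      simpa [sw] using this
  have f3 : ∀ v w : ℂ × CN r, d2 P z₀ (w, 0) (0, star v) = star (d2 P z₀ (v, 0) (0, star w)) :=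
    fun v w => by
      have := d2_sw hP hherm (v, 0) (0, star w)
      rw [hsw, d2_symm hP] at this
      simpa [sw] using this
  let ℓ : (ℂ × CN r) →L[ℂ] ℂ := (fderiv ℂ P z₀).comp (ContinuousLinearMap.inl ℂ _ _)
  have hℓ : ∀ v, fderiv ℂ P z₀ (v, 0) = ℓ v := fun v => rfl
  have hμ : ℓ (1, 0) ≠ 0 := by
    intro h
    apply h0
    have := f1 (1, 0)
    have h1 : star ((1, 0) : ℂ × CN r) = (1, 0) := by ext <;> simp
    rw [hℓ, h, h1, star_zero] at this
    exact this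
  let ι : CN r →L[ℂ] ℂ × CN r := ContinuousLinearMap.inr ℂ ℂ (CN r)
  let j : CN r →L[ℂ] ℂ × CN r := ι - ((ℓ (1, 0))⁻¹ • ℓ.comp ι).smulRight (1, 0)
  have hj : ∀ ζ, j ζ = (0, ζ) - ((ℓ (1, 0))⁻¹ * ℓ (0, ζ)) • (1, 0) := fun ζ => rfl
  have hj2 : ∀ ζ, (j ζ).2 = ζ := fun ζ => by simp [hj]
  have hℓj : ∀ ζ, ℓ (j ζ) = 0 := fun ζ => by
    rw [hj, map_sub, map_smul, smul_eq_mul]
    field_simp
    ring
  obtain ⟨T, hT⟩ := exists_orthonormal (fun ζ ζ' => d2 P z₀ (j ζ, 0) (0, star (j ζ')))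
    (fun x x' y => by
      rw [← d2_add_left]; simp)
    (fun c x y => by
      rw [← smul_eq_mul, ← d2_smul_left]; simp)
    (fun x y => f3 _ _)
    (fun x hx => neg _ (fun h => hx (by rw [← hj2 x, h]; rfl)) (hℓj x))
  let e : ℂ × CN r := (-(I / 2) / ℓ (1, 0)) • (1, 0)
  have hℓe : ℓ e = -(I / 2) := by
    simp only [e, map_smul, smul_eq_mul]
    field_simp
  have hI : (-(I / 2) : ℂ) ≠ 0 := neg_ne_zero.2 (div_ne_zero I_ne_zero two_ne_zero)
  let J : (ℂ × CN r) →L[ℂ] ℂ × CN r :=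
    j.comp ((T : CN r →L[ℂ] CN r).comp (ContinuousLinearMap.snd ℂ ℂ (CN r)))
  let L : (ℂ × CN r) →L[ℂ] ℂ × CN r := (ContinuousLinearMap.fst ℂ ℂ (CN r)).smulRight e + J
  have hL : ∀ ω, L ω = ω.1 • e + j (T ω.2) := fun ω => rfl
  let M : (ℂ × CN r) →L[ℂ] (ℂ × CN r) × (ℂ × CN r) := (ContinuousLinearMap.inl ℂ _ _).comp J
  let B : (ℂ × CN r) →L[ℂ] (ℂ × CN r) →L[ℂ] ℂ :=
    (I⁻¹ : ℂ) • (fderiv ℂ (fderiv ℂ P) z₀).bilinearComp M M
  have hB : ∀ v w, B v w = I⁻¹ * d2 P z₀ (j (T v.2), 0) (j (T w.2), 0) := fun v w => rfl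
  have hφ0 : b + L 0 + B 0 0 • e = b := by simp
  have hD : ∀ v, fderiv ℂ (fun ω => b + L ω + B ω ω • e) 0 v = L v := fun v => by
    rw [normal_quad_fderiv]; simp
  obtain ⟨-, g1, g2⟩ := normal_rp (P := P) (normal_quad_an b e L B) (by rw [hφ0]; exact hP)
  simp only [hφ0, hD, normal_quad_d2, ← hz₀] at g1 g2
  have hse : ∀ i : Fin r, star ((0, Pi.single i 1) : ℂ × CN r) = (0, Pi.single i 1) := fun i => by
    ext l
    · simp
    · by_cases h : l = i <;> simp [h]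
  have hL1 : ∀ i : Fin r, L (0, Pi.single i 1) = j (T (Pi.single i 1)) := fun i => by simp [hL]
  refine ⟨fun ω => b + L ω + B ω ω • e, normal_quad_an b e L B, hφ0, ?_, ?_, fun i => ?_,
    fun i i' => ?_, fun i i' => ?_⟩
  · have hinj : Function.Injective (fderiv ℂ (fun ω => b + L ω + B ω ω • e) 0) := by
      refine (injective_iff_map_eq_zero _).2 fun v hv => ?_
      rw [hD] at hv
      have h1 : v.1 = 0 := by
        have := congrArg ℓ hv
        rw [hL, map_add, map_smul, hℓj, hℓe, map_zero, add_zero, smul_eq_mul] at this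
        exact (mul_eq_zero.1 this).resolve_right hI
      have h2 : T v.2 = 0 := by
        rw [hL, h1, zero_smul, zero_add] at hv
        rw [← hj2 (T v.2), hv]; rfl
      exact Prod.ext h1 (T.injective (h2.trans (map_zero T).symm))
    exact ⟨hinj, LinearMap.injective_iff_surjective.1
      (show Function.Injective (fderiv ℂ (fun ω => b + L ω + B ω ω • e) 0 :
        (ℂ × CN r) →ₗ[ℂ] ℂ × CN r) from hinj)⟩
  · rw [g1]
    have : L (star ((1, 0) : ℂ × CN r)) = e := by simp [hL]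
    rw [map_zero, this, f1, hℓ, hℓe]
    simp [neg_div]
  · rw [g1, map_zero, hse, hL1, f1, hℓ, hℓj, star_zero]
  · rw [g2, map_zero, hse, hse, hL1, hL1, f2]
    simp only [map_zero, add_zero, zero_smul]
    rw [f1, ← star_add, hℓ, map_smul, hℓe, hB, hB, d2_symm hP (j (T (Pi.single i' 1)), 0),
      smul_eq_mul]
    have : d2 P z₀ (j (T (Pi.single i 1)), 0) (j (T (Pi.single i' 1)), 0) +
      (I⁻¹ * d2 P z₀ (j (T (Pi.single i 1)), 0) (j (T (Pi.single i' 1)), 0) +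
        I⁻¹ * d2 P z₀ (j (T (Pi.single i 1)), 0) (j (T (Pi.single i' 1)), 0)) * -(I / 2) = 0 := by
      field_simp
      ring
    rw [this, star_zero]
  · rw [g2, hse, hL1, hL1]
    simp only [map_zero, add_zero, zero_smul, star_zero, zero_apply, Prod.mk_zero_zero]
    exact hT i i'

end Crest.Agent.R264
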