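import Crest.Agent.R264.P3.Pol

/-!
# Row 264, P3: coordinates, reparametrisation of raw Segre data
-/

set_option autoImplicit false
open Set Filter Topology Metric Complex

noncomputable section
namespace Crest.Agent.R264.P3

variable {N r k : ℕ} {σ : SegRaw N r k}

theorem Pol2_mul {E : Type*} [NormedAddCommGroup E] [NormedSpace ℂ E] {u w : E → ℂ} {x v : E}
    (hu : DifferentiableAt ℂ u x) (hw : DifferentiableAt ℂ w x) (h0 : w x = 0) (h1 : u x ≠ 0)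
    (h : fderiv ℂ (fun y => u y * w y) x v = 0) : fderiv ℂ w x v = 0 := by
  rw [fderiv_fun_mul hu hw, h0] at h
  simpa [h1] using h

/-- The adapted coordinates are coordinates.  Hint: the last component gives
`fderiv t (a 0) v = 0`, so `v = fderiv a 0 β`; apply the chain rule to `ω ↦ σ.co 0 (σ.a ω)`
(`σ.co 0` is differentiable at `a 0` by `amb_analyticAt`, `fderiv_rho_analyticAt`; `σ.p 0 = 0`).
First component: `fderiv (pol σ) 0 (β, 0) = 0`, and by `fderiv_sw`, `cpol_sw`, `fderiv_rho_pol`,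
`fderiv_rho_apply` this number is `star (star β.1 * (I/2))`, so `β.1 = 0`; second component with
`n3`: `β.2 = 0`. -/
theorem co_inj (hρ : IsHerm σ.ρ) (ha : AnalyticAt ℂ σ.a 0) (ht : Differentiable ℂ σ.t)
    (h0 : σ.ϱ (σ.a 0) 0 = 0) (n0 : σ.r0 (σ.a 0) 0 = I / 2) (n1 : σ.r1 (σ.a 0) 0 = 0)
    (n3 : ∀ i j, fderiv ℂ (fun ω => σ.r1 (σ.a ω) 0 j) 0 (0, Pi.single i 1) =
      if i = j then -1 else 0) {v : CN N}
    (span : fderiv ℂ σ.t (σ.a 0) v = 0 → ∃ β, v = fderiv ℂ σ.a 0 β)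
    (h : fderiv ℂ (σ.co 0) (σ.a 0) v = 0) : v = 0 := by
  have ha' : AnalyticAt ℂ σ.a (star 0) := by rwa [star_zero]
  have hi : DifferentiableAt ℂ (fun x : CN N => ((x, 0) : CN N × (ℂ × CN r))) (σ.a 0) := by
    fun_prop
  have df : DifferentiableAt ℂ (fun x => σ.ϱ x 0) (σ.a 0) :=
    DifferentiableAt.comp (f := fun x : CN N => ((x, 0) : CN N × (ℂ × CN r))) (σ.a 0)
      (amb_analyticAt (σ.a 0) ha').differentiableAt hi
  have dd : ∀ β, DifferentiableAt ℂ (fun x => fderiv ℂ (σ.ϱ x) 0 β) (σ.a 0) := fun β =>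
    DifferentiableAt.comp (f := fun x : CN N => ((x, 0) : CN N × (ℂ × CN r))) (σ.a 0)
      (fderiv_rho_analyticAt (σ.a 0) ha' β).differentiableAt hi
  have dg : DifferentiableAt ℂ (fun x => σ.r0 x 0) (σ.a 0) := dd _
  have dh : ∀ j, DifferentiableAt ℂ (fun x => σ.r1 x 0 j) (σ.a 0) := fun j => dd _
  have hp : σ.p 0 = 0 := by rw [SegRaw.p, star_zero, n1, smul_zero]
  have g0 : σ.r0 (σ.a 0) 0 ≠ 0 := by rw [n0]; simp
  have g1 : 2 * I * σ.r0 (σ.a 0) 0 ≠ 0 := by simp [g0]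
  have e1 : σ.wc 0 = fun x => -(σ.r0 x 0)⁻¹ * σ.ϱ x 0 := by
    funext x
    rw [SegRaw.wc]
    ring
  have e2 : σ.zc 0 (σ.p 0) = fun x j => (2 * I * σ.r0 x 0)⁻¹ * σ.r1 x 0 j := by
    funext x j
    simp [SegRaw.zc, hp]
  have d1 := (dg.inv g0).neg
  have d2 := (dg.const_mul (2 * I)).inv g1
  have dw : DifferentiableAt ℂ (σ.wc 0) (σ.a 0) := by rw [e1]; exact d1.mul df
  have dz : DifferentiableAt ℂ (σ.zc 0 (σ.p 0)) (σ.a 0) := by
    rw [e2]; exact differentiableAt_pi.2 fun j => d2.mul (dh j)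
  have hc := (dw.hasFDerivAt.prodMk (dz.hasFDerivAt.prodMk (ht (σ.a 0)).hasFDerivAt)).fderiv
  rw [show σ.co 0 = fun x => (σ.wc 0 x, σ.zc 0 (σ.p 0) x, σ.t x) from rfl, hc] at h
  simp only [ContinuousLinearMap.prod_apply, Prod.mk_eq_zero] at h
  obtain ⟨h1, h2, h3⟩ := h
  obtain ⟨β, rfl⟩ := span h3
  rw [e1] at h1
  replace h1 := Pol2_mul d1 df h0 (neg_ne_zero.2 (inv_ne_zero g0)) h1
  have h4 : ∀ j, fderiv ℂ (fun ω => σ.r1 (σ.a ω) 0 j) 0 β = 0 := fun j => by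
    rw [fderiv_fun_comp (g := fun x => σ.r1 x 0 j) 0 (dh j) ha.differentiableAt]
    refine Pol2_mul d2 (dh j) (congrFun n1 j) (inv_ne_zero g1) ?_
    rw [e2, fderiv_pi (φ := fun j x => (2 * I * σ.r0 x 0)⁻¹ * σ.r1 x 0 j)
      fun j => d2.mul (dh j)] at h2
    exact congrFun h2 j
  have hP := pol_analyticAt ha ha'
  have h5 : fderiv ℂ (pol σ) (0, 0) (β, 0) = 0 := by
    rw [← pe_fderiv_fst hP.differentiableAt, ← h1]
    exact congrArg (fun L : (ℂ × CN r) →L[ℂ] ℂ => L β)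
      (fderiv_fun_comp (g := fun x => σ.ϱ x 0) 0 df ha.differentiableAt)
  have h6 := fderiv_sw hP (.of_forall (cpol_sw hρ σ.a)) (β, 0)
  simp only [sw, star_zero, h5] at h6
  rw [← fderiv_rho_pol ha ha', fderiv_rho_apply, n1] at h6
  have b1 : β.1 = 0 := by simpa [g0] using h6
  have b2 : β = ∑ i, β.2 i • ((0, Pi.single i 1) : ℂ × CN r) := by
    refine Prod.ext ?_ ?_
    · simp [b1, Prod.fst_sum]
    · funext j
      simp [Prod.snd_sum, Finset.sum_apply, Pi.single_apply]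
  have b3 : β.2 = 0 := by
    funext j
    have := h4 j
    rw [b2, map_sum] at this
    simp only [map_smul, n3] at this
    simpa using this
  rw [show β = 0 from Prod.ext b1 b3, map_zero]

/-- Reparametrisation of the slice. -/
def re (σ : SegRaw N r k) (φ : ℂ × CN r → ℂ × CN r) (δ : ℝ) : SegRaw N r k :=
  ⟨σ.ρ, fun ω => σ.a (φ ω), σ.t, δ⟩

theorem re_rho (φ : ℂ × CN r → ℂ × CN r) (δ : ℝ) (x : CN N) (η : ℂ × CN r) :
    (re σ φ δ).ϱ x η = σ.ϱ x (star (φ (star η))) := by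
  simp [re, SegRaw.ϱ]

/-- The leaves do not depend on the parametrisation (`mem_L_iff`, chain rule,
`fderiv_star_star`; only surjectivity of the derivative is used). -/
theorem re_L (V : Set (CN N)) {φ : ℂ × CN r → ℂ × CN r} (δ : ℝ) {η : ℂ × CN r}
    (hφ : AnalyticAt ℂ φ (star η)) (hs : Function.Surjective (fderiv ℂ φ (star η)))
    (ha : AnalyticAt ℂ σ.a (φ (star η)))
    (h1 : (re σ φ δ).r0 ((re σ φ δ).a (star η)) η ≠ 0)
    (h2 : σ.r0 (σ.a (φ (star η))) (star (φ (star η))) ≠ 0) :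
    (re σ φ δ).L V η = σ.L V (star (φ (star η))) := by
  have ha' : AnalyticAt ℂ σ.a (star (star (φ (star η)))) := by rwa [star_star]
  have hd : ∀ x β, fderiv ℂ ((re σ φ δ).ϱ x) η β =
      fderiv ℂ (σ.ϱ x) (star (φ (star η))) (star (fderiv ℂ φ (star η) (star β))) := fun x β => by
    rw [funext (re_rho φ δ x), fderiv_fun_comp (f := fun η => star (φ (star η))) η
      (rho_analyticAt x ha').differentiableAt (analyticAt_star_star hφ).differentiableAt,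
      ContinuousLinearMap.comp_apply, fderiv_star_star hφ.differentiableAt]
  ext x
  rw [mem_L_iff V h1, mem_L_iff V (by rwa [star_star]), re_rho, star_star]
  simp only [hd]
  refine and_congr_right fun _ => and_congr_right fun _ => exists_congr fun c =>
    ⟨fun h β => ?_, fun h β => h _⟩
  obtain ⟨γ, hγ⟩ := hs (star β)
  have := h (star γ)
  rwa [star_star, hγ, star_star] at this

/-- Transfer of genericity along a local homeomorphism. -/
theorem gen_transfer {X : Type*} [TopologicalSpace X] {ψ χ : X → X} {O₁ O₂ S S' A A' : Set X}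
    {x₀ : X} (h₁ : IsOpen O₁) (h₂ : IsOpen O₂) (hx : x₀ ∈ O₁) (m₁ : MapsTo ψ O₁ O₂)
    (m₂ : MapsTo χ O₂ O₁) (c₁ : ContinuousOn ψ O₁) (c₂ : ContinuousOn χ O₂)
    (li : ∀ x ∈ O₁, χ (ψ x) = x) (ri : ∀ y ∈ O₂, ψ (χ y) = y)
    (hS : ∀ x ∈ O₁, x ∈ S' → ψ x ∈ S) (hA : ∀ x ∈ O₁, ψ x ∈ A → x ∈ A')
    (h : ∀ᶠ y in 𝓝[S] (ψ x₀), y ∈ closure A) : ∀ᶠ x in 𝓝[S'] x₀, x ∈ closure A' := by
  have ho : ∀ᶠ x in 𝓝[S'] x₀, x ∈ O₁ := mem_nhdsWithin_of_mem_nhds (h₁.mem_nhds hx)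
  have ht : Tendsto ψ (𝓝[S'] x₀) (𝓝[S] (ψ x₀)) := tendsto_nhdsWithin_iff.2
    ⟨(c₁.continuousAt (h₁.mem_nhds hx)).mono_left nhdsWithin_le_nhds, by
      filter_upwards [ho, self_mem_nhdsWithin] with x using hS x⟩
  filter_upwards [ho, ht.eventually h] with x h1 h2
  rw [← li x h1]
  refine ((c₂ _ (m₁ h1)).mono inter_subset_left).mem_closure (h₂.inter_closure ⟨m₁ h1, h2⟩)
    fun y hy => hA _ (m₂ hy.1) ?_
  rw [ri y hy.1]
  exact hy.2

end Crest.Agent.R264.P3
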