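import Crest.Agent.R264.P3.PreDef
import Crest.Agent.R264.P3.Pol2
import Crest.Agent.R264.P3.Normal

/-!
# Row 264, P3: normalised Segre data at a generic point
-/

set_option autoImplicit false
open Set Filter Topology Metric Complex

noncomputable section
namespace Crest.Agent.R264.P3

variable {N n : ℕ} {U : Set (CN N)} {F : AlgFrame n U} {r k : ℕ}

theorem pol_re (τ : SegRaw N r k) (φ : ℂ × CN r → ℂ × CN r) (δ : ℝ) :
    pol (re τ φ δ) = rp (pol τ) φ := by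
  funext z
  simp [pol, rp, cpol, re]

theorem PreSegre.exists_segre (σ : PreSegre F r k) :
    ∃ σ' : Segre F r k, σ'.ρ = σ.ρ ∧ σ'.a 0 ∈ σ.a '' ball 0 σ.δ := by
  classical
  let A : TopologicalSpace.countableBasis (CN N) × Bool → Set (ℂ × CN r) := fun i =>
    if i.2 then {η' | η' ∈ σ.toSegRaw.S ∧ σ.toSegRaw.L F.V η' ∩ i.1 ⊆ closure U \ U}
    else {η' | η' ∈ σ.toSegRaw.S ∧ σ.toSegRaw.L F.V η' ∩ i.1 ∩ F.Gd = ∅}
  haveI : Countable (TopologicalSpace.countableBasis (CN N)) :=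
    (TopologicalSpace.countable_countableBasis _).to_subtype
  obtain ⟨η₁, hη₁, hgen⟩ := exists_generic (isLocallyClosed_S σ.a_an) ⟨0, σ.zero_mem⟩ A
  have hb : star η₁ ∈ ball (0 : ℂ × CN r) σ.δ := star_mem_ball.2 hη₁.1
  have ha1 : AnalyticAt ℂ σ.a (star η₁) := σ.a_an _ hb
  obtain ⟨φ, hφ, hφ0, hbij, m0, m1, m2, m3⟩ := exists_normal (P := pol σ.toSegRaw) (b := star η₁)
    (by rw [star_star]; exact pol_analyticAt ha1 ha1) (cpol_sw σ.herm σ.a)
    (by rw [star_star, ← fderiv_rho_pol ha1 ha1]; exact σ.r0_ne η₁ hη₁)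
    (by rw [star_star]; exact σ.neg η₁ hη₁)
  have haφ : AnalyticAt ℂ (fun ω => σ.a (φ ω)) 0 := AnalyticAt.comp (hφ0 ▸ ha1) (hφ 0)
  have haφ' : AnalyticAt ℂ (fun ω => σ.a (φ ω)) (star 0) := by rwa [star_zero]
  have n0 : ∀ δ, (re σ.toSegRaw φ δ).r0 (σ.a (φ 0)) 0 = I / 2 := fun δ => by
    have := fderiv_rho_pol (σ := re σ.toSegRaw φ δ) haφ haφ' (1, 0)
    rw [pol_re] at this
    exact this.trans m0
  have hN : ∀ᶠ ω in 𝓝 (0 : ℂ × CN r), φ ω ∈ ball (0 : ℂ × CN r) σ.δ ∧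
      (re σ.toSegRaw φ 1).r0 (σ.a (φ ω)) (star ω) ≠ 0 := by
    refine ((hφ 0).continuousAt.eventually (isOpen_ball.mem_nhds (hφ0 ▸ hb))).and ?_
    have h1 := continuousAt_r0 (σ := re σ.toSegRaw φ 1) haφ'
    have h2 : ∀ᶠ η in 𝓝 (0 : ℂ × CN r),
        (re σ.toSegRaw φ 1).r0 ((re σ.toSegRaw φ 1).a (star η)) η ≠ 0 := by
      refine h1.eventually_ne ?_
      rw [star_zero]
      exact (n0 1).trans_ne (div_ne_zero I_ne_zero two_ne_zero)
    have h3 : Tendsto (star : ℂ × CN r → ℂ × CN r) (𝓝 0) (𝓝 0) := by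
      simpa using (continuous_star (R := ℂ × CN r)).tendsto 0
    filter_upwards [h3.eventually h2] with ω hω
    rwa [star_star] at hω
  obtain ⟨δ, hδ, hball⟩ := Metric.eventually_nhds_iff_ball.1 hN
  obtain ⟨χ, O₁, R, hR, h0O, hOb, inv⟩ := exists_locInv (hφ 0) hbij (ball_mem_nhds 0 hδ)
  let τ : SegRaw N r k := re σ.toSegRaw φ δ
  let ψ : ℂ × CN r → ℂ × CN r := fun η => star (φ (star η))
  have hψ0 : ψ 0 = η₁ := by simp [ψ, hφ0]
  have hO₁ : IsOpen (star ⁻¹' O₁ : Set (ℂ × CN r)) := inv.o1.preimage continuous_star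
  have h0O' : (0 : ℂ × CN r) ∈ (star ⁻¹' O₁ : Set (ℂ × CN r)) := by simpa using h0O
  have hρψ : ∀ η, τ.ϱ (τ.a (star η)) η = σ.toSegRaw.ϱ (σ.a (star (ψ η))) (ψ η) := fun η => by
    rw [re_rho, star_star]; rfl
  have hS : ∀ η ∈ (star ⁻¹' O₁ : Set (ℂ × CN r)), η ∈ τ.S ↔ ψ η ∈ σ.toSegRaw.S := by
    intro η hη
    constructor
    · intro h
      exact ⟨star_mem_ball.2 (hball _ (hOb hη)).1, hρψ η ▸ h.2⟩
    · intro h
      exact ⟨star_mem_ball.1 (hOb hη), (hρψ η).trans h.2⟩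
  have hL : ∀ η ∈ (star ⁻¹' O₁ : Set (ℂ × CN r)), ψ η ∈ σ.toSegRaw.S →
      τ.L F.V η = σ.toSegRaw.L F.V (ψ η) := by
    intro η hη h
    refine re_L F.V δ (hφ _) (fun w => ⟨fderiv ℂ χ (φ (star η)) w, ?_⟩)
      (σ.a_an _ (hball _ (hOb hη)).1) ?_ ?_
    · have := inv.fderiv_right (inv.m1 hη) w
      rwa [inv.li _ hη] at this
    · have := (hball _ (hOb hη)).2
      rw [star_star] at this
      exact this
    · have := σ.r0_ne _ h
      rwa [star_star] at this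
  have hL0 : τ.L F.V 0 = σ.toSegRaw.L F.V η₁ := by
    rw [hL 0 h0O' (hψ0 ▸ hη₁), hψ0]
  have transfer : ∀ {B B' : Set (ℂ × CN r)},
      (∀ η ∈ (star ⁻¹' O₁ : Set (ℂ × CN r)), ψ η ∈ B → η ∈ B') →
      (∀ᶠ y in 𝓝[σ.toSegRaw.S] η₁, y ∈ closure B) → ∀ᶠ η in 𝓝[τ.S] 0, η ∈ closure B' := by
    intro B B' hB h
    refine gen_transfer (ψ := ψ) (χ := fun η => star (χ (star η)))
      (O₂ := star ⁻¹' ball (φ 0) R) hO₁ (isOpen_ball.preimage continuous_star) h0O'
      (fun η hη => ?_) (fun η hη => ?_) ?_ ?_ (fun η hη => ?_) (fun η hη => ?_)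
      (fun η hη => (hS η hη).1) hB (hψ0 ▸ h)
    · simpa [ψ] using inv.m1 hη
    · simpa using inv.m2 hη
    · exact continuous_star.comp_continuousOn
        (inv.a1.continuousOn.comp continuous_star.continuousOn fun _ h => h)
    · exact continuous_star.comp_continuousOn
        (inv.a2.continuousOn.comp continuous_star.continuousOn fun _ h => h)
    · simp only [ψ, star_star]
      rw [inv.li _ hη, star_star]
    · simp only [ψ, star_star]
      rw [inv.ri _ hη, star_star]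
  have hgood : F.GoodSide (σ.a (φ 0)) σ.ρ := hφ0 ▸ σ.good η₁ hη₁
  have n1 : τ.r1 (σ.a (φ 0)) 0 = 0 := by
    funext i
    have := fderiv_rho_pol (σ := τ) haφ haφ' (0, Pi.single i 1)
    rw [pol_re] at this
    exact this.trans (m1 i)
  have n3 : ∀ i j, fderiv ℂ (fun ω => τ.r1 (σ.a (φ ω)) 0 j) 0 (0, Pi.single i 1) =
      if i = j then -1 else 0 := by
    intro i j
    have := fderiv_r1_pol (σ := τ) haφ haφ' j (0, Pi.single i 1)
    rw [pol_re] at this
    exact this.trans (m3 i j)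
  have basis : ∀ q : CN N, ∀ W ∈ 𝓝 q, ∃ O ∈ TopologicalSpace.countableBasis (CN N),
      q ∈ O ∧ O ⊆ W := fun q W hW =>
    (TopologicalSpace.isBasis_countableBasis (CN N)).mem_nhds_iff.1 hW
  refine ⟨{ toSegRaw := τ
            dim := σ.dim
            δ_pos := hδ
            good := hgood
            a_diff := fun ω hω => (AnalyticAt.comp (σ.a_an _ (hball ω hω).1)
              (hφ ω)).differentiableAt.differentiableWithinAt
            a_mem := fun ω hω => σ.a_mem (hball ω hω).1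
            t_diff := σ.t_diff
            t_a := fun ω hω => (σ.t_a _ (hball ω hω).1).trans
              (σ.t_a _ (hball 0 (mem_ball_self hδ)).1).symm
            n0 := n0 δ
            n1 := n1
            n2 := ?_
            n3 := n3
            coord := ?_
            leaf := ?_
            genA := ?_
            genB := ?_ }, rfl, φ 0, hφ0 ▸ hb, rfl⟩
  · ext i j
    have := r2_pol (σ := τ) haφ haφ' i j
    rw [pol_re] at this
    exact this.trans (m2 i j)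
  · intro c hc
    refine AlgFrame.xi_indep hgood.mem hgood.dv_ne (co_inj (σ := τ) σ.herm haφ σ.t_diff ?_ (n0 δ) n1
      n3 (fun ht => ?_) hc)
    · have := ((hS 0 h0O').2 (hψ0 ▸ hη₁)).2
      rwa [star_zero] at this
    · obtain ⟨β, hβ⟩ := σ.span (φ 0) (hφ0 ▸ hb) c ht
      obtain ⟨β', rfl⟩ := hbij.2 β
      refine ⟨β', hβ.trans ?_⟩
      have := fderiv_comp (𝕜 := ℂ) 0 (g := σ.a) (f := φ) (hφ0 ▸ ha1.differentiableAt)
        (hφ 0).differentiableAt
      exact (congrArg (fun L : (ℂ × CN r) →L[ℂ] CN N => L β') this).symm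
  · obtain ⟨O, hO, h⟩ := σ.leaf
    refine ⟨O, hO, (show σ.a (φ 0) ∈ O from hφ0 ▸ (h η₁ hη₁).1), ?_⟩
    filter_upwards [mem_nhdsWithin_of_mem_nhds (hO₁.mem_nhds h0O'), self_mem_nhdsWithin]
      with η hη hηS x hx
    have h1 := (hS η hη).1 hηS
    exact (h _ h1).2 x (hL η hη h1 ▸ hx)
  · intro q W hW
    obtain ⟨O, hO, hq, hOW⟩ := basis q W hW
    refine ⟨O, TopologicalSpace.isOpen_of_mem_countableBasis hO, hq, hOW, fun h => ?_⟩
    refine transfer (B := A (⟨O, hO⟩, true)) (fun η hη hB => ?_) (hgen _ ⟨hη₁, hL0 ▸ h⟩)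
    exact ⟨(hS η hη).2 hB.1, (hL η hη hB.1).symm ▸ hB.2⟩
  · intro q W hW
    obtain ⟨O, hO, hq, hOW⟩ := basis q W hW
    refine ⟨O, TopologicalSpace.isOpen_of_mem_countableBasis hO, hq, hOW, fun h => ?_⟩
    refine transfer (B := A (⟨O, hO⟩, false)) (fun η hη hB => ?_) (hgen _ ⟨hη₁, hL0 ▸ h⟩)
    exact ⟨(hS η hη).2 hB.1, (hL η hη hB.1).symm ▸ hB.2⟩

end Crest.Agent.R264.P3
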