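import Crest.Agent.R264.P3.Cx
import Crest.Agent.R264.P3.Gen

/-!
# Row 264, P3: negative subspaces of the Levi form, affine pull back
-/

set_option autoImplicit false
open Set Filter Topology Metric

noncomputable section
namespace Crest.Agent.R264

section General
variable {E : Type} [NormedAddCommGroup E] [NormedSpace ℂ E] [FiniteDimensional ℂ E]
  [StarAddMonoid E] [StarModule ℂ E] [ContinuousStar E]

/-- `T` is a space of complex tangent vectors on which the Levi form is negative definite. -/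
def NegSub (P : E × E → ℂ) (u : E) (T : Submodule ℂ E) : Prop :=
  ∀ v ∈ T, fderiv ℂ P (u, star u) (v, 0) = 0 ∧
    (v ≠ 0 → (d2 P (u, star u) (v, 0) (0, star v)).re < 0)

/-- Hint: the set of attained dimensions is nonempty (`T = ⊥`) and bounded by `finrank E`
(`Nat.findGreatest`, or `Nat.find` on the codimension). -/
theorem exists_max_negSub (P : E × E → ℂ) (A : Set E) (hA : A.Nonempty) :
    ∃ u ∈ A, ∃ T, NegSub P u T ∧
      ∀ u' ∈ A, ∀ T', NegSub P u' T' → Module.finrank ℂ T' ≤ Module.finrank ℂ T := by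
  classical
  obtain ⟨u₀, hu₀⟩ := hA
  have h0 : NegSub P u₀ ⊥ := by
    intro v hv
    rw [(Submodule.mem_bot ℂ).1 hv]
    exact ⟨map_zero _, fun h => absurd rfl h⟩
  let Q : ℕ → Prop := fun k => ∃ u ∈ A, ∃ T, NegSub P u T ∧ Module.finrank ℂ T = k
  have h1 : Q (Nat.findGreatest Q (Module.finrank ℂ E)) :=
    Nat.findGreatest_spec (Submodule.finrank_le ⊥) ⟨u₀, hu₀, ⊥, h0, rfl⟩
  obtain ⟨u, hu, T, hT, hk⟩ := h1
  refine ⟨u, hu, T, hT, fun u' hu' T' hT' => ?_⟩
  rw [hk]
  exact Nat.le_findGreatest (Submodule.finrank_le T') ⟨u', hu', T', hT', rfl⟩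

/-- A tangent vector orthogonal to a maximal negative subspace is in the kernel of the Levi form.
Hint: `B x y = d2 P (u, ū) (x,0) (0, star y)` is Hermitian (`d2_sw`, `d2_symm`).  If `Re B v v < 0`
then `v ∉ T` (as `B v v = 0` for `v ∈ T`) and `T ⊔ span {v}` is a larger `NegSub`
(`Submodule.finrank_lt_finrank_of_lt`); so `Re B v v = 0`; use `herm_null` on `ker`. -/
theorem null_of_ort {P : E × E → ℂ} {u : E} (hP : AnalyticAt ℂ P (u, star u))
    (herm : ∀ᶠ z in 𝓝 (u, star u), P (sw z) = star (P z))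
    (levi : ∀ v, fderiv ℂ P (u, star u) (v, 0) = 0 → (d2 P (u, star u) (v, 0) (0, star v)).re ≤ 0)
    {T : Submodule ℂ E} (hT : NegSub P u T)
    (hmax : ∀ T', NegSub P u T' → Module.finrank ℂ T' ≤ Module.finrank ℂ T) {v : E}
    (hv : fderiv ℂ P (u, star u) (v, 0) = 0)
    (ho : ∀ w ∈ T, d2 P (u, star u) (v, 0) (0, star w) = 0) :
    ∀ w, fderiv ℂ P (u, star u) (w, 0) = 0 → d2 P (u, star u) (v, 0) (0, star w) = 0 := by
  obtain ⟨B, hB⟩ : ∃ B : E → E → ℂ, B = fun x y => d2 P (u, star u) (x, 0) (0, star y) := ⟨_, rfl⟩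
  have hB' : ∀ x y, d2 P (u, star u) (x, 0) (0, star y) = B x y := fun x y => by rw [hB]
  have add : ∀ x x' y, B (x + x') y = B x y + B x' y := fun x x' y => by
    rw [← hB', ← hB', ← hB', ← d2_add_left, Prod.mk_add_mk, add_zero]
  have smul : ∀ (c : ℂ) x y, B (c • x) y = c * B x y := fun c x y => by
    rw [← hB', ← hB', ← smul_eq_mul, ← d2_smul_left, Prod.smul_mk, smul_zero]
  have symm : ∀ x y, B y x = star (B x y) := fun x y => by
    rw [← hB', ← hB', ← d2_sw hP herm, sw_real, d2_symm hP]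
    simp [sw]
  let K : Submodule ℂ E := LinearMap.ker
    ((fderiv ℂ P (u, star u)).toLinearMap.comp (LinearMap.inl ℂ E E))
  have hK : ∀ x, x ∈ K ↔ fderiv ℂ P (u, star u) (x, 0) = 0 := fun x => Iff.rfl
  simp only [hB'] at ho levi ⊢
  have hvv : (B v v).re = 0 := by
    by_contra hne
    have hlt : (B v v).re < 0 := lt_of_le_of_ne (levi v hv) hne
    have hvT : v ∉ T := fun h => hne (by rw [ho v h]; rfl)
    have hN : NegSub P u (T ⊔ Submodule.span ℂ {v}) := by
      intro x hx
      obtain ⟨t, ht, y, hy, rfl⟩ := Submodule.mem_sup.1 hx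
      obtain ⟨c, rfl⟩ := Submodule.mem_span_singleton.1 hy
      refine ⟨(hK _).1 (K.add_mem ((hK _).2 (hT t ht).1) (K.smul_mem c ((hK _).2 hv))),
        fun hne0 => ?_⟩
      have e1 : ∀ x, B x (t + c • v) = B x t + star c * B x v := fun x => by
        rw [symm, add, smul, star_add, star_mul', ← symm t x, ← symm v x]
      have e2 : B v t = 0 := ho t ht
      have e3 : B t v = 0 := by rw [symm v t, e2, star_zero]
      have e4 : (B (t + c • v) (t + c • v)).re = (B t t).re + Complex.normSq c * (B v v).re := by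
        rw [add, smul, e1, e1, e2, e3, mul_zero, add_zero, zero_add, ← mul_assoc,
          RCLike.star_def, Complex.mul_conj, Complex.add_re, Complex.re_ofReal_mul]
      rw [hB', e4]
      by_cases ht0 : t = 0
      · have hc : c ≠ 0 := by
          rintro rfl
          exact hne0 (by simp [ht0])
        have h00 : B t t = 0 := by
          have := smul 0 t t
          rwa [zero_smul, zero_mul, ← ht0] at this
        rw [h00, Complex.zero_re, zero_add]
        exact mul_neg_of_pos_of_neg (Complex.normSq_pos.2 hc) hlt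
      · have h1 := (hT t ht).2 ht0
        rw [hB'] at h1
        have h2 := mul_nonpos_of_nonneg_of_nonpos (Complex.normSq_nonneg c) hlt.le
        linarith
    have hlt2 : T < T ⊔ Submodule.span ℂ {v} :=
      lt_of_le_of_ne le_sup_left fun h => hvT
        (h ▸ Submodule.mem_sup_right (Submodule.mem_span_singleton_self v))
    exact absurd (hmax _ hN) (not_le.2 (Submodule.finrank_lt_finrank_of_lt hlt2))
  exact herm_null K B add smul symm (fun x hx => levi x ((hK x).1 hx)) ((hK v).2 hv) hvv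

variable {E' : Type} [NormedAddCommGroup E'] [NormedSpace ℂ E'] [FiniteDimensional ℂ E']
  [StarAddMonoid E'] [StarModule ℂ E'] [ContinuousStar E']

/-- Pull back of a polarised function by an affine map. -/
def pull (P : E × E → ℂ) (u₀ : E) (Λ : E' →L[ℂ] E) (z : E' × E') : ℂ :=
  P (u₀ + Λ z.1, star (u₀ + Λ (star z.2)))

/-- The linear part of the pull back. -/
def negL (Λ : E' →L[ℂ] E) : (E' × E') →L[ℂ] (E × E) :=
  LinearMap.toContinuousLinearMap
    { toFun := fun z => (Λ z.1, star (Λ (star z.2)))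
      map_add' := fun x y => by simp
      map_smul' := fun c x => by simp }

omit [FiniteDimensional ℂ E] [ContinuousStar E] [ContinuousStar E'] in
theorem negL_apply (Λ : E' →L[ℂ] E) (z : E' × E') :
    negL Λ z = (Λ z.1, star (Λ (star z.2))) := rfl

omit [FiniteDimensional ℂ E] [ContinuousStar E] [ContinuousStar E'] in
theorem neg_pt (u₀ : E) (Λ : E' →L[ℂ] E) (z : E' × E') :
    (u₀ + Λ z.1, star (u₀ + Λ (star z.2))) = (u₀, star u₀) + negL Λ z := by
  rw [negL_apply, Prod.mk_add_mk, star_add]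

omit [FiniteDimensional ℂ E] [ContinuousStar E] [ContinuousStar E'] in
theorem neg_pull_eq (P : E × E → ℂ) (u₀ : E) (Λ : E' →L[ℂ] E) :
    pull P u₀ Λ = fun z => P ((u₀, star u₀) + negL Λ z) := by
  funext z
  rw [pull, neg_pt]

/-- Hint: `z ↦ (Λ z.1, star (Λ (star z.2)))` is complex linear
(`LinearMap.toContinuousLinearMap`), so `pull P u₀ Λ z = P ((u₀, star u₀) + L z)`. -/
theorem pull_analyticAt {P : E × E → ℂ} {u₀ : E} {Λ : E' →L[ℂ] E} {z : E' × E'}
    (hP : AnalyticAt ℂ P (u₀ + Λ z.1, star (u₀ + Λ (star z.2)))) :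
    AnalyticAt ℂ (pull P u₀ Λ) z := by
  rw [neg_pt] at hP
  rw [neg_pull_eq]
  exact AnalyticAt.comp (f := fun z => (u₀, star u₀) + negL Λ z) hP
    (analyticAt_const.add ((negL Λ).analyticAt z))

theorem fderiv_pull {P : E × E → ℂ} {u₀ : E} {Λ : E' →L[ℂ] E} {z : E' × E'}
    (hP : AnalyticAt ℂ P (u₀ + Λ z.1, star (u₀ + Λ (star z.2)))) (α : E' × E') :
    fderiv ℂ (pull P u₀ Λ) z α =
      fderiv ℂ P (u₀ + Λ z.1, star (u₀ + Λ (star z.2))) (Λ α.1, star (Λ (star α.2))) := by
  rw [neg_pt] at hP ⊢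
  have hΨ : HasFDerivAt (fun z => (u₀, star u₀) + negL Λ z) (negL Λ) z :=
    (negL Λ).hasFDerivAt.const_add _
  rw [neg_pull_eq, fderiv_fun_comp (f := fun z => (u₀, star u₀) + negL Λ z) z
    hP.differentiableAt hΨ.differentiableAt, hΨ.fderiv]
  rfl

theorem d2_pull {P : E × E → ℂ} {u₀ : E} {Λ : E' →L[ℂ] E} {z : E' × E'}
    (hP : AnalyticAt ℂ P (u₀ + Λ z.1, star (u₀ + Λ (star z.2)))) (α β : E' × E') :
    d2 (pull P u₀ Λ) z α β = d2 P (u₀ + Λ z.1, star (u₀ + Λ (star z.2)))
      (Λ α.1, star (Λ (star α.2))) (Λ β.1, star (Λ (star β.2))) := by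
  rw [neg_pt] at hP ⊢
  rw [neg_pull_eq, d2_comp_affine _ _ hP]
  rfl

end General

end Crest.Agent.R264
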