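import Crest.Agent.R264.P3.Leaf0
import Crest.Agent.R264.P3.Neg

/-!
# Row 264, P3: points of maximal Levi rank and adapted linear coordinates
-/

set_option autoImplicit false
open Set Filter Topology Metric

noncomputable section
namespace Crest.Agent.R264

variable {r k : ℕ}

/-- The Levi form is negative definite on the slice directions. -/
def SliceNeg (Q : PM r k × PM r k → ℂ) (x : PM r k) : Prop :=
  ∀ v : PM r k, v.2.2 = 0 → v ≠ 0 → fderiv ℂ Q (x, star x) (v, 0) = 0 →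
    (d2 Q (x, star x) (v, 0) (0, star v)).re < 0

/-- parametrisation of the slice tangent vectors -/
def Adapt_j (L : PM r k × PM r k →L[ℂ] ℂ) : CN r →ₗ[ℂ] PM r k where
  toFun ζ := (-(L (pe0 r k, 0))⁻¹ * L ((0, ζ, 0), 0), ζ, 0)
  map_add' ζ ζ' := by
    have : (((0, ζ + ζ', 0), 0) : PM r k × PM r k) = ((0, ζ, 0), 0) + ((0, ζ', 0), 0) := by simp
    rw [this, map_add, mul_add]
    simp
  map_smul' c ζ := by
    have : (((0, c • ζ, 0), 0) : PM r k × PM r k) = c • ((0, ζ, 0), 0) := by simp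
    rw [this, map_smul]
    simp only [smul_eq_mul, RingHom.id_apply, Prod.smul_mk, smul_zero]
    congr 1
    ring

theorem Adapt_j_apply (L : PM r k × PM r k →L[ℂ] ℂ) (ζ : CN r) :
    Adapt_j L ζ = (-(L (pe0 r k, 0))⁻¹ * L ((0, ζ, 0), 0), ζ, 0) := rfl

theorem Adapt_dec (L : PM r k × PM r k →L[ℂ] ℂ) (a : ℂ) (ζ : CN r) :
    L ((a, ζ, 0), 0) = a * L (pe0 r k, 0) + L ((0, ζ, 0), 0) := by
  have : (((a, ζ, 0), 0) : PM r k × PM r k) = a • (pe0 r k, 0) + ((0, ζ, 0), 0) := by simp [pe0]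
  rw [this, map_add, map_smul, smul_eq_mul]

theorem Adapt_j_tan {L : PM r k × PM r k →L[ℂ] ℂ} (h : L (pe0 r k, 0) ≠ 0) (ζ : CN r) :
    L (Adapt_j L ζ, 0) = 0 := by
  rw [Adapt_j_apply, Adapt_dec]
  field_simp
  ring

theorem Adapt_j_eq {L : PM r k × PM r k →L[ℂ] ℂ} (h : L (pe0 r k, 0) ≠ 0) {v : PM r k}
    (h1 : v.2.2 = 0) (h2 : L (v, 0) = 0) : Adapt_j L v.2.1 = v := by
  obtain ⟨a, ζ, t⟩ := v
  obtain rfl : t = 0 := h1
  rw [Adapt_dec] at h2
  rw [Adapt_j_apply]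
  refine Prod.ext ?_ rfl
  change -(L (pe0 r k, 0))⁻¹ * L ((0, ζ, 0), 0) = a
  field_simp
  linear_combination -h2

theorem Adapt_j_inj (L : PM r k × PM r k →L[ℂ] ℂ) : Function.Injective (Adapt_j L) :=
  fun _ _ h => congrArg (fun v : PM r k => v.2.1) h

theorem Adapt_sw {E : Type} [NormedAddCommGroup E] [NormedSpace ℂ E] [StarAddMonoid E]
    [StarModule ℂ E] [ContinuousStar E] {Q : E × E → ℂ} {x : E}
    (hQ : AnalyticAt ℂ Q (x, star x)) (herm : ∀ z, Q (sw z) = star (Q z)) (w : E) :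
    fderiv ℂ Q (x, star x) (0, star w) = star (fderiv ℂ Q (x, star x) (w, 0)) := by
  have := fderiv_sw hQ (Eventually.of_forall herm) (w, 0)
  rw [sw_real] at this
  simpa [sw] using this

theorem Adapt_mu {Q : PM r k × PM r k → ℂ} {x : PM r k} (hQ : AnalyticAt ℂ Q (x, star x))
    (herm : ∀ z, Q (sw z) = star (Q z)) (h : lam Q (x, star x) ≠ 0) :
    fderiv ℂ Q (x, star x) (pe0 r k, 0) ≠ 0 := by
  intro h0
  have h1 := Adapt_sw hQ herm (pe0 r k)
  have h2 : star (pe0 r k) = pe0 r k := by simp [pe0, Prod.star_def]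
  rw [h2, h0, star_zero] at h1
  exact h h1

theorem Adapt_zero : (((0 : PM r k), star (0 : PM r k)) : PM r k × PM r k) = 0 := by simp

/-- Hint: with `μ x = fderiv Q (x, x̄) (pe0, 0)` (`= star (lam Q (x, x̄))` by `fderiv_sw`, not zero
near `0`) the slice tangent vectors at `x` are
`j x ζ = (-(μ x)⁻¹ * fderiv Q (x, x̄) ((0, ζ, 0), 0), ζ, 0)`; apply `eventually_neg_def` to
`B x ζ = d2 Q (x, x̄) (j x ζ, 0) (0, star (j x ζ))` (`continuousAt_d2`, `continuousAt_fderiv_apply`). -/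
theorem eventually_sliceNeg {Q : PM r k × PM r k → ℂ} (hQ : AnalyticAt ℂ Q 0)
    (herm : ∀ z, Q (sw z) = star (Q z)) (h : lam Q 0 ≠ 0) (h0 : SliceNeg Q 0) :
    ∀ᶠ x in 𝓝 (0 : PM r k), lam Q (x, star x) ≠ 0 ∧ SliceNeg Q x := by
  have hc : Continuous (fun x : PM r k => ((x, star x) : PM r k × PM r k)) := by fun_prop
  have hQ0 : AnalyticAt ℂ Q ((0 : PM r k), star (0 : PM r k)) := by rw [Adapt_zero]; exact hQ
  have h' : lam Q ((0 : PM r k), star (0 : PM r k)) ≠ 0 := by rw [Adapt_zero]; exact h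
  have e1 : ∀ᶠ x in 𝓝 (0 : PM r k), AnalyticAt ℂ Q (x, star x) :=
    hc.continuousAt.eventually hQ0.eventually_analyticAt
  have e2 : ∀ᶠ x in 𝓝 (0 : PM r k), lam Q (x, star x) ≠ 0 :=
    (continuousAt_fderiv_apply (z := fun x : PM r k => ((x, star x) : PM r k × PM r k))
      (α := fun _ => (0, pe0 r k)) hQ0 hc.continuousAt continuousAt_const).eventually_ne h'
  have hμ := Adapt_mu hQ0 herm h'
  have e3 := eventually_neg_def (x₀ := (0 : PM r k))
    (fun x ζ => d2 Q (x, star x) (Adapt_j (fderiv ℂ Q (x, star x)) ζ, 0)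
      (0, star (Adapt_j (fderiv ℂ Q (x, star x)) ζ)))
    (fun x c ζ => by
      have a1 : ∀ u : PM r k, (((c : ℂ) • u, 0) : PM r k × PM r k) = (c : ℂ) • (u, 0) :=
        fun u => by simp
      have a2 : ∀ u : PM r k, ((0, star ((c : ℂ) • u)) : PM r k × PM r k) =
          (c : ℂ) • (0, star u) := fun u => by
        rw [star_smul]
        simp
      rw [map_smul, a1, a2, d2_smul_left, d2_smul_right, smul_eq_mul, smul_eq_mul]
      ring)
    (fun ζ => by
      have c0 : ContinuousAt (fun y : PM r k × CN r => ((y.1, star y.1) : PM r k × PM r k))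
          (0, ζ) := by fun_prop
      have c1 : ContinuousAt (fun y : PM r k × CN r => fderiv ℂ Q (y.1, star y.1) (pe0 r k, 0))
          (0, ζ) := continuousAt_fderiv_apply (α := fun _ => (pe0 r k, 0)) hQ0 c0 continuousAt_const
      have c2 : ContinuousAt
          (fun y : PM r k × CN r => fderiv ℂ Q (y.1, star y.1) ((0, y.2, 0), 0)) (0, ζ) :=
        continuousAt_fderiv_apply (α := fun y : PM r k × CN r => ((0, y.2, 0), 0)) hQ0 c0
          (by fun_prop)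
      have c3 : ContinuousAt
          (fun y : PM r k × CN r => Adapt_j (fderiv ℂ Q (y.1, star y.1)) y.2) (0, ζ) := by
        simp only [Adapt_j_apply]
        exact ((c1.inv₀ hμ).neg.mul c2).prodMk (continuousAt_snd.prodMk continuousAt_const)
      exact continuousAt_d2 hQ0 c0 (c3.prodMk continuousAt_const)
        (continuousAt_const.prodMk c3.star))
    (fun ζ hζ => h0 _ rfl (fun h => hζ (congrArg (fun v : PM r k => v.2.1) h))
      (Adapt_j_tan hμ ζ))
  filter_upwards [e1, e2, e3] with x a1 a2 a3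
  refine ⟨a2, fun v h1 h2 h3 => ?_⟩
  have a4 := Adapt_j_eq (Adapt_mu a1 herm a2) h1 h3
  have a5 := a3 v.2.1 (fun h => h2 (by rw [← a4, h, map_zero]))
  rwa [a4] at a5

/-- Hint: `T = {w | w.2.2 = 0 ∧ fderiv Q (x, x̄) (w, 0) = 0}` is a `NegSub` of dimension `r` (it is
the range of the injective map `j x`); apply `null_of_ort`; `fderiv Q (x,x̄) (0, w) = 0` iff
`fderiv Q (x,x̄) (star w, 0) = 0` by `fderiv_sw`. -/
theorem rc_of_max {Q : PM r k × PM r k → ℂ} {x : PM r k} (hQ : AnalyticAt ℂ Q (x, star x))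
    (herm : ∀ z, Q (sw z) = star (Q z)) (h : lam Q (x, star x) ≠ 0) (hs : SliceNeg Q x)
    (levi : ∀ v, fderiv ℂ Q (x, star x) (v, 0) = 0 → (d2 Q (x, star x) (v, 0) (0, star v)).re ≤ 0)
    (hmax : ∀ T', NegSub Q x T' → Module.finrank ℂ T' ≤ r) : RC Q (x, star x) := by
  have hμ := Adapt_mu hQ herm h
  have hT : NegSub Q x (LinearMap.range (Adapt_j (fderiv ℂ Q (x, star x)))) := by
    rintro _ ⟨ζ, rfl⟩
    exact ⟨Adapt_j_tan hμ ζ, fun h => hs _ rfl h (Adapt_j_tan hμ ζ)⟩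
  have hr : Module.finrank ℂ (LinearMap.range (Adapt_j (fderiv ℂ Q (x, star x)))) = r := by
    rw [LinearMap.finrank_range_of_inj (Adapt_j_inj _), Module.finrank_fin_fun]
  intro v hv ho w hw
  have key := null_of_ort hQ (Eventually.of_forall herm) levi hT
    (fun T' hT' => (hmax T' hT').trans hr.ge) hv (by
      rintro _ ⟨ζ, rfl⟩
      refine ho _ (by simp [Adapt_j_apply, Prod.star_def]) ?_
      rw [Adapt_sw hQ herm, Adapt_j_tan hμ, star_zero]) (star w) (by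
      have := Adapt_sw hQ herm (star w)
      rw [star_star, hw] at this
      exact star_eq_zero.1 this.symm)
  rwa [star_star] at key

theorem SliceNeg.nondeg {Q : PM r k × PM r k → ℂ} (hQ : AnalyticAt ℂ Q 0)
    (herm : ∀ z, Q (sw z) = star (Q z)) (hs : SliceNeg Q 0) {v : PM r k} (h1 : v.2.2 = 0)
    (h2 : fderiv ℂ Q 0 (v, 0) = 0) (h3 : Ort Q 0 v) : v = 0 := by
  by_contra hv
  have hQ0 : AnalyticAt ℂ Q ((0 : PM r k), star (0 : PM r k)) := by rw [Adapt_zero]; exact hQ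
  have a1 := hs v h1 hv (by rw [Adapt_zero]; exact h2)
  have a2 := Adapt_sw hQ0 herm v
  rw [Adapt_zero] at a1 a2
  rw [h2, star_zero] at a2
  rw [h3 (star v) (by simp [Prod.star_def, h1]) a2] at a1
  simp at a1

/-- Adapted coordinates at a point of maximal Levi rank.  Hint: `exists_max_negSub` with
`A = {u ∈ N | P (u, ū) = 0}`, `r = finrank T`, `e : CN r ≃ T` (`Module.finBasis`), `ν` from `reg`,
`j (w, ζ) = w • ν + e ζ` is injective, `exists_adapted_equiv`; then `eventually_sliceNeg`,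
`rc_of_max` (a `NegSub` of `pull P u₀ Λ` at `x` maps by `Λ` to a `NegSub` of `P` at `u₀ + Λ x`,
`LinearEquiv.finrank_map_eq`). -/
theorem exists_adapted {n : ℕ} {P : CN n × CN n → ℂ} {N : Set (CN n)} (hN : IsOpen N)
    (an : ∀ u ∈ N, AnalyticAt ℂ P (u, star u)) (herm : ∀ z, P (sw z) = star (P z))
    (hne : ∃ u ∈ N, P (u, star u) = 0)
    (reg : ∀ u ∈ N, P (u, star u) = 0 → ∃ ν, fderiv ℂ P (u, star u) (ν, 0) ≠ 0)
    (levi : ∀ u ∈ N, P (u, star u) = 0 → ∀ v, fderiv ℂ P (u, star u) (v, 0) = 0 →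
      (d2 P (u, star u) (v, 0) (0, star v)).re ≤ 0) :
    ∃ (r k : ℕ) (u₀ : CN n) (Λ : PM r k ≃L[ℂ] CN n), n = 1 + r + k ∧ u₀ ∈ N ∧
      P (u₀, star u₀) = 0 ∧ lam (pull P u₀ (Λ : PM r k →L[ℂ] CN n)) 0 ≠ 0 ∧
      SliceNeg (pull P u₀ (Λ : PM r k →L[ℂ] CN n)) 0 ∧
      ∀ᶠ x in 𝓝 (0 : PM r k), pull P u₀ (Λ : PM r k →L[ℂ] CN n) (x, star x) = 0 →
        RC (pull P u₀ (Λ : PM r k →L[ℂ] CN n)) (x, star x) := by
  obtain ⟨u₀, ⟨hu₀N, hu₀⟩, T, hT, hmax⟩ := exists_max_negSub P {u | u ∈ N ∧ P (u, star u) = 0} hne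
  obtain ⟨ν, hν⟩ := reg u₀ hu₀N hu₀
  set r := Module.finrank ℂ T with hr
  let e : CN r ≃ₗ[ℂ] T := (Module.finBasis ℂ T).equivFun.symm
  let j : (ℂ × CN r) →ₗ[ℂ] CN n :=
    (LinearMap.toSpanSingleton ℂ (CN n) ν).coprod (T.subtype ∘ₗ (e : CN r →ₗ[ℂ] T))
  have jap : ∀ w ζ, j (w, ζ) = w • ν + (e ζ : CN n) := fun w ζ => rfl
  have hdj : ∀ w ζ, fderiv ℂ P (u₀, star u₀) (j (w, ζ), 0) =
      w * fderiv ℂ P (u₀, star u₀) (ν, 0) := fun w ζ => by
    have : ((j (w, ζ), 0) : CN n × CN n) = w • (ν, 0) + ((e ζ : CN n), 0) := by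
      rw [jap]
      simp
    rw [this, map_add, map_smul, (hT _ (e ζ).2).1, add_zero, smul_eq_mul]
  have hj : Function.Injective j := by
    rw [injective_iff_map_eq_zero]
    rintro ⟨w, ζ⟩ h
    have a1 := hdj w ζ
    rw [h, Prod.mk_zero_zero, map_zero] at a1
    obtain rfl : w = 0 := (mul_eq_zero.1 a1.symm).resolve_right hν
    rw [jap, zero_smul, zero_add] at h
    have a2 : e ζ = 0 := Subtype.ext h
    rw [(map_eq_zero_iff e e.injective).1 a2]
    rfl
  obtain ⟨k, Λ, hn, hΛ⟩ := exists_adapted_equiv j hj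
  let L : PM r k →L[ℂ] CN n := Λ
  have Lap : ∀ x, L x = Λ x := fun x => rfl
  have hermQ : ∀ z, pull P u₀ L (sw z) = star (pull P u₀ L z) := fun z => by
    unfold pull
    rw [← herm]
    simp [sw]
  have anP : ∀ x : PM r k, u₀ + L x ∈ N → AnalyticAt ℂ P
      (u₀ + L ((x, star x) : PM r k × PM r k).1,
        star (u₀ + L (star ((x, star x) : PM r k × PM r k).2))) := fun x hx => by
    simpa only [star_star] using an _ hx
  have anQ : ∀ x : PM r k, u₀ + L x ∈ N → AnalyticAt ℂ (pull P u₀ L) (x, star x) :=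
    fun x hx => pull_analyticAt (anP x hx)
  have vQ : ∀ x : PM r k, pull P u₀ L (x, star x) = P (u₀ + L x, star (u₀ + L x)) := fun x => by
    simp only [pull, star_star]
  have d1Q : ∀ x : PM r k, u₀ + L x ∈ N → ∀ v, fderiv ℂ (pull P u₀ L) (x, star x) (v, 0) =
      fderiv ℂ P (u₀ + L x, star (u₀ + L x)) (L v, 0) := fun x hx v => by
    rw [fderiv_pull (anP x hx)]
    simp only [star_star, star_zero, map_zero]
  have d2Q : ∀ x : PM r k, u₀ + L x ∈ N → ∀ v w, d2 (pull P u₀ L) (x, star x) (v, 0) (0, star w) =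
      d2 P (u₀ + L x, star (u₀ + L x)) (L v, 0) (0, star (L w)) := fun x hx v w => by
    rw [d2_pull (anP x hx)]
    simp only [star_star, star_zero, map_zero]
  have h0N : u₀ + L 0 ∈ N := by rwa [map_zero, add_zero]
  have hlam : lam (pull P u₀ L) 0 ≠ 0 := by
    have a1 := Adapt_sw (anQ 0 h0N) hermQ (pe0 r k)
    have a2 : star (pe0 r k) = pe0 r k := by simp [pe0, Prod.star_def]
    rw [a2, d1Q 0 h0N, Adapt_zero, map_zero, add_zero, Lap, pe0, hΛ, hdj, one_mul] at a1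
    intro h
    exact hν (star_eq_zero.1 (a1.symm.trans h))
  have hsl : SliceNeg (pull P u₀ L) 0 := by
    rintro ⟨a, ζ, t⟩ h1 h2 h3
    obtain rfl : t = 0 := h1
    rw [d1Q 0 h0N, map_zero, add_zero, Lap, hΛ, hdj] at h3
    obtain rfl : a = 0 := (mul_eq_zero.1 h3).resolve_right hν
    rw [d2Q 0 h0N, map_zero, add_zero]
    have a1 : L (0, ζ, 0) = (e ζ : CN n) := by rw [Lap, hΛ, jap, zero_smul, zero_add]
    refine (hT _ (a1 ▸ (e ζ).2)).2 fun h => h2 ?_
    exact (map_eq_zero_iff Λ Λ.injective).1 h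
  refine ⟨r, k, u₀, Λ, hn, hu₀N, hu₀, hlam, hsl, ?_⟩
  change ∀ᶠ x in 𝓝 (0 : PM r k), pull P u₀ L (x, star x) = 0 → RC (pull P u₀ L) (x, star x)
  have hQ0 : AnalyticAt ℂ (pull P u₀ L) 0 := by
    have := anQ 0 h0N
    rwa [Adapt_zero] at this
  have evN : ∀ᶠ x in 𝓝 (0 : PM r k), u₀ + L x ∈ N :=
    (by fun_prop : Continuous fun x : PM r k => u₀ + L x).continuousAt.eventually
      (hN.mem_nhds h0N)
  filter_upwards [evN, eventually_sliceNeg hQ0 hermQ hlam hsl] with x hx ⟨a1, a2⟩ a3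
  rw [vQ] at a3
  refine rc_of_max (anQ x hx) hermQ a1 a2 (fun v hv => ?_) (fun T' hT' => ?_)
  · rw [d1Q x hx] at hv
    rw [d2Q x hx]
    exact levi _ hx a3 _ hv
  · have a4 : NegSub P (u₀ + L x) (T'.map (Λ.toLinearEquiv : PM r k →ₗ[ℂ] CN n)) := by
      rintro _ ⟨v, hv, rfl⟩
      obtain ⟨b1, b2⟩ := hT' v hv
      rw [d1Q x hx] at b1
      rw [d2Q x hx] at b2
      exact ⟨b1, fun h => b2 fun h' => h (by rw [h', map_zero])⟩
    have a5 := hmax _ ⟨hx, a3⟩ _ a4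
    rwa [LinearEquiv.finrank_map_eq] at a5

end Crest.Agent.R264
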