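import Mathlib

/-!
# Row 264, P3: the analytic inverse function theorem in set form
-/

set_option autoImplicit false
open Set Filter Topology Metric

noncomputable section
namespace Crest.Agent.R264

/-- Mutually inverse analytic maps between the open sets `O` and `O'`. -/
structure LocInv (𝕜 : Type*) [NontriviallyNormedField 𝕜] {E F : Type*} [NormedAddCommGroup E]
    [NormedSpace 𝕜 E] [NormedAddCommGroup F] [NormedSpace 𝕜 F]
    (Φ : E → F) (χ : F → E) (O : Set E) (O' : Set F) : Prop where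
  o1 : IsOpen O
  o2 : IsOpen O'
  a1 : AnalyticOnNhd 𝕜 Φ O
  a2 : AnalyticOnNhd 𝕜 χ O'
  m1 : MapsTo Φ O O'
  m2 : MapsTo χ O' O
  li : ∀ x ∈ O, χ (Φ x) = x
  ri : ∀ y ∈ O', Φ (χ y) = y

namespace LocInv
variable {𝕜 : Type*} [NontriviallyNormedField 𝕜] {E F : Type*} [NormedAddCommGroup E]
  [NormedSpace 𝕜 E] [NormedAddCommGroup F] [NormedSpace 𝕜 F]
  {Φ : E → F} {χ : F → E} {O : Set E} {O' : Set F}

theorem symm (h : LocInv 𝕜 Φ χ O O') : LocInv 𝕜 χ Φ O' O :=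
  ⟨h.o2, h.o1, h.a2, h.a1, h.m2, h.m1, h.ri, h.li⟩

/-- restriction to a smaller open subset of the target -/
theorem restrict (h : LocInv 𝕜 Φ χ O O') {B : Set F} (hB : IsOpen B) (hBO : B ⊆ O') :
    LocInv 𝕜 Φ χ (O ∩ Φ ⁻¹' B) B where
  o1 := h.a1.continuousOn.isOpen_inter_preimage h.o1 hB
  o2 := hB
  a1 := h.a1.mono inter_subset_left
  a2 := h.a2.mono hBO
  m1 := fun _ hx => hx.2
  m2 := fun y hy => ⟨h.m2 (hBO hy), by rw [mem_preimage, h.ri y (hBO hy)]; exact hy⟩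
  li := fun x hx => h.li x hx.1
  ri := fun y hy => h.ri y (hBO hy)

theorem image_eq (h : LocInv 𝕜 Φ χ O O') : χ '' O' = O :=
  Subset.antisymm h.m2.image_subset fun x hx => ⟨Φ x, h.m1 hx, h.li x hx⟩

theorem injOn (h : LocInv 𝕜 Φ χ O O') : InjOn Φ O := fun x hx y hy e => by
  rw [← h.li x hx, e, h.li y hy]

/-- chain rule: `Dχ ∘ DΦ = id` -/
theorem fderiv_left (h : LocInv 𝕜 Φ χ O O') {x : E} (hx : x ∈ O) (v : E) :
    fderiv 𝕜 χ (Φ x) (fderiv 𝕜 Φ x v) = v := by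
  have h1 : (χ ∘ Φ) =ᶠ[𝓝 x] id := by
    filter_upwards [h.o1.mem_nhds hx] with y hy using h.li y hy
  have h2 := fderiv_comp x (h.a2 _ (h.m1 hx)).differentiableAt (h.a1 x hx).differentiableAt
  rw [h1.fderiv_eq, fderiv_id] at h2
  exact (congrArg (fun L : E →L[𝕜] E => L v) h2).symm

/-- chain rule: `DΦ ∘ Dχ = id` -/
theorem fderiv_right (h : LocInv 𝕜 Φ χ O O') {y : F} (hy : y ∈ O') (w : F) :
    fderiv 𝕜 Φ (χ y) (fderiv 𝕜 χ y w) = w := h.symm.fderiv_left hy w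

theorem tendsto_inv (h : LocInv 𝕜 Φ χ O O') {x : E} (hx : x ∈ O) :
    Tendsto χ (𝓝 (Φ x)) (𝓝 x) := by
  have := (h.a2 _ (h.m1 hx)).continuousAt.tendsto
  rwa [h.li x hx] at this

end LocInv

variable {𝕜 : Type*} [RCLike 𝕜] {E F : Type*} [NormedAddCommGroup E] [NormedSpace 𝕜 E]
  [CompleteSpace E] [NormedAddCommGroup F] [NormedSpace 𝕜 F] [CompleteSpace F]

/-- The analytic inverse function theorem; the target may be taken to be a small ball. -/
theorem exists_locInv {Φ : E → F} {p : E} (hΦ : AnalyticAt 𝕜 Φ p)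
    (hb : Function.Bijective (fderiv 𝕜 Φ p)) {N : Set E} (hN : N ∈ 𝓝 p) :
    ∃ (χ : F → E) (O : Set E) (R : ℝ), 0 < R ∧ p ∈ O ∧ O ⊆ N ∧
      LocInv 𝕜 Φ χ O (ball (Φ p) R) := by
  let i : E ≃L[𝕜] F := ContinuousLinearEquiv.ofBijective (fderiv 𝕜 Φ p)
    (LinearMap.ker_eq_bot.2 hb.1) (LinearMap.range_eq_top.2 hb.2)
  have hi : fderiv 𝕜 Φ p = (i : E →L[𝕜] F) := rfl
  have hs : HasStrictFDerivAt Φ (i : E →L[𝕜] F) p := hi ▸ hΦ.hasStrictFDerivAt
  let e := hs.toOpenPartialHomeomorph Φ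
  have he : (e : E → F) = Φ := rfl
  have hp : p ∈ e.source := hs.mem_toOpenPartialHomeomorph_source
  have hsym : AnalyticAt 𝕜 e.symm (Φ p) := e.analyticAt_symm' hp hΦ hi
  have hc : Tendsto e.symm (𝓝 (Φ p)) (𝓝 p) := e.tendsto_symm hp
  have h1 : ∀ᶠ y in 𝓝 (Φ p), y ∈ e.target ∧ AnalyticAt 𝕜 e.symm y ∧ e.symm y ∈ N ∧
      AnalyticAt 𝕜 Φ (e.symm y) := by
    filter_upwards [e.open_target.mem_nhds (e.map_source hp), hsym.eventually_analyticAt,
      hc.eventually hN, hc.eventually hΦ.eventually_analyticAt] with y a b c d using ⟨a, b, c, d⟩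
  obtain ⟨R, hR, hball⟩ := Metric.eventually_nhds_iff_ball.1 h1
  refine ⟨e.symm, e.source ∩ Φ ⁻¹' ball (Φ p) R, R, hR, ⟨hp, mem_ball_self hR⟩, ?_, ?_⟩
  · intro x hx
    have := (hball _ hx.2).2.2.1
    rwa [← he, e.left_inv hx.1] at this
  · refine ⟨e.continuousOn.isOpen_inter_preimage e.open_source isOpen_ball, isOpen_ball, ?_,
      fun y hy => (hball y hy).2.1, fun x hx => hx.2, ?_, fun x hx => e.left_inv hx.1,
      fun y hy => e.right_inv (hball y hy).1⟩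
    · intro x hx
      have := (hball _ hx.2).2.2.2
      rwa [← he, e.left_inv hx.1] at this
    · intro y hy
      refine ⟨e.map_target (hball y hy).1, ?_⟩
      rw [mem_preimage, ← he, e.right_inv (hball y hy).1]
      exact hy

/-- In equal finite dimension an injective derivative suffices. -/
theorem exists_locInv_of_inj [FiniteDimensional 𝕜 E] [FiniteDimensional 𝕜 F]
    (hd : Module.finrank 𝕜 E = Module.finrank 𝕜 F) {Φ : E → F} {p : E}
    (hΦ : AnalyticAt 𝕜 Φ p) (hb : ∀ v, fderiv 𝕜 Φ p v = 0 → v = 0) {N : Set E} (hN : N ∈ 𝓝 p) :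
    ∃ (χ : F → E) (O : Set E) (R : ℝ), 0 < R ∧ p ∈ O ∧ O ⊆ N ∧
      LocInv 𝕜 Φ χ O (ball (Φ p) R) := by
  have hinj : Function.Injective (fderiv 𝕜 Φ p) := (injective_iff_map_eq_zero _).2 hb
  exact exists_locInv hΦ ⟨hinj, (LinearMap.injective_iff_surjective_of_finrank_eq_finrank
    (f := (fderiv 𝕜 Φ p : E →ₗ[𝕜] F)) hd).1 hinj⟩ hN

end Crest.Agent.R264
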