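import Crest.Agent.R264.Defs
import Crest.Agent.R264.P3.Inv
import Crest.Agent.R264.Osgood

/-!
# Row 264, P3: second derivatives, Hermitian symmetry
-/

set_option autoImplicit false
open Set Filter Topology Metric

noncomputable section
namespace Crest.Agent.R264

section D2
variable {W W' G : Type*} [NormedAddCommGroup W] [NormedSpace ℂ W] [NormedAddCommGroup W']
  [NormedSpace ℂ W'] [NormedAddCommGroup G] [NormedSpace ℂ G] [CompleteSpace G]

/-- Second derivative. -/
def d2 (P : W → G) (z α β : W) : G := fderiv ℂ (fderiv ℂ P) z α β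

theorem d2_symm {P : W → G} {z : W} (hP : AnalyticAt ℂ P z) (α β : W) :
    d2 P z α β = d2 P z β α := by
  exact hP.contDiffAt.isSymmSndFDerivAt_of_omega α β

omit [CompleteSpace G] in
theorem d2_congr {P Q : W → G} {z : W} (h : P =ᶠ[𝓝 z] Q) (α β : W) : d2 P z α β = d2 Q z α β := by
  unfold d2
  rw [h.fderiv.fderiv_eq]

theorem analyticAt_fderiv_apply {P : W → G} {z : W} (hP : AnalyticAt ℂ P z) (β : W) :
    AnalyticAt ℂ (fun z' => fderiv ℂ P z' β) z := by
  exact ((ContinuousLinearMap.apply ℂ G β).analyticAt _).comp hP.fderiv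

theorem fderiv_fderiv_apply {P : W → G} {z : W} (hP : AnalyticAt ℂ P z) (α β : W) :
    fderiv ℂ (fun z' => fderiv ℂ P z' β) z α = d2 P z α β := by
  rw [fderiv_clm_apply hP.fderiv.differentiableAt (differentiableAt_const β)]
  simp [d2]

theorem analyticAt_d2 {P : W → G} {z : W} (hP : AnalyticAt ℂ P z) (α β : W) :
    AnalyticAt ℂ (fun z' => d2 P z' α β) z := by
  exact ((ContinuousLinearMap.apply ℂ G β).analyticAt _).comp (analyticAt_fderiv_apply hP.fderiv α)

/-- joint continuity in the point and the vectors -/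
theorem continuousAt_fderiv_apply {X : Type*} [TopologicalSpace X] {P : W → G} {z α : X → W}
    {x : X} (hP : AnalyticAt ℂ P (z x)) (hz : ContinuousAt z x) (hα : ContinuousAt α x) :
    ContinuousAt (fun y => fderiv ℂ P (z y) (α y)) x := by
  exact (ContinuousAt.comp (f := z) hP.fderiv.continuousAt hz).clm_apply hα

theorem continuousAt_d2 {X : Type*} [TopologicalSpace X] {P : W → G} {z α β : X → W}
    {x : X} (hP : AnalyticAt ℂ P (z x)) (hz : ContinuousAt z x) (hα : ContinuousAt α x)
    (hβ : ContinuousAt β x) : ContinuousAt (fun y => d2 P (z y) (α y) (β y)) x := by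
  exact (continuousAt_fderiv_apply hP.fderiv hz hα).clm_apply hβ

/-- Chain rule of order two. -/
theorem d2_comp [CompleteSpace W] {P : W → G} {Ψ : W' → W} {z : W'} (hP : AnalyticAt ℂ P (Ψ z))
    (hΨ : AnalyticAt ℂ Ψ z) (α β : W') :
    d2 (fun z' => P (Ψ z')) z α β =
      d2 P (Ψ z) (fderiv ℂ Ψ z α) (fderiv ℂ Ψ z β) + fderiv ℂ P (Ψ z) (d2 Ψ z α β) := by
  have hc : AnalyticAt ℂ (fun z' => P (Ψ z')) z := hP.comp hΨ
  have h1 : (fun z' => fderiv ℂ (fun z' => P (Ψ z')) z' β) =ᶠ[𝓝 z]
      fun z' => fderiv ℂ P (Ψ z') (fderiv ℂ Ψ z' β) := by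
    filter_upwards [hΨ.eventually_analyticAt,
      hΨ.continuousAt.eventually hP.eventually_analyticAt] with y h1 h2
    rw [fderiv_fun_comp y h2.differentiableAt h1.differentiableAt]
    rfl
  have h2 : DifferentiableAt ℂ (fun z' => fderiv ℂ P (Ψ z')) z :=
    (hP.fderiv.comp hΨ).differentiableAt
  rw [← fderiv_fderiv_apply hc, h1.fderiv_eq,
    fderiv_clm_apply h2 (analyticAt_fderiv_apply hΨ β).differentiableAt,
    fderiv_fun_comp z hP.fderiv.differentiableAt hΨ.differentiableAt]
  simp only [add_apply, ContinuousLinearMap.comp_apply,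
    ContinuousLinearMap.flip_apply, fderiv_fderiv_apply hΨ]
  rw [add_comm]
  rfl

/-- Chain rule of order two for an affine inner map. -/
theorem d2_comp_affine {P : W → G} (b : W) (L : W' →L[ℂ] W) {z : W'}
    (hP : AnalyticAt ℂ P (b + L z)) (α β : W') :
    d2 (fun z' => P (b + L z')) z α β = d2 P (b + L z) (L α) (L β) := by
  have hΨ : ∀ y, HasFDerivAt (fun z' => b + L z') L y := fun y => L.hasFDerivAt.const_add b
  have ha : AnalyticAt ℂ (fun z' => b + L z') z := analyticAt_const.add (L.analyticAt z)
  have hc : AnalyticAt ℂ (fun z' => P (b + L z')) z :=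
    AnalyticAt.comp (f := fun z' => b + L z') hP ha
  have h1 : (fun z' => fderiv ℂ (fun z' => P (b + L z')) z' β) =ᶠ[𝓝 z]
      fun z' => fderiv ℂ P (b + L z') (L β) := by
    filter_upwards [(hΨ z).continuousAt.eventually hP.eventually_analyticAt] with y h2
    rw [fderiv_fun_comp (f := fun z' => b + L z') y h2.differentiableAt (hΨ y).differentiableAt,
      (hΨ y).fderiv]
    rfl
  rw [← fderiv_fderiv_apply hc, h1.fderiv_eq,
    fderiv_fun_comp (g := fun w => fderiv ℂ P w (L β)) (f := fun z' => b + L z') z
      (analyticAt_fderiv_apply hP (L β)).differentiableAt (hΨ z).differentiableAt, (hΨ z).fderiv,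
    ContinuousLinearMap.comp_apply, fderiv_fderiv_apply hP]

omit [CompleteSpace G] in
theorem d2_add_left (P : W → G) (z α α' β : W) :
    d2 P z (α + α') β = d2 P z α β + d2 P z α' β := by simp [d2]

omit [CompleteSpace G] in
theorem d2_add_right (P : W → G) (z α β β' : W) :
    d2 P z α (β + β') = d2 P z α β + d2 P z α β' := by simp [d2]

omit [CompleteSpace G] in
theorem d2_smul_left (P : W → G) (z α β : W) (c : ℂ) : d2 P z (c • α) β = c • d2 P z α β := by
  simp [d2]

omit [CompleteSpace G] in
theorem d2_smul_right (P : W → G) (z α β : W) (c : ℂ) : d2 P z α (c • β) = c • d2 P z α β := by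
  simp [d2]

end D2

section Star
variable {E F : Type*} [NormedAddCommGroup E] [NormedSpace ℂ E] [StarAddMonoid E] [StarModule ℂ E]
  [ContinuousStar E] [NormedAddCommGroup F] [NormedSpace ℂ F] [StarAddMonoid F] [StarModule ℂ F]
  [ContinuousStar F]

/-- The conjugate of an analytic map is analytic.  Hint: conjugate the power series
(`p n` composed with `starL` on both sides; the radius can be bounded using that `star` is a bounded
real-linear map), or use `DifferentiableAt.star_star` and Osgood's lemma (`R264/Osgood.lean`). -/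
theorem analyticAt_star_star [FiniteDimensional ℂ E] [CompleteSpace F] {f : E → F} {z : E}
    (hf : AnalyticAt ℂ f (star z)) : AnalyticAt ℂ (fun w => star (f (star w))) z := by
  refine SCV.analyticAt_of_eventually ?_
  filter_upwards [continuous_star.continuousAt.eventually hf.eventually_analyticAt] with y hy
  have := hy.differentiableAt.star_star
  rwa [star_star] at this

theorem fderiv_star_star {f : E → F} {z : E} (hf : DifferentiableAt ℂ f (star z)) (v : E) :
    fderiv ℂ (fun w => star (f (star w))) z v = star (fderiv ℂ f (star z) (star v)) := by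
  have := hf.hasFDerivAt.star_star
  rw [star_star] at this
  exact (congrArg (fun L : E →L[ℂ] F => L v) this.fderiv).trans rfl

theorem d2_star_star [FiniteDimensional ℂ E] [CompleteSpace F] {f : E → F} {z : E} (hf : AnalyticAt ℂ f (star z))
    (v w : E) :
    d2 (fun w => star (f (star w))) z v w = star (d2 f (star z) (star v) (star w)) := by
  have h1 : (fun y => fderiv ℂ (fun w => star (f (star w))) y w) =ᶠ[𝓝 z]
      fun y => star (fderiv ℂ f (star y) (star w)) := by
    filter_upwards [continuous_star.continuousAt.eventually hf.eventually_analyticAt] with y hy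
    exact fderiv_star_star hy.differentiableAt w
  rw [← fderiv_fderiv_apply (analyticAt_star_star hf), h1.fderiv_eq,
    fderiv_star_star (f := fun y => fderiv ℂ f y (star w))
      (analyticAt_fderiv_apply hf _).differentiableAt, fderiv_fderiv_apply hf]

/-- The antiholomorphic involution whose fixed points are the real points `(x, x̄)`. -/
def sw (z : E × E) : E × E := (star z.2, star z.1)

omit [NormedSpace ℂ E] [StarModule ℂ E] [ContinuousStar E] in
@[simp] theorem sw_sw (z : E × E) : sw (sw z) = z := by simp [sw]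

omit [NormedSpace ℂ E] [StarModule ℂ E] [ContinuousStar E] in
@[simp] theorem sw_real (x : E) : sw (x, star x) = (x, star x) := by simp [sw]

omit [NormedSpace ℂ E] [StarModule ℂ E] in
theorem continuous_sw : Continuous (sw : E × E → E × E) := by
  unfold sw; fun_prop

omit [NormedSpace ℂ E] [StarModule ℂ E] in
theorem cx_sw_eventually {P : E × E → ℂ} {z : E × E}
    (h : ∀ᶠ z' in 𝓝 z, P (sw z') = star (P z')) :
    P =ᶠ[𝓝 (sw z)] fun w => star ((fun u : E × E => P u.swap) (star w)) := by
  have ht : Tendsto (sw : E × E → E × E) (𝓝 (sw z)) (𝓝 z) := by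
    have := (continuous_sw (E := E)).tendsto (sw z)
    rwa [sw_sw] at this
  filter_upwards [ht.eventually h] with w hw
  rw [sw_sw] at hw
  exact hw

/-- Hermitian symmetry of the first derivative. -/
theorem fderiv_sw {P : E × E → ℂ} {z : E × E} (hP : AnalyticAt ℂ P z)
    (h : ∀ᶠ z' in 𝓝 z, P (sw z') = star (P z')) (α : E × E) :
    fderiv ℂ P (sw z) (sw α) = star (fderiv ℂ P z α) := by
  let L : E × E →L[ℂ] E × E := ContinuousLinearEquiv.prodComm ℂ E E
  have e : ∀ u : E × E, L (star (sw u)) = u := fun u => by simp [L, sw, Prod.star_def]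
  have hP' : DifferentiableAt ℂ P (L (star (sw z))) := by rw [e]; exact hP.differentiableAt
  rw [(cx_sw_eventually h).fderiv_eq]
  refine (fderiv_star_star (f := fun u => P (L u)) (hP'.comp _ L.differentiableAt) _).trans ?_
  rw [fderiv_fun_comp _ hP' L.differentiableAt, L.fderiv, ContinuousLinearMap.comp_apply, e, e]

/-- Hermitian symmetry of the second derivative. -/
theorem d2_sw [FiniteDimensional ℂ E] {P : E × E → ℂ} {z : E × E} (hP : AnalyticAt ℂ P z)
    (h : ∀ᶠ z' in 𝓝 z, P (sw z') = star (P z')) (α β : E × E) :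
    d2 P (sw z) (sw α) (sw β) = star (d2 P z α β) := by
  let L : E × E →L[ℂ] E × E := ContinuousLinearEquiv.prodComm ℂ E E
  have e : ∀ u : E × E, L (star (sw u)) = u := fun u => by simp [L, sw, Prod.star_def]
  have hP' : AnalyticAt ℂ P (0 + L (star (sw z))) := by rw [e, zero_add]; exact hP
  have h2 := d2_comp_affine 0 L hP' (star (sw α)) (star (sw β))
  simp only [zero_add, e] at h2 hP'
  rw [d2_congr (cx_sw_eventually h), ← h2]
  refine d2_star_star (f := fun u => P (L u)) ?_ _ _
  exact AnalyticAt.comp (by rw [e]; exact hP) (L.analyticAt _)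

end Star

end Crest.Agent.R264
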