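import Crest.Agent.R264.P3.Zero

/-!
# Row 264, P3: analytic functions on and near a regular real analytic hypersurface
-/

set_option autoImplicit false
open Set Filter Topology Metric

noncomputable section
namespace Crest.Agent.R264

variable {E : Type} [NormedAddCommGroup E] [NormedSpace ℝ E] [FiniteDimensional ℝ E]

/-- Analytic parametrisation of a regular zero set by a ball in a space of one dimension less.
Hint: `K = ker (fderiv g p)`, `ℓ : E →L[ℝ] K` a projection, `exists_locInv_of_inj` for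
`x ↦ (g x, ℓ x)`, `φ y = χ (0, y)`, `ψ = ℓ`; the ball of the product is the product of balls. -/
theorem exists_hyp_param {g : E → ℝ} {p : E} (hg : AnalyticAt ℝ g p) (h0 : g p = 0)
    (h1 : fderiv ℝ g p ≠ 0) {N : Set E} (hN : N ∈ 𝓝 p) :
    ∃ (K : Submodule ℝ E) (φ : K → E) (ψ : E →L[ℝ] K) (O : Set E) (R : ℝ),
      Module.finrank ℝ K = Module.finrank ℝ E - 1 ∧ 0 < R ∧ IsOpen O ∧ p ∈ O ∧ O ⊆ N ∧
      AnalyticOnNhd ℝ φ (ball (ψ p) R) ∧
      (∀ y ∈ ball (ψ p) R, φ y ∈ O ∧ g (φ y) = 0 ∧ ψ (φ y) = y) ∧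
      (∀ x ∈ O, ψ x ∈ ball (ψ p) R ∧ (g x = 0 → φ (ψ x) = x)) := by
  let K : Submodule ℝ E := LinearMap.ker (fderiv ℝ g p : E →ₗ[ℝ] ℝ)
  obtain ⟨ℓ, hℓ⟩ := Submodule.ClosedComplemented.of_finiteDimensional K
  have hK : Module.finrank ℝ K + 1 = Module.finrank ℝ E :=
    Module.Dual.finrank_ker_add_one_of_ne_zero (f := (fderiv ℝ g p : E →ₗ[ℝ] ℝ))
      fun h => h1 (ContinuousLinearMap.coe_injective h)
  have hΦ : AnalyticAt ℝ (fun x => (g x, ℓ x)) p := hg.prod (ℓ.analyticAt p)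
  have hd : HasFDerivAt (fun x => (g x, ℓ x)) ((fderiv ℝ g p).prod ℓ) p :=
    hg.differentiableAt.hasFDerivAt.prodMk ℓ.hasFDerivAt
  obtain ⟨χ, O, R, hR, hpO, hON, h⟩ := exists_locInv_of_inj (𝕜 := ℝ) (F := ℝ × K)
    (by rw [Module.finrank_prod, Module.finrank_self]; omega) hΦ (fun v hv => by
      rw [hd.fderiv] at hv
      have a : v ∈ K := congrArg Prod.fst hv
      have b : ℓ v = 0 := congrArg Prod.snd hv
      exact congrArg Subtype.val ((hℓ ⟨v, a⟩).symm.trans b)) hN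
  have hb : ∀ y ∈ ball (ℓ p) R, ((0 : ℝ), y) ∈ ball (g p, ℓ p) R := fun y hy => by
    rw [← ball_prod_same, h0]
    exact ⟨mem_ball_self hR, hy⟩
  refine ⟨K, fun y => χ (0, y), ℓ, O, R, by omega, hR, h.o1, hpO, hON, fun y hy => ?_,
    fun y hy => ⟨h.m2 (hb y hy), congrArg Prod.fst (h.ri _ (hb y hy)),
      congrArg Prod.snd (h.ri _ (hb y hy))⟩, fun x hx => ⟨?_, fun hx0 => ?_⟩⟩
  · exact (h.a2 _ (hb y hy)).comp (f := fun y : K => ((0 : ℝ), y))
      (analyticAt_const.prod analyticAt_id)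
  · have := h.m1 hx
    rw [← ball_prod_same] at this
    exact this.2
  · have := h.li x hx
    rwa [hx0] at this

/-- Identity theorem on the hypersurface, with a neighbourhood that does not depend on `f`. -/
theorem hyp_identity {g : E → ℝ} {s : Set E} (hs : IsOpen s) {p : E} (hp : p ∈ s)
    (hg : AnalyticOnNhd ℝ g s) (h0 : g p = 0) (h1 : fderiv ℝ g p ≠ 0) :
    ∃ O ∈ 𝓝 p, ∀ f : E → ℝ, AnalyticOnNhd ℝ f s → (∀ᶠ x in 𝓝 p, g x = 0 → f x = 0) →
      ∀ x ∈ O, g x = 0 → f x = 0 := by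
  obtain ⟨K, φ, ψ, O, R, -, hR, hO, hpO, hOs, hφ, a, b⟩ :=
    exists_hyp_param (hg p hp) h0 h1 (hs.mem_nhds hp)
  refine ⟨O, hO.mem_nhds hpO, fun f hf h x hx hx0 => ?_⟩
  have hA : AnalyticOnNhd ℝ (f ∘ φ) (ball (ψ p) R) := hf.comp hφ fun y hy => hOs (a y hy).1
  have ht : Tendsto φ (𝓝 (ψ p)) (𝓝 p) := by
    have := (hφ _ (mem_ball_self hR)).continuousAt.tendsto
    rwa [(b p hpO).2 h0] at this
  have := hA.eqOn_zero_of_preconnected_of_eventuallyEq_zero (convex_ball _ _).isPreconnected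
    (mem_ball_self hR) (by
      filter_upwards [ht.eventually h, ball_mem_nhds _ hR] with y hy hy' using hy (a y hy').2.1)
    (b x hx).1
  rwa [Function.comp_apply, (b x hx).2 hx0] at this

/-- The nontrivial zeros of `f` on the regular part of `g = 0` have codimension two
(`exists_hyp_param`, `lipCov_zero` for `f ∘ φ`, `LipCov.image_of_contDiffAt`, `LipCov.of_locally`). -/
theorem lipCov_hyp_zero {g f : E → ℝ} {s : Set E} (hs : IsOpen s) (hg : AnalyticOnNhd ℝ g s)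
    (hf : AnalyticOnNhd ℝ f s) :
    LipCov (Module.finrank ℝ E - 2) {x | x ∈ s ∧ g x = 0 ∧ fderiv ℝ g x ≠ 0 ∧ f x = 0 ∧
      ¬ ∀ᶠ y in 𝓝 x, g y = 0 → f y = 0} := by
  refine LipCov.of_locally fun p hp => ?_
  obtain ⟨K, φ, ψ, O, R, hK, hR, hO, hpO, hOs, hφ, a, b⟩ :=
    exists_hyp_param (hg p hp.1) hp.2.1 hp.2.2.1 (hs.mem_nhds hp.1)
  refine ⟨O, mem_nhdsWithin_of_mem_nhds (hO.mem_nhds hpO), ?_⟩
  have hA : AnalyticOnNhd ℝ (f ∘ φ) (ball (ψ p) R) := hf.comp hφ fun y hy => hOs (a y hy).1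
  have h := (lipCov_zero hA).image_of_contDiffAt (g := φ) fun y hy => (hφ y hy.1).contDiffAt
  rw [hK, Nat.sub_sub] at h
  refine h.mono ?_
  rintro x ⟨⟨-, hx0, -, hx1, hx2⟩, hx⟩
  refine ⟨ψ x, ⟨(b x hx).1, ?_, fun hc => hx2 ?_⟩, (b x hx).2 hx0⟩
  · rw [Function.comp_apply, (b x hx).2 hx0, hx1]
  · filter_upwards [ψ.continuous.continuousAt.eventually hc, hO.mem_nhds hx] with y hy hy' hy0
    rwa [Function.comp_apply, (b y hy').2 hy0] at hy

end Crest.Agent.R264
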