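import Crest.Agent.R264.P3.Cx

/-!
# Row 264, P3: the leaf map and its derivative
`P x η` is a polarised defining function on `PM r k × PM r k`.
-/

set_option autoImplicit false
open Set Filter Topology Metric

noncomputable section
namespace Crest.Agent.R264

variable {r k : ℕ}

/-- the normal direction -/
def pe0 (r k : ℕ) : PM r k := (1, 0, 0)
/-- the slice directions -/
def pe1 (k : ℕ) (l : Fin r) : PM r k := (0, Pi.single l 1, 0)

/-- normal derivative in the second variable -/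
def lam (P : PM r k × PM r k → ℂ) (z : PM r k × PM r k) : ℂ := fderiv ℂ P z (0, pe0 r k)
/-- normalised conormal of the Segre variety -/
def lnu (P : PM r k × PM r k → ℂ) (z : PM r k × PM r k) (w : PM r k) : ℂ :=
  (lam P z)⁻¹ * fderiv ℂ P z (0, w)
/-- its slice components -/
def lq (P : PM r k × PM r k → ℂ) (z : PM r k × PM r k) : CN r := fun l => lnu P z (pe1 k l)
/-- the leaf map -/
def lF (P : PM r k × PM r k → ℂ) (z : PM r k × PM r k) : PM r k × PM r k :=
  ((P z, lq P z, z.1.2.2), z.2)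

/-- `v` is Levi-orthogonal to the slice directions -/
def Ort (P : PM r k × PM r k → ℂ) (z : PM r k × PM r k) (v : PM r k) : Prop :=
  ∀ w : PM r k, w.2.2 = 0 → fderiv ℂ P z (0, w) = 0 → d2 P z (v, 0) (0, w) = 0

/-- the rank condition -/
def RC (P : PM r k × PM r k → ℂ) (z : PM r k × PM r k) : Prop :=
  ∀ v : PM r k, fderiv ℂ P z (v, 0) = 0 → Ort P z v →
    ∀ w : PM r k, fderiv ℂ P z (0, w) = 0 → d2 P z (v, 0) (0, w) = 0

variable {P : PM r k × PM r k → ℂ} {z : PM r k × PM r k}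

theorem Leaf0_lin (L : PM r k × PM r k →L[ℂ] ℂ) (w e : PM r k) (c : ℂ) :
    L (0, w - c • e) = L (0, w) - c * L (0, e) := by
  have : ((0, w - c • e) : PM r k × PM r k) = (0, w) - c • (0, e) := by simp
  rw [this, map_sub, map_smul, smul_eq_mul]

theorem Leaf0_sum (L : PM r k × PM r k →L[ℂ] ℂ) (c : Fin r → ℂ) (w : Fin r → PM r k) :
    L (0, ∑ l, c l • w l) = ∑ l, c l * L (0, w l) := by
  have := map_sum (L.comp (ContinuousLinearMap.inr ℂ (PM r k) (PM r k))) (fun l => c l • w l)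
    Finset.univ
  simpa only [ContinuousLinearMap.comp_apply, ContinuousLinearMap.inr_apply, map_smul,
    smul_eq_mul] using this

theorem Leaf0_dec {w : PM r k} (h1 : w.2.2 = 0) :
    w = w.1 • pe0 r k + ∑ l, w.2.1 l • pe1 k l := by
  refine Prod.ext ?_ (Prod.ext ?_ ?_)
  · simp [pe0, pe1, Prod.fst_sum]
  · funext j
    simp [pe0, pe1, Prod.fst_sum, Prod.snd_sum, Pi.single_apply]
  · simp [pe0, pe1, Prod.snd_sum, h1]

theorem analyticAt_lnu (hP : AnalyticAt ℂ P z) (h : lam P z ≠ 0) (w : PM r k) :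
    AnalyticAt ℂ (fun z' => lnu P z' w) z := by
  exact ((analyticAt_fderiv_apply hP (0, pe0 r k)).inv h).mul (analyticAt_fderiv_apply hP (0, w))

theorem analyticAt_lq (hP : AnalyticAt ℂ P z) (h : lam P z ≠ 0) : AnalyticAt ℂ (lq P) z := by
  exact analyticAt_pi_iff.2 fun l => analyticAt_lnu hP h _

theorem analyticAt_lF (hP : AnalyticAt ℂ P z) (h : lam P z ≠ 0) : AnalyticAt ℂ (lF P) z := by
  exact (hP.prod ((analyticAt_lq hP h).prod
    (analyticAt_snd.comp (analyticAt_snd.comp analyticAt_fst)))).prod analyticAt_snd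

theorem fderiv_sub_lnu (h : lam P z ≠ 0) (w : PM r k) :
    fderiv ℂ P z (0, w - lnu P z w • pe0 r k) = 0 := by
  rw [Leaf0_lin]
  change fderiv ℂ P z (0, w) - (lam P z)⁻¹ * fderiv ℂ P z (0, w) * lam P z = 0
  rw [mul_right_comm, inv_mul_cancel₀ h, one_mul, sub_self]

/-- quotient rule -/
theorem fderiv_lnu (hP : AnalyticAt ℂ P z) (h : lam P z ≠ 0) (w : PM r k) (α : PM r k × PM r k) :
    fderiv ℂ (fun z' => lnu P z' w) z α =
      (lam P z)⁻¹ * d2 P z α (0, w - lnu P z w • pe0 r k) := by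
  have h1 := (analyticAt_fderiv_apply hP (0, pe0 r k)).differentiableAt.hasFDerivAt
  have h2 := (analyticAt_fderiv_apply hP (0, w)).differentiableAt.hasFDerivAt
  have h3 : HasFDerivAt (fun z' => lnu P z' w) _ z :=
    ((hasDerivAt_inv h).comp_hasFDerivAt z h1).mul h2
  rw [h3.fderiv]
  simp only [add_apply, smul_apply, smul_eq_mul,
    fderiv_fderiv_apply hP, Function.comp_apply]
  unfold d2
  rw [Leaf0_lin]
  unfold lnu
  change (lam P z)⁻¹ * _ + _ * (-(lam P z ^ 2)⁻¹ * _) = _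
  field_simp
  ring

theorem fderiv_lF (hP : AnalyticAt ℂ P z) (h : lam P z ≠ 0) (α : PM r k × PM r k) :
    fderiv ℂ (lF P) z α = ((fderiv ℂ P z α,
      fun l => (lam P z)⁻¹ * d2 P z α (0, pe1 k l - lq P z l • pe0 r k), α.1.2.2), α.2) := by
  have h1 := hP.differentiableAt.hasFDerivAt
  have h2 := (analyticAt_lq hP h).differentiableAt.hasFDerivAt
  have h3 : HasFDerivAt (fun z : PM r k × PM r k => z.1.2.2) _ z :=
    (hasFDerivAt_fst (𝕜 := ℂ) (p := z)).snd.snd
  have h4 : HasFDerivAt (lF P) _ z := (h1.prodMk (h2.prodMk h3)).prodMk hasFDerivAt_snd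
  rw [h4.fderiv]
  refine Prod.ext (Prod.ext rfl (Prod.ext ?_ rfl)) rfl
  funext l
  change fderiv ℂ (lq P) z α l = _
  have h5 : fderiv ℂ (lq P) z = ContinuousLinearMap.pi
      fun l => fderiv ℂ (fun z' => lnu P z' (pe1 k l)) z :=
    fderiv_pi fun l => (analyticAt_lnu hP h (pe1 k l)).differentiableAt
  rw [h5]
  exact fderiv_lnu hP h _ α

/-- tangent vectors in the slice -/
theorem slice_tangent_eq (h : lam P z ≠ 0) {w : PM r k} (h1 : w.2.2 = 0)
    (h2 : fderiv ℂ P z (0, w) = 0) : w = ∑ l, w.2.1 l • (pe1 k l - lq P z l • pe0 r k) := by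
  have e : w - ∑ l, w.2.1 l • (pe1 k l - lq P z l • pe0 r k) =
      (w.1 + ∑ l, w.2.1 l * lq P z l) • pe0 r k := by
    have := Leaf0_dec h1
    simp only [smul_sub, Finset.sum_sub_distrib, add_smul, Finset.sum_smul, mul_smul]
    rw [sub_eq_iff_eq_add, add_add_sub_cancel]
    exact this
  have e2 : fderiv ℂ P z (0, ∑ l, w.2.1 l • (pe1 k l - lq P z l • pe0 r k)) = 0 := by
    rw [Leaf0_sum]
    exact Finset.sum_eq_zero fun l _ => mul_eq_zero_of_right _ (fderiv_sub_lnu h _)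
  have e3 := Leaf0_lin (fderiv ℂ P z) w (∑ l, w.2.1 l • (pe1 k l - lq P z l • pe0 r k)) 1
  rw [one_smul, e, h2, e2, mul_zero, sub_zero] at e3
  have e4 : ((0, (w.1 + ∑ l, w.2.1 l * lq P z l) • pe0 r k) : PM r k × PM r k) =
      (w.1 + ∑ l, w.2.1 l * lq P z l) • (0, pe0 r k) := by simp
  rw [e4, map_smul, smul_eq_mul] at e3
  rw [(mul_eq_zero.1 e3).resolve_right h, zero_smul] at e
  exact sub_eq_zero.1 e

theorem ort_iff (h : lam P z ≠ 0) (v : PM r k) :
    Ort P z v ↔ ∀ l, d2 P z (v, 0) (0, pe1 k l - lq P z l • pe0 r k) = 0 := by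
  constructor
  · intro ho l
    exact ho _ (by simp [pe0, pe1]) (fderiv_sub_lnu h _)
  · intro ho w h1 h2
    rw [slice_tangent_eq h h1 h2]
    unfold d2
    rw [Leaf0_sum]
    exact Finset.sum_eq_zero fun l _ => mul_eq_zero_of_right _ (ho l)

/-- the middle component of the derivative of the leaf map vanishes iff `v` is orthogonal -/
theorem ort_iff_fderiv (hP : AnalyticAt ℂ P z) (h : lam P z ≠ 0) (v : PM r k) :
    Ort P z v ↔ (fderiv ℂ (lF P) z (v, 0)).1.2.1 = 0 := by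
  rw [ort_iff h, fderiv_lF hP h, funext_iff]
  refine forall_congr' fun l => ?_
  simp only [Pi.zero_apply, mul_eq_zero, inv_eq_zero, h, false_or]

/-- equal slice kernels give equal slopes -/
theorem lq_eq_of_ker {z' : PM r k × PM r k} (h : lam P z ≠ 0) (h' : lam P z' ≠ 0)
    (hk : ∀ w : PM r k, w.2.2 = 0 → fderiv ℂ P z (0, w) = 0 → fderiv ℂ P z' (0, w) = 0) :
    lq P z' = lq P z := by
  funext l
  have h1 := hk _ (by simp [pe0, pe1]) (fderiv_sub_lnu h (pe1 k l))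
  rw [Leaf0_lin, sub_eq_zero] at h1
  change (lam P z')⁻¹ * fderiv ℂ P z' (0, pe1 k l) = lnu P z (pe1 k l)
  rw [h1]
  change (lam P z')⁻¹ * (_ * lam P z') = _
  field_simp

/-- A local inverse of the leaf map around the origin. -/
structure LCtx (P : PM r k × PM r k → ℂ) (χ : PM r k × PM r k → PM r k × PM r k)
    (O : Set (PM r k × PM r k)) (R : ℝ) : Prop where
  inv : LocInv ℂ (lF P) χ O (ball (lF P 0) R)
  R_pos : 0 < R
  zero_mem : 0 ∈ O
  an : AnalyticOnNhd ℂ P O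
  lam_ne : ∀ z ∈ O, lam P z ≠ 0

namespace LCtx
variable {χ : PM r k × PM r k → PM r k × PM r k} {O : Set (PM r k × PM r k)} {R : ℝ}

theorem P_chi (h : LCtx P χ O R) {y : PM r k × PM r k} (hy : y ∈ ball (lF P 0) R) :
    P (χ y) = y.1.1 := congrArg (fun y => y.1.1) (h.inv.ri y hy)

theorem lq_chi (h : LCtx P χ O R) {y : PM r k × PM r k} (hy : y ∈ ball (lF P 0) R) :
    lq P (χ y) = y.1.2.1 := congrArg (fun y => y.1.2.1) (h.inv.ri y hy)

theorem t_chi (h : LCtx P χ O R) {y : PM r k × PM r k} (hy : y ∈ ball (lF P 0) R) :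
    (χ y).1.2.2 = y.1.2.2 := congrArg (fun y => y.1.2.2) (h.inv.ri y hy)

theorem snd_chi (h : LCtx P χ O R) {y : PM r k × PM r k} (hy : y ∈ ball (lF P 0) R) :
    (χ y).2 = y.2 := congrArg (fun y => y.2) (h.inv.ri y hy)

/-- components of `Dχ ζ` (from `LocInv.fderiv_right` and `fderiv_lF`) -/
theorem fderiv_chi (h : LCtx P χ O R) {y : PM r k × PM r k} (hy : y ∈ ball (lF P 0) R)
    (ζ : PM r k × PM r k) :
    fderiv ℂ P (χ y) (fderiv ℂ χ y ζ) = ζ.1.1 ∧ (fderiv ℂ χ y ζ).1.2.2 = ζ.1.2.2 ∧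
      (fderiv ℂ χ y ζ).2 = ζ.2 := by
  have h1 := h.inv.fderiv_right hy ζ
  rw [fderiv_lF (h.an _ (h.inv.m2 hy)) (h.lam_ne _ (h.inv.m2 hy))] at h1
  exact ⟨congrArg (fun y => y.1.1) h1, congrArg (fun y => y.1.2.2) h1,
    congrArg (fun y => y.2) h1⟩

/-- nondegeneracy at every point of `O` (from `LocInv.fderiv_left`) -/
theorem nondeg (h : LCtx P χ O R) (hz : z ∈ O) {v : PM r k} (h1 : v.2.2 = 0)
    (h2 : fderiv ℂ P z (v, 0) = 0) (h3 : Ort P z v) : v = 0 := by
  have h4 := h.inv.fderiv_left hz (v, 0)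
  have h5 : fderiv ℂ (lF P) z (v, 0) = 0 := by
    have h6 := (ort_iff_fderiv (h.an z hz) (h.lam_ne z hz) v).1 h3
    rw [fderiv_lF (h.an z hz) (h.lam_ne z hz)] at h6 ⊢
    exact Prod.ext (Prod.ext h2 (Prod.ext h6 h1)) rfl
  rw [h5, map_zero] at h4
  exact (congrArg Prod.fst h4).symm

/-- shrinking (`LocInv.restrict` to a smaller ball, `LocInv.tendsto_inv`) -/
theorem shrink (h : LCtx P χ O R) {N : Set (PM r k × PM r k)} (hN : N ∈ 𝓝 0) :
    ∃ O' R', O' ⊆ N ∧ LCtx P χ O' R' := by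
  obtain ⟨ε, hε, hb⟩ := Metric.mem_nhds_iff.1 (h.inv.tendsto_inv h.zero_mem hN)
  have hR : 0 < min ε R := lt_min hε h.R_pos
  refine ⟨O ∩ lF P ⁻¹' ball (lF P 0) (min ε R), min ε R, fun x hx => ?_,
    h.inv.restrict isOpen_ball (ball_subset_ball (min_le_right _ _)), hR,
    ⟨h.zero_mem, mem_ball_self hR⟩, h.an.mono inter_subset_left, fun z hz => h.lam_ne z hz.1⟩
  have h1 : χ (lF P x) ∈ N := hb (ball_subset_ball (min_le_left _ _) hx.2)
  rwa [h.inv.li x hx.1] at h1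

end LCtx

end Crest.Agent.R264
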