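import Crest.Agent.R264.P3.Cx

/-!
# Row 264, P3: complexification of a real hypersurface
-/

set_option autoImplicit false
open Set Filter Topology Metric

noncomputable section
namespace Crest.Agent.R264

section Uniq
variable {W G : Type*} [NormedAddCommGroup W] [NormedSpace ℂ W] [CompleteSpace W]
  [NormedAddCommGroup G] [NormedSpace ℂ G] [CompleteSpace G]

/-- An antilinear continuous involution. -/
structure IsConj (σ : W → W) : Prop where
  add : ∀ z z', σ (z + z') = σ z + σ z'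
  smul : ∀ (c : ℂ) z, σ (c • z) = star c • σ z
  invol : ∀ z, σ (σ z) = z
  cont : Continuous σ

theorem Uniq_zero {σ : W → W} (hσ : IsConj σ) : σ 0 = 0 := by
  simpa using hσ.smul 0 0

theorem Uniq_sub {σ : W → W} (hσ : IsConj σ) (z z' : W) : σ (z - z') = σ z - σ z' := by
  rw [eq_sub_iff_add_eq, ← hσ.add, sub_add_cancel]

theorem Uniq_re {σ : W → W} (hσ : IsConj σ) (v : W) :
    σ ((2⁻¹ : ℂ) • (v + σ v)) = (2⁻¹ : ℂ) • (v + σ v) := by
  rw [hσ.smul, hσ.add, hσ.invol, add_comm]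
  simp

theorem Uniq_im {σ : W → W} (hσ : IsConj σ) (v : W) :
    σ ((-Complex.I / 2) • (v - σ v)) = (-Complex.I / 2) • (v - σ v) := by
  rw [hσ.smul, Uniq_sub hσ, hσ.invol, ← neg_sub v, smul_neg, ← neg_smul]
  congr 1
  simp [neg_div]

/-- A real form is a uniqueness set.  Hint: `y = y₀ + α + I • β` with `α = ½((y-y₀) + σ(y-y₀))`,
`β = (2I)⁻¹((y-y₀) - σ(y-y₀))` fixed by `σ` and small; `s ↦ h (y₀ + α + s • β)` is analytic on
`ball 0 2` and vanishes for real `s`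
(`AnalyticOnNhd.eqOn_zero_of_preconnected_of_frequently_eq_zero`); put `s = I`. -/
theorem real_form_unique {σ : W → W} (hσ : IsConj σ) {h : W → G} {y₀ : W} (hy : σ y₀ = y₀)
    (hh : AnalyticAt ℂ h y₀) (h0 : ∀ᶠ y in 𝓝 y₀, σ y = y → h y = 0) : ∀ᶠ y in 𝓝 y₀, h y = 0 := by
  obtain ⟨r, hr, hb⟩ := Metric.eventually_nhds_iff_ball.1 (hh.eventually_analyticAt.and h0)
  have hc := hσ.cont
  have small : ∀ {a : W → W}, Continuous a → a y₀ = 0 → ∀ᶠ y in 𝓝 y₀, ‖a y‖ < r / 3 :=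
    fun {a} ha h1 => ha.norm.continuousAt.eventually_lt continuousAt_const (by
      rw [h1, norm_zero]; positivity)
  filter_upwards [small (a := fun y => (2⁻¹ : ℂ) • ((y - y₀) + σ (y - y₀))) (by fun_prop)
      (by simp [Uniq_zero hσ]),
    small (a := fun y => (-Complex.I / 2) • ((y - y₀) - σ (y - y₀))) (by fun_prop)
      (by simp [Uniq_zero hσ])] with y ha hβ
  have a1 := Uniq_re hσ (y - y₀)
  have a2 := Uniq_im hσ (y - y₀)
  have a3 : y₀ + ((2⁻¹ : ℂ) • ((y - y₀) + σ (y - y₀)) +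
      Complex.I • ((-Complex.I / 2) • ((y - y₀) - σ (y - y₀)))) = y := by
    have : Complex.I * (-Complex.I / 2) = 2⁻¹ := by
      rw [neg_div, mul_neg, ← mul_div_assoc, Complex.I_mul_I]; norm_num
    rw [smul_smul, this, ← smul_add, add_add_sub_cancel, ← two_smul ℂ, smul_smul]
    simp
  generalize (2⁻¹ : ℂ) • ((y - y₀) + σ (y - y₀)) = α at ha a1 a3
  generalize (-Complex.I / 2) • ((y - y₀) - σ (y - y₀)) = β at hβ a2 a3
  have hm : ∀ s ∈ ball (0 : ℂ) 2, y₀ + (α + s • β) ∈ ball y₀ r := fun s hs => by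
    rw [mem_ball_zero_iff] at hs
    rw [mem_ball, dist_self_add_left]
    have b1 := norm_add_le α (s • β)
    rw [norm_smul] at b1
    nlinarith [norm_nonneg β, norm_nonneg s]
  have hf : AnalyticOnNhd ℂ (fun s : ℂ => h (y₀ + (α + s • β))) (ball 0 2) := fun s hs =>
    (hb _ (hm s hs)).1.comp_of_eq (f := fun s : ℂ => y₀ + (α + s • β)) (by fun_prop) rfl
  have ht : Tendsto (fun t : ℝ => (t : ℂ)) (𝓝[≠] 0) (𝓝[≠] 0) :=
    tendsto_nhdsWithin_iff.2 ⟨(Complex.continuous_ofReal.tendsto' 0 0 (by simp)).mono_left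
      nhdsWithin_le_nhds, eventually_nhdsWithin_of_forall fun t ht => by simpa using ht⟩
  have hz := hf.eqOn_zero_of_preconnected_of_frequently_eq_zero (convex_ball _ _).isPreconnected
    (mem_ball_self two_pos) (ht.frequently (Eventually.frequently (by
      filter_upwards [(ht.mono_right nhdsWithin_le_nhds).eventually (ball_mem_nhds 0 two_pos)]
        with t h1
      refine (hb _ (hm _ h1)).2 ?_
      rw [hσ.add, hσ.add, hσ.smul, hy, a1, a2]
      simp)))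
  have : h (y₀ + (α + Complex.I • β)) = 0 := hz (x := Complex.I) (by simp)
  rwa [a3] at this

theorem Uniq_fderiv {σ : W → W} (hσ : IsConj σ) {P : W → ℂ} {z₀ : W} (hz : σ z₀ = z₀)
    (hP : AnalyticAt ℂ P z₀) (herm : ∀ᶠ z in 𝓝 z₀, P (σ z) = star (P z)) (α : W) :
    fderiv ℂ P z₀ (σ α) = star (fderiv ℂ P z₀ α) := by
  have key : ∀ v : W, HasDerivAt (fun t : ℝ => P (z₀ + (t : ℂ) • v)) (fderiv ℂ P z₀ v) 0 := by
    intro v
    have h1 : HasDerivAt (fun s : ℂ => z₀ + s • v) v ((0 : ℝ) : ℂ) := by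
      simpa using ((hasDerivAt_id ((0 : ℝ) : ℂ)).smul_const v).const_add z₀
    exact (hP.differentiableAt.hasFDerivAt.comp_hasDerivAt_of_eq _ h1 (by simp)).comp_ofReal
  refine (key (σ α)).unique ((key α).star.congr_of_eventuallyEq ?_)
  have h2 : Tendsto (fun t : ℝ => z₀ + (t : ℂ) • α) (𝓝 0) (𝓝 z₀) :=
    Continuous.tendsto' (by fun_prop) _ _ (by simp)
  filter_upwards [h2.eventually herm] with t ht
  rw [← ht, hσ.add, hσ.smul, hz]
  simp

/-- A function vanishing on the real points of `P = 0` vanishes on `P = 0`.  Hint: `ℓ = fderiv P z₀`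
satisfies `ℓ (σ α) = conj (ℓ α)` (differentiate along real lines); pick `V` with `σ V = V`,
`ℓ V = 1`; `Φ z = z + (P z - ℓ z) • V` has derivative `id` at `z₀`, `ℓ (Φ z) = P z` and
`Φ (σ z) = σ (Φ z)` near `z₀`; with the local inverse `χ` (`exists_locInv`), which also commutes
with `σ` near `Φ z₀`, apply `real_form_unique` to `y ↦ g (χ (y - ℓ y • V))` at `Φ z₀`. -/
theorem hyp_complexify {σ : W → W} (hσ : IsConj σ) {P : W → ℂ} {g : W → G} {z₀ : W}
    (hz : σ z₀ = z₀) (hP : AnalyticAt ℂ P z₀) (herm : ∀ᶠ z in 𝓝 z₀, P (σ z) = star (P z))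
    (h0 : P z₀ = 0) (h1 : fderiv ℂ P z₀ ≠ 0) (hg : AnalyticAt ℂ g z₀)
    (h : ∀ᶠ z in 𝓝 z₀, σ z = z → P z = 0 → g z = 0) : ∀ᶠ z in 𝓝 z₀, P z = 0 → g z = 0 := by
  have hl := Uniq_fderiv hσ hz hP herm
  have hd := hP.differentiableAt.hasFDerivAt
  generalize fderiv ℂ P z₀ = ℓ at hl hd h1
  obtain ⟨V, hV, hV1⟩ : ∃ V, σ V = V ∧ ℓ V = 1 := by
    obtain ⟨v, hv⟩ : ∃ v, ℓ v ≠ 0 := by
      by_contra hc
      push Not at hc
      exact h1 (ContinuousLinearMap.ext hc)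
    have h2 : ℓ ((ℓ v)⁻¹ • v) = 1 := by rw [map_smul, smul_eq_mul, inv_mul_cancel₀ hv]
    refine ⟨_, Uniq_re hσ ((ℓ v)⁻¹ • v), ?_⟩
    rw [map_smul, map_add, hl, h2]
    norm_num
  set Φ : W → W := fun z => z + (P z - ℓ z) • V with hΦ
  have a1 : AnalyticAt ℂ Φ z₀ := analyticAt_id.add ((hP.sub (ℓ.analyticAt z₀)).smul analyticAt_const)
  have a2 : fderiv ℂ Φ z₀ = ContinuousLinearMap.id ℂ W := by
    have := (hasFDerivAt_id z₀).add ((hd.sub ℓ.hasFDerivAt).smul_const V)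
    rw [sub_self, ContinuousLinearMap.zero_smulRight, add_zero] at this
    exact this.fderiv
  have a3 : ∀ z, ℓ (Φ z) = P z := fun z => by simp [hΦ, hV1]
  have a4 : ∀ z, P (σ z) = star (P z) → Φ (σ z) = σ (Φ z) := fun z e => by
    simp only [hΦ, hσ.add, hσ.smul, hV, e, hl, star_sub]
  obtain ⟨χ, O, R, hR, hO, -, L⟩ := exists_locInv a1 (by rw [a2]; exact Function.bijective_id)
    univ_mem
  have b1 : Φ z₀ - ℓ (Φ z₀) • V = Φ z₀ := by rw [a3, h0, zero_smul, sub_zero]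
  have b2 : AnalyticAt ℂ (fun y => y - ℓ y • V) (Φ z₀) :=
    analyticAt_id.sub ((ℓ.analyticAt _).smul analyticAt_const)
  have b3 : AnalyticAt ℂ (fun y => χ (y - ℓ y • V)) (Φ z₀) :=
    (L.a2 _ (mem_ball_self hR)).comp_of_eq b2 b1
  have b4 : χ (Φ z₀ - ℓ (Φ z₀) • V) = z₀ := by rw [b1, L.li _ hO]
  have t1 : Tendsto (fun y => y - ℓ y • V) (𝓝 (Φ z₀)) (𝓝 (Φ z₀)) := by
    have := b2.continuousAt.tendsto
    rwa [b1] at this
  have t2 : Tendsto (fun y => χ (y - ℓ y • V)) (𝓝 (Φ z₀)) (𝓝 z₀) := by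
    have := b3.continuousAt.tendsto
    rwa [b4] at this
  have t3 : ∀ᶠ z in 𝓝 z₀, σ z ∈ O := (hσ.cont.tendsto' _ _ hz).eventually (L.o1.mem_nhds hO)
  have key := real_form_unique hσ (h := fun y => g (χ (y - ℓ y • V))) (y₀ := Φ z₀)
    (by rw [← a4 _ herm.self_of_nhds, hz]) (hg.comp_of_eq b3 b4) (by
      filter_upwards [t1.eventually (ball_mem_nhds _ hR), t2.eventually herm, t2.eventually h,
        t2.eventually t3] with y c1 c2 c3 c4 hy
      have d1 := L.ri _ c1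
      refine c3 (L.injOn c4 (L.m2 c1) ?_) ?_
      · rw [a4 _ c2, d1, Uniq_sub hσ, hσ.smul, ← hl, hy, hV]
      · rw [← a3, d1]
        simp [hV1])
  filter_upwards [a1.continuousAt.tendsto.eventually key, L.o1.mem_nhds hO] with z e1 e2 e3
  rwa [a3, e3, zero_smul, sub_zero, L.li _ e2] at e1

theorem isConj_sw {E : Type*} [NormedAddCommGroup E] [NormedSpace ℂ E] [StarAddMonoid E]
    [StarModule ℂ E] [ContinuousStar E] : IsConj (sw : E × E → E × E) where
  add := fun z z' => by simp [sw]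
  smul := fun c z => by simp [sw]
  invol := sw_sw
  cont := continuous_sw

end Uniq

end Crest.Agent.R264
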