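import Crest.Agent.R264.P3.Leaf0
import Crest.Agent.R264.P3.Uniq

/-!
# Row 264, P3: the local inverse of the leaf map; the rank condition at complex points
-/

set_option autoImplicit false
open Set Filter Topology Metric

noncomputable section
namespace Crest.Agent.R264

variable {r k : ℕ} {P : PM r k × PM r k → ℂ}

/-- Hint: `exists_locInv_of_inj` with `fderiv_lF`, `ort_iff`. -/
theorem exists_lctx (hP : AnalyticAt ℂ P 0) (h : lam P 0 ≠ 0)
    (nd : ∀ v : PM r k, v.2.2 = 0 → fderiv ℂ P 0 (v, 0) = 0 → Ort P 0 v → v = 0) :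
    ∃ χ O R, LCtx P χ O R := by
  have hN : {z | AnalyticAt ℂ P z ∧ lam P z ≠ 0} ∈ 𝓝 (0 : PM r k × PM r k) :=
    hP.eventually_analyticAt.and
      ((analyticAt_fderiv_apply hP (0, pe0 r k)).continuousAt.eventually_ne h)
  obtain ⟨χ, O, R, hR, h0, hO, hinv⟩ := exists_locInv_of_inj (𝕜 := ℂ) rfl (analyticAt_lF hP h)
    (fun α hα => by
      obtain ⟨v, w⟩ := α
      have h1 := hα
      rw [fderiv_lF hP h] at h1
      have h2 : w = 0 := congrArg (fun y => y.2) h1
      subst h2
      have h3 : v = 0 := nd v (congrArg (fun y => y.1.2.2) h1) (congrArg (fun y => y.1.1) h1)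
        ((ort_iff_fderiv hP h v).2 (congrArg (fun y => y.1.2.1) hα))
      rw [h3]
      rfl) hN
  exact ⟨χ, O, R, hinv, hR, h0, fun z hz => (hO hz).1, fun z hz => (hO hz).2⟩

theorem Leaf1_all {Z V G : Type*} [AddCommGroup V] [Module ℂ V] [Module.Finite ℂ V]
    [AddCommGroup G] [Module ℂ G] {l : Filter Z} {p : Z → Prop} {f : Z → V → G}
    (hf : ∀ z, IsLinearMap ℂ (f z)) (h : ∀ v, ∀ᶠ z in l, p z → f z v = 0) :
    ∀ᶠ z in l, p z → ∀ v, f z v = 0 := by
  filter_upwards [eventually_all.2 fun i => h (Module.finBasis ℂ V i)] with z hz hp v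
  have : IsLinearMap.mk' (f z) (hf z) = 0 := (Module.finBasis ℂ V).ext fun i => hz i hp
  exact LinearMap.congr_fun this v

theorem Leaf1_an {W : Type*} [NormedAddCommGroup W] [NormedSpace ℂ W] {Q : W → ℂ} {A B : W → W}
    {z : W} (hQ : AnalyticAt ℂ Q z) (hA : AnalyticAt ℂ A z) (hB : AnalyticAt ℂ B z) :
    AnalyticAt ℂ (fun z' => d2 Q z' (A z') (B z')) z := by
  have h1 : AnalyticAt ℂ (fun z' => fderiv ℂ (fderiv ℂ Q) z' (A z')) z :=
    ((ContinuousLinearMap.id ℂ (W →L[ℂ] W →L[ℂ] ℂ)).analyticAt_bilinear _).comp₂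
      hQ.fderiv.fderiv hA
  exact ((ContinuousLinearMap.id ℂ (W →L[ℂ] ℂ)).analyticAt_bilinear _).comp₂ h1 hB

/-- The rank condition passes from the real points to the complexification.  Hint: for fixed
`τ`, `w` the function
`g z = d2 P z (fderiv χ (lF P z) ((0,0,τ),0)) (0, w - lnu P z w • pe0 r k)` is analytic at `0`; the
vector `fderiv χ (lF P z) ((0,0,τ),0)` has the form `(v, 0)` with `DP z (v,0) = 0` and `Ort P z v`
(`LCtx.fderiv_chi`, `ort_iff_fderiv`, `LocInv.fderiv_right`), so `g` vanishes at real points of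
`P = 0`; use `hyp_complexify isConj_sw` for `τ`, `w` in finite bases (`Filter.eventually_all`) and
linearity.  Conversely every `v` with `DP z (v,0) = 0`, `Ort P z v` satisfies
`(v, 0) = fderiv χ (lF P z) ((0,0,v.2.2),0)` by `LocInv.fderiv_left`. -/
theorem rc_complex {χ : PM r k × PM r k → PM r k × PM r k} {O : Set (PM r k × PM r k)} {R : ℝ}
    (h : LCtx P χ O R) (herm : ∀ᶠ z in 𝓝 (0 : PM r k × PM r k), P (sw z) = star (P z))
    (h0 : P 0 = 0) (rc : ∀ᶠ x in 𝓝 (0 : PM r k), P (x, star x) = 0 → RC P (x, star x)) :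
    ∀ᶠ z in 𝓝 (0 : PM r k × PM r k), P z = 0 → RC P z := by
  have hP0 := h.an 0 h.zero_mem
  have hl0 := h.lam_ne 0 h.zero_mem
  have hO : ∀ᶠ z in 𝓝 (0 : PM r k × PM r k), z ∈ O := h.inv.o1.mem_nhds h.zero_mem
  have hD : fderiv ℂ P 0 ≠ 0 := fun h' => hl0 (by rw [lam, h']; rfl)
  have key : ∀ (τ : CN k) (w : PM r k), ∀ᶠ z in 𝓝 (0 : PM r k × PM r k), P z = 0 →
      d2 P z (fderiv ℂ χ (lF P z) ((0, 0, τ), 0)) (0, w - lnu P z w • pe0 r k) = 0 := by
    intro τ w
    refine hyp_complexify isConj_sw (by simp [sw]) hP0 herm h0 hD (Leaf1_an hP0 ?_ ?_) ?_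
    · exact (analyticAt_fderiv_apply (h.inv.a2 _ (mem_ball_self h.R_pos)) _).fun_comp
        (analyticAt_lF hP0 hl0)
    · exact analyticAt_const.prod
        (analyticAt_const.sub ((analyticAt_lnu hP0 hl0 w).smul analyticAt_const))
    · filter_upwards [hO, (continuous_fst.tendsto' (0 : PM r k × PM r k) 0 rfl).eventually rc]
        with z hz hrc hσ hPz
      have e1 : (z.1, star z.1) = z := Prod.ext rfl (show (sw z).2 = z.2 from congrArg Prod.snd hσ)
      rw [e1] at hrc
      have hy := h.inv.m1 hz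
      obtain ⟨a1, -, a3⟩ := h.fderiv_chi hy ((0, 0, τ), 0)
      have a4 := h.inv.fderiv_right hy ((0, 0, τ), 0)
      rw [h.inv.li z hz] at a1 a4
      have e2 : fderiv ℂ χ (lF P z) ((0, 0, τ), 0) = ((fderiv ℂ χ (lF P z) ((0, 0, τ), 0)).1, 0) :=
        Prod.ext rfl a3
      rw [e2] at a1 a4 ⊢
      exact hrc hPz _ a1
        ((ort_iff_fderiv (h.an z hz) (h.lam_ne z hz) _).2 (congrArg (fun y => y.1.2.1) a4)) _
        (fderiv_sub_lnu (h.lam_ne z hz) w)
  have key2 : ∀ τ : CN k, ∀ᶠ z in 𝓝 (0 : PM r k × PM r k), P z = 0 → (fun w : PM r k =>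
      d2 P z (fderiv ℂ χ (lF P z) ((0, 0, τ), 0)) (0, w - lnu P z w • pe0 r k)) = 0 := by
    intro τ
    refine (Leaf1_all (f := fun z w => d2 P z (fderiv ℂ χ (lF P z) ((0, 0, τ), 0))
      (0, w - lnu P z w • pe0 r k)) (fun z => ⟨fun w w' => ?_, fun c w => ?_⟩) (key τ)).mono
      fun z hz hp => funext (hz hp)
    · rw [← d2_add_right]
      congr 1
      have : ((0, w + w') : PM r k × PM r k) = (0, w) + (0, w') := by simp
      rw [lnu, lnu, lnu, this, map_add, mul_add, add_smul]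
      refine Prod.ext (add_zero _).symm ?_
      simp only [Prod.snd_add]
      abel
    · rw [← d2_smul_right]
      congr 1
      have : ((0, c • w) : PM r k × PM r k) = c • (0, w) := by simp
      rw [lnu, lnu, this, map_smul, smul_eq_mul, mul_left_comm]
      refine Prod.ext (smul_zero _).symm ?_
      simp only [Prod.smul_snd]
      rw [smul_sub, smul_smul]
  have key3 := Leaf1_all (f := fun z (τ : CN k) (w : PM r k) =>
      d2 P z (fderiv ℂ χ (lF P z) ((0, 0, τ), 0)) (0, w - lnu P z w • pe0 r k))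
      (fun z => ⟨fun τ τ' => funext fun w => by
          have : (((0, 0, τ + τ'), 0) : PM r k × PM r k) = ((0, 0, τ), 0) + ((0, 0, τ'), 0) := by
            simp
          rw [this, map_add, d2_add_left, Pi.add_apply],
        fun c τ => funext fun w => by
          have : (((0, 0, c • τ), 0) : PM r k × PM r k) = c • ((0, 0, τ), 0) := by simp
          rw [this, map_smul, d2_smul_left, Pi.smul_apply]⟩) key2
  filter_upwards [key3, hO] with z hz hzO hPz v h1 h2 w h3
  have a1 := congrFun (hz hPz v.2.2) w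
  have a2 : fderiv ℂ (lF P) z (v, 0) = ((0, 0, v.2.2), 0) := by
    have a3 := (ort_iff_fderiv (h.an z hzO) (h.lam_ne z hzO) v).1 h2
    rw [fderiv_lF (h.an z hzO) (h.lam_ne z hzO)] at a3 ⊢
    exact Prod.ext (Prod.ext h1 (Prod.ext a3 rfl)) rfl
  have a4 := h.inv.fderiv_left hzO (v, 0)
  rw [a2] at a4
  simpa only [a4, lnu, h3, mul_zero, zero_smul, sub_zero, Pi.zero_apply] using a1

end Crest.Agent.R264
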