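import Crest.Agent.R264.P3.Hyp

/-!
# Row 264, P3: three signs and the stratification
-/

set_option autoImplicit false
set_option linter.unusedSectionVars false
open Set Filter Topology Metric

noncomputable section
namespace Crest.Agent.R264

variable {E : Type} [NormedAddCommGroup E] [NormedSpace ℝ E] [FiniteDimensional ℝ E]

/-- One variable: the sign of a function whose first `k` derivatives vanish at `0`
(induction on `k` for all sequences `a`; `strictMonoOn_of_deriv_pos`). -/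
theorem sign_of_derivs (k : ℕ) (a : ℕ → ℝ → ℝ) (ε σ : ℝ)
    (hd : ∀ j, ∀ t ∈ Ioo (-ε) ε, HasDerivAt (a j) (a (j + 1) t) t)
    (h0 : ∀ j < k, a j 0 = 0) (hk : ∀ t ∈ Ioo (-ε) ε, 0 < σ * a k t) :
    (∀ t ∈ Ioo 0 ε, 0 < σ * a 0 t) ∧ ∀ t ∈ Ioo (-ε) 0, 0 < σ * (-1) ^ k * a 0 t := by
  induction k generalizing a with
  | zero =>
    refine ⟨fun t ht => hk t ⟨by linarith [ht.1, ht.2], ht.2⟩, fun t ht => ?_⟩
    rw [pow_zero, mul_one]
    exact hk t ⟨ht.1, by linarith [ht.1, ht.2]⟩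
  | succ k ih =>
    obtain ⟨h1, h2⟩ := ih (fun j => a (j + 1)) (fun j => hd (j + 1))
      (fun j hj => h0 (j + 1) (by omega)) hk
    have h3 := h0 0 (by omega)
    refine ⟨fun t ht => ?_, fun t ht => ?_⟩
    · have hs : Icc 0 t ⊆ Ioo (-ε) ε := fun u hu =>
        ⟨by linarith [hu.1, ht.1, ht.2], hu.2.trans_lt ht.2⟩
      obtain ⟨c, hc, e⟩ := exists_hasDerivAt_eq_slope (a 0) (a 1) ht.1
        (fun u hu => (hd 0 u (hs hu)).continuousAt.continuousWithinAt)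
        fun u hu => hd 0 u (hs (Ioo_subset_Icc_self hu))
      rw [h3, sub_zero, sub_zero, eq_div_iff ht.1.ne'] at e
      have := mul_pos (h1 c ⟨hc.1, hc.2.trans ht.2⟩) ht.1
      rw [← e, ← mul_assoc]
      exact this
    · have hs : Icc t 0 ⊆ Ioo (-ε) ε := fun u hu =>
        ⟨ht.1.trans_le hu.1, by linarith [hu.2, ht.1, ht.2]⟩
      obtain ⟨c, hc, e⟩ := exists_hasDerivAt_eq_slope (a 0) (a 1) ht.2
        (fun u hu => (hd 0 u (hs hu)).continuousAt.continuousWithinAt)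
        fun u hu => hd 0 u (hs (Ioo_subset_Icc_self hu))
      rw [h3, eq_div_iff (sub_pos.2 ht.2).ne'] at e
      have := mul_pos (h2 c ⟨ht.1.trans hc.1, hc.2⟩) (sub_pos.2 ht.2)
      rw [mul_assoc, zero_add, e] at this
      calc (0 : ℝ) < σ * (-1) ^ k * (0 - a 0 t) := this
        _ = σ * (-1) ^ (k + 1) * a 0 t := by ring

theorem Strat_line {g : E → ℝ} {y v : E} {t : ℝ} (hg : DifferentiableAt ℝ g (y + t • v)) :
    HasDerivAt (fun t : ℝ => g (y + t • v)) (dd v g (y + t • v)) t := by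
  have h1 : HasDerivAt (fun s : ℝ => y + s • v) v t := by
    simpa using ((hasDerivAt_id t).smul_const v).const_add y
  exact hg.hasFDerivAt.comp_hasDerivAt t h1

theorem Strat_mem {p y v : E} {r ε t : ℝ} (hy : y ∈ ball p (r / 2)) (hε : ε * ‖v‖ ≤ r / 2)
    (ht : |t| ≤ ε) : y + t • v ∈ ball p r := by
  rw [mem_ball, dist_eq_norm] at hy ⊢
  have h1 : ‖y + t • v - p‖ ≤ ‖y - p‖ + ‖t • v‖ := by
    rw [add_sub_right_comm]; exact norm_add_le _ _
  rw [norm_smul, Real.norm_eq_abs] at h1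
  have h2 := mul_le_mul_of_nonneg_right ht (norm_nonneg v)
  linarith

theorem Strat_eps (v : E) {r : ℝ} (hr : 0 < r) : ∃ ε : ℝ, 0 < ε ∧ ε * ‖v‖ ≤ r / 2 := by
  refine ⟨r / 2 / (‖v‖ + 1), by positivity, ?_⟩
  rw [div_mul_eq_mul_div, div_le_iff₀ (by positivity)]
  nlinarith [norm_nonneg v]

/-- Near a regular zero every point is joined to the hypersurface along the transversal
direction `v` (intermediate value theorem; `t ↦ g (x + t • v)` is strictly increasing). -/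
theorem exists_foot {g : E → ℝ} {p v : E} (hg : AnalyticAt ℝ g p) (h0 : g p = 0)
    (hv : 0 < fderiv ℝ g p v) {ε : ℝ} (hε : 0 < ε) {O : Set E} (hO : O ∈ 𝓝 p) :
    ∀ᶠ x in 𝓝 p, ∃ y ∈ O, ∃ t ∈ Ioo (-ε) ε, g y = 0 ∧ x = y + t • v ∧
      (0 < g x → 0 < t) ∧ (g x = 0 → t = 0) ∧ (g x < 0 → t < 0) := by
  have h1 : ∀ᶠ x in 𝓝 p, 0 < fderiv ℝ g x v :=
    (hg.fderiv.continuousAt.clm_apply continuousAt_const).eventually (lt_mem_nhds hv)
  obtain ⟨r, hr, hball⟩ := Metric.mem_nhds_iff.1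
    (inter_mem hO (h1.and hg.eventually_analyticAt))
  obtain ⟨ε', hε', hε''⟩ := Strat_eps v hr
  obtain ⟨δ, hδ, hδε, hδr⟩ : ∃ δ : ℝ, 0 < δ ∧ δ ≤ ε ∧ δ * ‖v‖ ≤ r / 2 :=
    ⟨min ε ε', lt_min hε hε', min_le_left _ _,
      (mul_le_mul_of_nonneg_right (min_le_right _ _) (norm_nonneg v)).trans hε''⟩
  have hm : ∀ x ∈ ball p (r / 2), ∀ t ∈ Icc (-δ) δ, x + t • v ∈ ball p r := fun x hx t ht =>
    Strat_mem hx hδr (abs_le.2 ht)
  have hc : ∀ x ∈ ball p (r / 2), ContinuousOn (fun t : ℝ => g (x + t • v)) (Icc (-δ) δ) :=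
    fun x hx t ht =>
      (Strat_line (hball (hm x hx t ht)).2.2.differentiableAt).continuousAt.continuousWithinAt
  have hmono : ∀ x ∈ ball p (r / 2), StrictMonoOn (fun t : ℝ => g (x + t • v)) (Icc (-δ) δ) :=
    fun x hx => strictMonoOn_of_deriv_pos (convex_Icc _ _) (hc x hx) fun t ht => by
      have ht' := hball (hm x hx t (interior_subset ht))
      rw [(Strat_line ht'.2.2.differentiableAt).deriv]
      exact ht'.2.1
  have z0 : (0 : ℝ) ∈ Icc (-δ) δ := ⟨by linarith, hδ.le⟩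
  have z1 : δ ∈ Icc (-δ) δ := ⟨by linarith, le_rfl⟩
  have z2 : -δ ∈ Icc (-δ) δ := ⟨le_rfl, by linarith⟩
  have hp := mem_ball_self (x := p) (half_pos hr)
  have hcont : ∀ t ∈ Icc (-δ) δ, ContinuousAt (fun x => g (x + t • v)) p := fun t ht =>
    (hball (hm p hp t ht)).2.2.continuousAt.comp_of_eq (by fun_prop) rfl
  have e1 : ∀ᶠ x in 𝓝 p, 0 < g (x + δ • v) := (hcont δ z1).eventually (lt_mem_nhds (by
    have := hmono p hp z0 z1 hδ
    simpa only [zero_smul, add_zero, h0] using this))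
  have e2 : ∀ᶠ x in 𝓝 p, g (x + (-δ) • v) < 0 := (hcont (-δ) z2).eventually (gt_mem_nhds (by
    have := hmono p hp z2 z0 (by linarith)
    simpa only [zero_smul, add_zero, h0] using this))
  filter_upwards [e1, e2, ball_mem_nhds p (half_pos hr)] with x a1 a2 hx
  obtain ⟨τ, hτ, hτ0⟩ := intermediate_value_Ioo (by linarith : -δ ≤ δ) (hc x hx) ⟨a2, a1⟩
  have hτ' := Ioo_subset_Icc_self hτ
  simp only at hτ0
  refine ⟨x + τ • v, (hball (hm x hx τ hτ')).1, -τ, ⟨by linarith [hτ.2], by linarith [hτ.1]⟩, hτ0,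
    by rw [neg_smul, add_neg_cancel_right], fun c => ?_, fun c => ?_, fun c => ?_⟩
  · have := ((hmono x hx).lt_iff_lt hτ' z0).1 (by simpa only [hτ0, zero_smul, add_zero] using c)
    linarith
  · have := ((hmono x hx).eq_iff_eq hτ' z0).1 (by simp only [hτ0, zero_smul, add_zero, c])
    linarith
  · have := ((hmono x hx).lt_iff_lt z0 hτ').1 (by simpa only [hτ0, zero_smul, add_zero] using c)
    linarith

theorem Strat_sign {c y : ℝ} (h : 0 < c * y) : SignType.sign y = SignType.sign c := by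
  rcases mul_pos_iff.1 h with ⟨h1, h2⟩ | ⟨h1, h2⟩
  · rw [sign_pos h1, sign_pos h2]
  · rw [sign_neg h1, sign_neg h2]

theorem Strat_flat (a : ℕ → ℝ → ℝ) {ε : ℝ} (hε : 0 < ε) (ha : AnalyticOnNhd ℝ (a 0) (Ioo (-ε) ε))
    (hd : ∀ j, ∀ t ∈ Ioo (-ε) ε, HasDerivAt (a j) (a (j + 1) t) t) (h0 : ∀ j, a j 0 = 0) :
    ∀ t ∈ Ioo (-ε) ε, a 0 t = 0 := by
  have hz : (0 : ℝ) ∈ Ioo (-ε) ε := ⟨by linarith, hε⟩
  have h1 : ∀ j, ∀ t ∈ Ioo (-ε) ε, iteratedDeriv j (a 0) t = a j t := fun j => by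
    induction j with
    | zero => intro t _; rw [iteratedDeriv_zero]
    | succ j ih =>
      intro t ht
      have : iteratedDeriv j (a 0) =ᶠ[𝓝 t] a j :=
        eventually_of_mem (isOpen_Ioo.mem_nhds ht) ih
      rw [iteratedDeriv_succ, this.deriv_eq, (hd j t ht).deriv]
  have h2 : analyticOrderAt (a 0) 0 = ⊤ := ENat.eq_top_iff_forall_ge.2 fun n =>
    (natCast_le_analyticOrderAt_iff_iteratedDeriv_eq_zero (ha 0 hz)).2 fun i _ => by
      rw [h1 i 0 hz, h0]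
  exact ha.eqOn_zero_of_preconnected_of_eventuallyEq_zero isPreconnected_Ioo hz
    (analyticOrderAt_eq_top.1 h2)

theorem Strat_pos {g f : E → ℝ} {s : Set E} (hs : IsOpen s) {p v : E} (hp : p ∈ s)
    (hg : AnalyticOnNhd ℝ g s) (hf : AnalyticOnNhd ℝ f s) (h0 : g p = 0)
    (hv : 0 < fderiv ℝ g p v)
    (h : ∀ j : ℕ, (dd v)^[j] f p = 0 → ∀ᶠ y in 𝓝 p, g y = 0 → (dd v)^[j] f y = 0) :
    ∃ σ₁ σ₂ σ₃ : SignType, ∀ᶠ x in 𝓝 p, (0 < g x → SignType.sign (f x) = σ₁) ∧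
      (g x = 0 → SignType.sign (f x) = σ₂) ∧ (g x < 0 → SignType.sign (f x) = σ₃) := by
  classical
  have hF : ∀ j : ℕ, AnalyticOnNhd ℝ ((dd v)^[j] f) s := fun j => by
    induction j with
    | zero => exact hf
    | succ j ih => rw [Function.iterate_succ_apply']; exact dd_analytic ih v
  obtain ⟨O, hO, hid⟩ := hyp_identity hs hp hg h0 (fun e => by rw [e] at hv; simp at hv)
  have hder : ∀ (j : ℕ) (y : E) (t : ℝ), y + t • v ∈ s →
      HasDerivAt (fun t : ℝ => (dd v)^[j] f (y + t • v)) ((dd v)^[j + 1] f (y + t • v)) t :=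
    fun j y t ht => by
      rw [Function.iterate_succ_apply']
      exact Strat_line (hF j _ ht).differentiableAt
  by_cases hall : ∀ j : ℕ, (dd v)^[j] f p = 0
  · obtain ⟨r, hr, hball⟩ := Metric.mem_nhds_iff.1 (hs.mem_nhds hp)
    obtain ⟨ε, hε, hε'⟩ := Strat_eps v hr
    refine ⟨0, 0, 0, ?_⟩
    filter_upwards [exists_foot (hg p hp) h0 hv hε
      (inter_mem hO (ball_mem_nhds p (half_pos hr)))] with x ⟨y, hy, t, ht, hy0, hx, _⟩
    have hm : ∀ t ∈ Ioo (-ε) ε, y + t • v ∈ s := fun t ht =>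
      hball (Strat_mem hy.2 hε' (abs_le.2 ⟨ht.1.le, ht.2.le⟩))
    have := Strat_flat (fun j t => (dd v)^[j] f (y + t • v)) hε
      (fun t ht => (hf _ (hm t ht)).comp_of_eq
        (analyticAt_const.add (analyticAt_id.smul analyticAt_const)) rfl)
      (fun j t ht => hder j y t (hm t ht))
      (fun j => by
        rw [zero_smul, add_zero]
        exact hid _ (hF j) (h j (hall j)) y hy.1 hy0) t ht
    have e : f x = 0 := hx ▸ this
    simp [e]
  · have hex : ∃ j : ℕ, (dd v)^[j] f p ≠ 0 := not_forall.1 hall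
    obtain ⟨k, hk, hmin⟩ : ∃ k : ℕ, (dd v)^[k] f p ≠ 0 ∧ ∀ j < k, (dd v)^[j] f p = 0 :=
      ⟨Nat.find hex, Nat.find_spec hex, fun j hj => not_not.1 (Nat.find_min hex hj)⟩
    obtain ⟨σ, hσ⟩ : ∃ σ, σ = (dd v)^[k] f p := ⟨_, rfl⟩
    have hev : ∀ᶠ x in 𝓝 p, 0 < σ * (dd v)^[k] f x :=
      (continuousAt_const.mul (hF k p hp).continuousAt).eventually
        (lt_mem_nhds (by rw [hσ]; exact mul_self_pos.2 hk))
    obtain ⟨r, hr, hball⟩ := Metric.mem_nhds_iff.1 (inter_mem (hs.mem_nhds hp) hev)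
    obtain ⟨ε, hε, hε'⟩ := Strat_eps v hr
    refine ⟨SignType.sign σ, if k = 0 then SignType.sign σ else 0,
      SignType.sign (σ * (-1) ^ k), ?_⟩
    filter_upwards [exists_foot (hg p hp) h0 hv hε
      (inter_mem hO (ball_mem_nhds p (half_pos hr)))] with x ⟨y, hy, t, ht, hy0, hx, c1, c2, c3⟩
    have hm := fun t (ht : t ∈ Ioo (-ε) ε) =>
      hball (Strat_mem hy.2 hε' (abs_le.2 ⟨ht.1.le, ht.2.le⟩))
    have hz : ∀ j < k, (dd v)^[j] f y = 0 := fun j hj =>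
      hid _ (hF j) (h j (hmin j hj)) y hy.1 hy0
    obtain ⟨d1, d2⟩ := sign_of_derivs k (fun j t => (dd v)^[j] f (y + t • v)) ε σ
      (fun j t ht => hder j y t (hm t ht).1)
      (fun j hj => by rw [zero_smul, add_zero]; exact hz j hj) fun t ht => (hm t ht).2
    refine ⟨fun c => ?_, fun c => ?_, fun c => ?_⟩
    · exact hx ▸ Strat_sign (d1 t ⟨c1 c, ht.2⟩)
    · split_ifs with e
      · subst e
        exact hx ▸ Strat_sign (hm t ht).2
      · rw [hx, c2 c, zero_smul, add_zero]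
        exact sign_eq_zero_iff.2 (hz 0 (Nat.pos_of_ne_zero e))
    · exact hx ▸ Strat_sign (d2 t ⟨ht.1, c3 c⟩)

/-- Three signs.  Put `f j = (dd v)^[j] f`.  Every `f j` vanishing at `p` vanishes on `g = 0` in the
fixed neighbourhood of `hyp_identity`.  If all vanish, `t ↦ f (y + t • v)` is analytic on an interval
with all derivatives zero at `0`, so `f = 0` near `p`.  Otherwise take the least `k` with
`f k p ≠ 0` and use `sign_of_derivs` along the segments of `exists_foot`. -/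
theorem three_signs {g f : E → ℝ} {s : Set E} (hs : IsOpen s) {p v : E} (hp : p ∈ s)
    (hg : AnalyticOnNhd ℝ g s) (hf : AnalyticOnNhd ℝ f s) (h0 : g p = 0)
    (hv : fderiv ℝ g p v ≠ 0)
    (h : ∀ j : ℕ, (dd v)^[j] f p = 0 → ∀ᶠ y in 𝓝 p, g y = 0 → (dd v)^[j] f y = 0) :
    ∃ σ₁ σ₂ σ₃ : SignType, ∀ᶠ x in 𝓝 p, (0 < g x → SignType.sign (f x) = σ₁) ∧
      (g x = 0 → SignType.sign (f x) = σ₂) ∧ (g x < 0 → SignType.sign (f x) = σ₃) := by
  rcases lt_or_gt_of_ne hv with hv | hv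
  · obtain ⟨σ₁, σ₂, σ₃, hσ⟩ := Strat_pos (g := -g) (v := v) hs hp hg.neg hf (by simp [h0])
      (by rw [fderiv_neg]; simpa using hv) (by simpa using h)
    refine ⟨σ₃, σ₂, σ₁, hσ.mono fun x hx => ?_⟩
    simp only [Pi.neg_apply, Left.neg_pos_iff, neg_eq_zero, Left.neg_neg_iff] at hx
    exact ⟨hx.2.2, hx.2.1, hx.1⟩
  · exact Strat_pos hs hp hg hf h0 hv h

/-- Stratification: off a set of codimension two, a countable family of analytic functions that is
closed under partial derivatives has constant signs on the two sides of one regular hypersurface.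
The exceptional set is the union over `g, f ∈ 𝒢` of the sets of `lipCov_hyp_zero`. -/
theorem exists_strat {ι : Type} (b : Module.Basis ι ℝ E) {s : Set E} (hs : IsOpen s)
    {𝒢 : Set (E → ℝ)} (hc : 𝒢.Countable) (ha : ∀ g ∈ 𝒢, AnalyticOnNhd ℝ g s)
    (hd : ∀ g ∈ 𝒢, ∀ i, dd (b i) g ∈ 𝒢) :
    ∃ X : Set E, LipCov (Module.finrank ℝ E - 2) X ∧ ∀ p ∈ s, p ∉ X →
      (∀ f ∈ 𝒢, ∀ᶠ x in 𝓝 p, SignType.sign (f x) = SignType.sign (f p)) ∨
      ∃ g ∈ 𝒢, g p = 0 ∧ fderiv ℝ g p ≠ 0 ∧ ∀ f ∈ 𝒢, ∃ σ₁ σ₂ σ₃ : SignType, ∀ᶠ x in 𝓝 p,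
        (0 < g x → SignType.sign (f x) = σ₁) ∧ (g x = 0 → SignType.sign (f x) = σ₂) ∧
        (g x < 0 → SignType.sign (f x) = σ₃) := by
  refine ⟨⋃ g ∈ 𝒢, ⋃ f ∈ 𝒢, {x | x ∈ s ∧ g x = 0 ∧ fderiv ℝ g x ≠ 0 ∧ f x = 0 ∧
      ¬ ∀ᶠ y in 𝓝 x, g y = 0 → f y = 0}, LipCov.biUnion hc fun g hg => LipCov.biUnion hc
        fun f hf => lipCov_hyp_zero hs (ha g hg) (ha f hf), fun p hp hX => ?_⟩
  refine or_iff_not_imp_left.2 fun hn => ?_
  simp only [not_forall] at hn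
  obtain ⟨f₀, hf₀, hn⟩ := hn
  have h0 : f₀ p = 0 := by
    by_contra h0
    refine hn (Eventually.mono ?_ fun x hx => Strat_sign hx)
    exact (continuousAt_const.mul (ha f₀ hf₀ p hp).continuousAt).eventually
      (lt_mem_nhds (mul_self_pos.2 h0))
  obtain ⟨l, h1, h2⟩ := exists_regular_ddL b (ha f₀ hf₀ p hp) h0 fun h =>
    hn (h.mono fun x hx => by rw [hx, h0])
  have hg : ∀ l : List ι, ddL (l.map b) f₀ ∈ 𝒢 := fun l => by
    induction l with
    | nil => exact hf₀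
    | cons i l ih => exact hd _ ih i
  obtain ⟨i, hi⟩ : ∃ i, fderiv ℝ (ddL (l.map b) f₀) p (b i) ≠ 0 := by
    by_contra hcon
    simp only [ne_eq, not_exists, not_not] at hcon
    exact h2 (ContinuousLinearMap.coe_injective (b.ext hcon))
  refine ⟨_, hg l, h1, h2, fun f hf => three_signs hs hp (ha _ (hg l)) (ha f hf) h1 hi
    fun j hj => ?_⟩
  have hj' : ∀ j : ℕ, (dd (b i))^[j] f ∈ 𝒢 := fun j => by
    induction j with
    | zero => exact hf
    | succ j ih => rw [Function.iterate_succ_apply']; exact hd _ ih i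
  by_contra hcon
  exact hX (mem_biUnion (hg l) (mem_biUnion (hj' j) ⟨hp, h1, h2, hj, hcon⟩))

end Crest.Agent.R264
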