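import Crest.Agent.R264.P3.Cx
import Crest.Agent.R264.P3.Strat

/-!
# Row 264, P3: tautness makes the Levi form semidefinite
-/

set_option autoImplicit false
open Set Filter Topology Metric

noncomputable section
namespace Crest.Agent.R264

variable {E : Type} [NormedAddCommGroup E] [NormedSpace ℂ E] [FiniteDimensional ℂ E]
  [StarAddMonoid E] [StarModule ℂ E] [ContinuousStar E]

/-- Taylor's formula of order two. -/
theorem levi_taylor {W : Type*} [NormedAddCommGroup W] [NormedSpace ℂ W] {P : W → ℂ} {z : W}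
    (hP : AnalyticAt ℂ P z) : ∃ C : ℝ, 0 ≤ C ∧ ∀ᶠ y in 𝓝 (0 : W),
      ‖P (z + y) - (P z + fderiv ℂ P z y + d2 P z y y / 2)‖ ≤ C * ‖y‖ ^ 3 := by
  obtain ⟨q, hq⟩ := hP
  obtain ⟨C, hC0, hC⟩ := (hq.isBigO_sub_partialSum_pow 3).exists_nonneg
  obtain ⟨r, hr⟩ := hq
  refine ⟨C, hC0, hC.bound.mono fun y hy => ?_⟩
  have e0 := hr.factorial_smul y 0
  have e1 := hr.factorial_smul y 1
  have e2 := hr.factorial_smul y 2
  rw [iteratedFDeriv_zero_apply] at e0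
  rw [iteratedFDeriv_one_apply] at e1
  rw [iteratedFDeriv_two_apply] at e2
  simp only [Nat.factorial_zero, Nat.factorial_one, Nat.factorial_two, one_smul, nsmul_eq_mul,
    Nat.cast_ofNat] at e0 e1 e2
  have e : q.partialSum 3 y = P z + fderiv ℂ P z y + d2 P z y y / 2 := by
    simp only [FormalMultilinearSeries.partialSum, Finset.sum_range_succ, Finset.range_zero,
      Finset.sum_empty, zero_add, d2]
    rw [← e0, ← e1, ← e2]
    ring
  rw [e] at hy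
  simpa using hy

/-- A disc with second order contact from the positive side.  With `z₀ = (p, p̄)`,
`DP z₀ (v,0) = 0`, `2 DP z₀ (b,0) + D²P z₀ (v,0) (v,0) = 0` and `Re D²P z₀ (v,0) (0,v̄) > 0`.
Hint: for `‖θ‖ = 1` put `x s = p + (sθ) • v + (sθ)^2 • b` (`s` real), `a 0 s = Re P (x s, star (x s))`,
`a 1`, `a 2` its derivatives (chain rule with `HasDerivAt` over `ℝ`, `HasDerivAt.star`,
`fderiv_fderiv_apply`); `a 0 0 = a 1 0 = 0` and `a 2 0 = 2 Re D²P z₀ (v,0) (0,v̄)` by `fderiv_sw`,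
`d2_sw`, `d2_symm`; `a 2` is jointly continuous in `(θ, s)`, so it is positive for `|s| < δ`
uniformly in `θ` (`IsCompact.eventually_forall_of_forall_eventually`); conclude with two
applications of `strictMonoOn_of_deriv_pos`. -/
theorem levi_disc_pos {P : E × E → ℂ} {p v b : E} (hP : AnalyticAt ℂ P (p, star p))
    (herm : ∀ᶠ z in 𝓝 (p, star p), P (sw z) = star (P z)) (h0 : P (p, star p) = 0)
    (hv : fderiv ℂ P (p, star p) (v, 0) = 0)
    (hb : 2 * fderiv ℂ P (p, star p) (b, 0) + d2 P (p, star p) (v, 0) (v, 0) = 0)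
    (hpos : 0 < (d2 P (p, star p) (v, 0) (0, star v)).re) :
    ∀ᶠ ζ in 𝓝[≠] (0 : ℂ), 0 < (P (p + ζ • v + ζ ^ 2 • b, star (p + ζ • v + ζ ^ 2 • b))).re := by
  obtain ⟨C, hC0, hC⟩ := levi_taylor hP
  set z₀ : E × E := (p, star p) with hz₀
  set L : ℝ := (d2 P z₀ (v, 0) (0, star v)).re with hL
  have hsw : sw z₀ = z₀ := sw_real p
  have s1 : ∀ w : E, fderiv ℂ P z₀ (0, star w) = star (fderiv ℂ P z₀ (w, 0)) := fun w => by
    have := fderiv_sw hP herm (w, 0)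
    rw [hsw] at this
    simpa [sw] using this
  have s2 : d2 P z₀ (0, star v) (0, star v) = star (d2 P z₀ (v, 0) (v, 0)) := by
    have := d2_sw hP herm (v, 0) (v, 0)
    rw [hsw] at this
    simpa [sw] using this
  have s3 : d2 P z₀ (0, star v) (v, 0) = d2 P z₀ (v, 0) (0, star v) := d2_symm hP _ _
  set y₁ : ℂ → E × E := fun ζ => ζ • (v, 0) + star ζ • (0, star v) with hy₁
  set y₂ : ℂ → E × E := fun ζ => ζ ^ 2 • (b, 0) + star ζ ^ 2 • (0, star b) with hy₂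
  set C₁ : ℝ := ‖((v, 0) : E × E)‖ + ‖((0, star v) : E × E)‖ with hC₁
  set C₂ : ℝ := ‖((b, 0) : E × E)‖ + ‖((0, star b) : E × E)‖ with hC₂
  have c1 : 0 ≤ C₁ := by positivity
  have c2 : 0 ≤ C₂ := by positivity
  have n1 : ∀ ζ, ‖y₁ ζ‖ ≤ ‖ζ‖ * C₁ := fun ζ => by
    refine (norm_add_le _ _).trans (le_of_eq ?_)
    rw [norm_smul, norm_smul, norm_star, hC₁]
    ring
  have n2 : ∀ ζ, ‖y₂ ζ‖ ≤ ‖ζ‖ ^ 2 * C₂ := fun ζ => by
    refine (norm_add_le _ _).trans (le_of_eq ?_)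
    rw [norm_smul, norm_smul, norm_pow, norm_pow, norm_star, hC₂]
    ring
  have ept : ∀ ζ : ℂ, ((p + ζ • v + ζ ^ 2 • b, star (p + ζ • v + ζ ^ 2 • b)) : E × E) =
      z₀ + (y₁ ζ + y₂ ζ) := fun ζ => by
    simp only [hz₀, hy₁, hy₂, star_add, star_smul, star_pow, Prod.smul_mk, smul_zero, Prod.mk_add_mk,
      add_zero, zero_add, add_assoc]
  set B := fderiv ℂ (fderiv ℂ P) z₀ with hB
  have hd : ∀ α β, ‖d2 P z₀ α β‖ ≤ ‖B‖ * ‖α‖ * ‖β‖ := fun α β => B.le_opNorm₂ α β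
  have main : ∀ ζ : ℂ, P z₀ + fderiv ℂ P z₀ (y₁ ζ + y₂ ζ) +
      d2 P z₀ (y₁ ζ + y₂ ζ) (y₁ ζ + y₂ ζ) / 2 =
      (ζ * star ζ) * d2 P z₀ (v, 0) (0, star v) +
        (d2 P z₀ (y₁ ζ) (y₂ ζ) + d2 P z₀ (y₂ ζ) (y₁ ζ) + d2 P z₀ (y₂ ζ) (y₂ ζ)) / 2 := fun ζ => by
    have a1 : fderiv ℂ P z₀ (y₁ ζ) = 0 := by
      simp only [hy₁, map_add, map_smul, s1, hv, star_zero, smul_zero, add_zero]
    have a2 : fderiv ℂ P z₀ (y₂ ζ) = ζ ^ 2 * fderiv ℂ P z₀ (b, 0) +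
        star ζ ^ 2 * star (fderiv ℂ P z₀ (b, 0)) := by
      simp only [hy₂, map_add, map_smul, s1, smul_eq_mul]
    have a3 : d2 P z₀ (y₁ ζ) (y₁ ζ) = ζ ^ 2 * d2 P z₀ (v, 0) (v, 0) +
        2 * (ζ * star ζ) * d2 P z₀ (v, 0) (0, star v) +
        star ζ ^ 2 * star (d2 P z₀ (v, 0) (v, 0)) := by
      simp only [hy₁, d2_add_left, d2_add_right, d2_smul_left, d2_smul_right, s2, s3, smul_eq_mul]
      ring
    have hb' : 2 * star (fderiv ℂ P z₀ (b, 0)) + star (d2 P z₀ (v, 0) (v, 0)) = 0 := by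
      have := congrArg star hb
      simpa using this
    rw [map_add, d2_add_left, d2_add_right P z₀ (y₁ ζ) (y₁ ζ) (y₂ ζ),
      d2_add_right P z₀ (y₂ ζ) (y₁ ζ) (y₂ ζ), h0, a1, a2, a3]
    linear_combination (ζ ^ 2 / 2) * hb + (star ζ ^ 2 / 2) * hb'
  have ht : Tendsto (fun ζ => y₁ ζ + y₂ ζ) (𝓝 0) (𝓝 0) := by
    have : Continuous fun ζ => y₁ ζ + y₂ ζ := by
      simp only [hy₁, hy₂]
      fun_prop
    have h := this.tendsto 0
    have e : y₁ 0 + y₂ 0 = 0 := by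
      simp only [hy₁, hy₂, star_zero, zero_smul, ne_eq, OfNat.ofNat_ne_zero, not_false_eq_true,
        zero_pow, add_zero]
    rwa [e] at h
  set M : ℝ := C * (C₁ + C₂) ^ 3 + ‖B‖ * (2 * C₁ * C₂ + C₂ ^ 2) / 2 with hM
  have hM0 : 0 ≤ M := by positivity
  have hsm : ∀ᶠ ζ in 𝓝 (0 : ℂ), ‖ζ‖ < min 1 (L / (M + 1)) := by
    have : (0 : ℝ) < min 1 (L / (M + 1)) := lt_min one_pos (by positivity)
    filter_upwards [ball_mem_nhds (0 : ℂ) this] with ζ hζ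
    simpa using hζ
  filter_upwards [nhdsWithin_le_nhds (ht.eventually hC), nhdsWithin_le_nhds hsm,
    self_mem_nhdsWithin] with ζ h1 h2 h3
  have hz : 0 < ‖ζ‖ := norm_pos_iff.2 h3
  have z1 : ‖ζ‖ ≤ 1 := (h2.trans_le (min_le_left _ _)).le
  have z2 : ‖ζ‖ * (M + 1) < L := (lt_div_iff₀ (by positivity)).1 (h2.trans_le (min_le_right _ _))
  rw [ept]
  rw [main] at h1
  have n2' : ‖y₂ ζ‖ ≤ ‖ζ‖ * C₂ := (n2 ζ).trans
    (mul_le_mul_of_nonneg_right (by nlinarith only [hz, z1]) c2)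
  have ny : ‖y₁ ζ + y₂ ζ‖ ≤ ‖ζ‖ * (C₁ + C₂) := (norm_add_le _ _).trans (by
    linarith only [n1 ζ, n2'])
  have r1 : C * ‖y₁ ζ + y₂ ζ‖ ^ 3 ≤ C * (‖ζ‖ * (C₁ + C₂)) ^ 3 := by gcongr
  have r2 : ‖d2 P z₀ (y₁ ζ) (y₂ ζ)‖ ≤ ‖B‖ * (‖ζ‖ * C₁) * (‖ζ‖ ^ 2 * C₂) :=
    (hd _ _).trans (by gcongr; exacts [n1 ζ, n2 ζ])
  have r3 : ‖d2 P z₀ (y₂ ζ) (y₁ ζ)‖ ≤ ‖B‖ * (‖ζ‖ ^ 2 * C₂) * (‖ζ‖ * C₁) :=
    (hd _ _).trans (by gcongr; exacts [n2 ζ, n1 ζ])
  have r4 : ‖d2 P z₀ (y₂ ζ) (y₂ ζ)‖ ≤ ‖B‖ * (‖ζ‖ ^ 2 * C₂) * (‖ζ‖ * C₂) :=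
    (hd _ _).trans (by gcongr; exacts [n2 ζ])
  set R := (d2 P z₀ (y₁ ζ) (y₂ ζ) + d2 P z₀ (y₂ ζ) (y₁ ζ) + d2 P z₀ (y₂ ζ) (y₂ ζ)) / 2 with hR
  have r5 : ‖R‖ ≤ ‖ζ‖ ^ 3 * (‖B‖ * (2 * C₁ * C₂ + C₂ ^ 2) / 2) := by
    rw [hR, norm_div, Complex.norm_ofNat]
    have := norm_add₃_le (a := d2 P z₀ (y₁ ζ) (y₂ ζ)) (b := d2 P z₀ (y₂ ζ) (y₁ ζ))
      (c := d2 P z₀ (y₂ ζ) (y₂ ζ))
    linarith only [this, r2, r3, r4]
  have r6 : ((ζ * star ζ) * d2 P z₀ (v, 0) (0, star v)).re = ‖ζ‖ ^ 2 * L := by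
    have : ζ * star ζ = ((‖ζ‖ ^ 2 : ℝ) : ℂ) := by
      rw [Complex.star_def, Complex.mul_conj, Complex.normSq_eq_norm_sq]
    rw [this, Complex.re_ofReal_mul]
  have r7 := (abs_le.1 ((Complex.abs_re_le_norm _).trans (h1.trans r1))).1
  have r8 := (abs_le.1 ((Complex.abs_re_le_norm _).trans r5)).1
  rw [Complex.sub_re, Complex.add_re, r6] at r7
  have r9 : ‖ζ‖ ^ 2 * (‖ζ‖ * (M + 1)) < ‖ζ‖ ^ 2 * L := by gcongr
  have r10 : 0 < ‖ζ‖ ^ 3 := by positivity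
  rw [hM] at r9
  linarith only [r7, r8, r9, r10]

/-- Pushing in the direction `ν` increases `Re P`.  Hint: the derivative of
`ε ↦ Re P (x + ε ν, star (x + ε ν))` is `Re DP (..) (ν, ν̄)`, equal to `2` at `(p, 0)`. -/
theorem levi_push {P : E × E → ℂ} {p ν : E} (hP : AnalyticAt ℂ P (p, star p))
    (herm : ∀ᶠ z in 𝓝 (p, star p), P (sw z) = star (P z))
    (hν : fderiv ℂ P (p, star p) (ν, 0) = 1) :
    ∃ δ > 0, ∀ x ∈ ball p δ, ∀ ε : ℝ, 0 < ε → ε < δ →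
      (P (x, star x)).re < (P (x + (ε : ℂ) • ν, star (x + (ε : ℂ) • ν))).re := by
  set w : E × E := (ν, star ν) with hw
  have s1 : fderiv ℂ P (p, star p) (0, star ν) = 1 := by
    have := fderiv_sw hP herm (ν, 0)
    rw [sw_real, hν] at this
    simpa [sw] using this
  have s2 : fderiv ℂ P (p, star p) w = 2 := by
    have : w = (ν, 0) + (0, star ν) := by simp [hw]
    rw [this, map_add, hν, s1]
    norm_num
  have hc : ContinuousAt (fun x : E => ((x, star x) : E × E)) p := by fun_prop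
  have h1 : ∀ᶠ x in 𝓝 p, AnalyticAt ℂ P (x, star x) := hc.eventually hP.eventually_analyticAt
  have h2 : ∀ᶠ x in 𝓝 p, 0 < (fderiv ℂ P (x, star x) w).re := by
    have : ContinuousAt (fun x : E => (fderiv ℂ P (x, star x) w).re) p :=
      Complex.continuous_re.continuousAt.comp
        (continuousAt_fderiv_apply (z := fun x : E => ((x, star x) : E × E)) (α := fun _ => w) hP hc
          continuousAt_const)
    refine this.eventually (lt_mem_nhds ?_)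
    simp only [s2]
    norm_num
  obtain ⟨r, hr, hball⟩ := Metric.eventually_nhds_iff_ball.1 (h1.and h2)
  have hn : 0 < 1 + ‖ν‖ := by positivity
  refine ⟨r / (1 + ‖ν‖), by positivity, fun x hx ε hε hεδ => ?_⟩
  have ept : ∀ t : ℝ, ((x + (t : ℂ) • ν, star (x + (t : ℂ) • ν)) : E × E) =
      (x, star x) + (t : ℂ) • w := fun t => by
    simp [hw, star_add, star_smul]
  have hin : ∀ t ∈ Icc (0 : ℝ) ε, x + (t : ℂ) • ν ∈ ball p r := fun t ht => by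
    rw [mem_ball, dist_eq_norm] at hx ⊢
    have a1 : ‖x + (t : ℂ) • ν - p‖ ≤ ‖x - p‖ + t * ‖ν‖ := by
      have : x + (t : ℂ) • ν - p = (x - p) + (t : ℂ) • ν := by abel
      rw [this]
      refine (norm_add_le _ _).trans (le_of_eq ?_)
      rw [norm_smul, Complex.norm_real, Real.norm_of_nonneg ht.1]
    have a2 : t * ‖ν‖ ≤ r / (1 + ‖ν‖) * ‖ν‖ :=
      mul_le_mul_of_nonneg_right (ht.2.trans hεδ.le) (norm_nonneg _)
    have a3 : r / (1 + ‖ν‖) + r / (1 + ‖ν‖) * ‖ν‖ = r := by field_simp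
    linarith only [a1, a2, a3, hx]
  have hder : ∀ t ∈ Icc (0 : ℝ) ε, HasDerivAt (fun s : ℝ => (P ((x, star x) + (s : ℂ) • w)).re)
      (fderiv ℂ P ((x, star x) + (t : ℂ) • w) w).re t := fun t ht => by
    have a1 := (hball _ (hin t ht)).1
    rw [ept] at a1
    have a2 : HasDerivAt (fun s : ℂ => ((x, star x) : E × E) + s • w) w (t : ℂ) := by
      simpa using ((hasDerivAt_id (t : ℂ)).smul_const w).const_add ((x, star x) : E × E)
    exact (a1.differentiableAt.hasFDerivAt.comp_hasDerivAt (t : ℂ) a2).real_of_complex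
  obtain ⟨t, ht, e⟩ := exists_hasDerivAt_eq_slope _ _ hε
    (fun t ht => (hder t ht).continuousAt.continuousWithinAt)
    (fun t ht => hder t (Ioo_subset_Icc_self ht))
  have a1 := (hball _ (hin t (Ioo_subset_Icc_self ht))).2
  rw [ept, e, sub_zero] at a1
  have a2 := (div_pos_iff_of_pos_right hε).1 a1
  rw [ept]
  simpa using a2

/-- The Levi form of a good side is negative semidefinite.  Hint: otherwise take `ν`, `b` as above,
`f ε ζ = c (p + ζ • v + ζ ^ 2 • b + ε • ν)`; for small `δ'`, `ε₀`: `f ε ζ ∈ U` if `‖ζ‖ ≤ 3δ'`,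
`0 ≤ ε ≤ ε₀`, `(ε, ζ) ≠ 0`.  Apply `TautSet` to `K = (fun ε => f ε δ') '' Icc 0 ε₀`, `ρ = 1/2` and
the discs `ζ ↦ f ε (δ' + 2 δ' ζ)`; at `ζ = -1/2` the values `f ε 0` stay in the compact set `K' ⊆ U`
and tend to `c p ∉ U`. -/
theorem levi_nonpos {N : ℕ} {U : Set (CN N)} (hU : TautSet U) {c : E → CN N} {p : E}
    (hc : AnalyticAt ℂ c p) (hp : c p ∉ U) {P : E × E → ℂ} (hP : AnalyticAt ℂ P (p, star p))
    (herm : ∀ᶠ z in 𝓝 (p, star p), P (sw z) = star (P z)) (h0 : P (p, star p) = 0)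
    (h1 : ∃ ν, fderiv ℂ P (p, star p) (ν, 0) ≠ 0)
    (hside : ∀ᶠ x in 𝓝 p, 0 < (P (x, star x)).re → c x ∈ U) {v : E}
    (hv : fderiv ℂ P (p, star p) (v, 0) = 0) : (d2 P (p, star p) (v, 0) (0, star v)).re ≤ 0 := by
  by_contra hpos
  rw [not_le] at hpos
  obtain ⟨ν₀, hν₀⟩ := h1
  set ν : E := (fderiv ℂ P (p, star p) (ν₀, 0))⁻¹ • ν₀ with hνd
  have hsm : ∀ (a : ℂ) (u : E), fderiv ℂ P (p, star p) (a • u, 0) =
      a * fderiv ℂ P (p, star p) (u, 0) := fun a u => by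
    have : ((a • u, 0) : E × E) = a • (u, 0) := by simp
    rw [this, map_smul, smul_eq_mul]
  have hν : fderiv ℂ P (p, star p) (ν, 0) = 1 := by
    rw [hνd, hsm, inv_mul_cancel₀ hν₀]
  set b : E := (-(d2 P (p, star p) (v, 0) (v, 0) / 2)) • ν with hbd
  have hb : 2 * fderiv ℂ P (p, star p) (b, 0) + d2 P (p, star p) (v, 0) (v, 0) = 0 := by
    rw [hbd, hsm, hν]
    ring
  have hdisc := levi_disc_pos hP herm h0 hv hb hpos
  obtain ⟨δ, hδ, hpush⟩ := levi_push hP herm hν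
  set x : ℂ → E := fun ζ => p + ζ • v + ζ ^ 2 • b with hx
  set g : ℂ × ℝ → E := fun q => x q.1 + (q.2 : ℂ) • ν with hg
  have xc : Continuous x := by
    simp only [hx]
    fun_prop
  have gc : Continuous g := by
    simp only [hg]
    fun_prop
  have x0 : x 0 = p := by simp [hx]
  have g0 : g 0 = p := by simp [hg, x0]
  have tg : Tendsto g (𝓝 0) (𝓝 p) := by
    have := gc.tendsto 0
    rwa [g0] at this
  have t1 : Tendsto (fun q : ℂ × ℝ => q.1) (𝓝 0) (𝓝 0) := continuous_fst.tendsto 0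
  have t2 : Tendsto (fun q : ℂ × ℝ => q.2) (𝓝 0) (𝓝 0) := continuous_snd.tendsto 0
  have tx : Tendsto x (𝓝 0) (𝓝 p) := by
    have := xc.tendsto 0
    rwa [x0] at this
  have key : ∀ᶠ q : ℂ × ℝ in 𝓝 0, AnalyticAt ℂ c (g q) ∧ (0 ≤ q.2 → q ≠ 0 → c (g q) ∈ U) := by
    filter_upwards [tg.eventually hc.eventually_analyticAt, tg.eventually hside,
      t1.eventually (eventually_nhdsWithin_iff.1 hdisc),
      t1.eventually (tx.eventually (ball_mem_nhds p hδ)), t2.eventually (gt_mem_nhds hδ)]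
      with q a1 a2 a3 a4 a5
    refine ⟨a1, fun b1 b2 => a2 ?_⟩
    rcases b1.eq_or_lt with b1 | b1
    · have b3 : q.1 ≠ 0 := fun h => b2 (Prod.ext h b1.symm)
      have : g q = x q.1 := by simp [hg, ← b1]
      rw [this]
      exact a3 b3
    · refine lt_of_le_of_lt ?_ (hpush _ a4 q.2 b1 a5)
      by_cases b3 : q.1 = 0
      · rw [b3, x0, h0]
        simp
      · exact (a3 b3).le
  obtain ⟨η, hη, hball⟩ := Metric.eventually_nhds_iff_ball.1 key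
  have hin : ∀ (ζ : ℂ) (ε : ℝ), ‖ζ‖ < η → ε ∈ Icc 0 (η / 2) → ((ζ, ε) : ℂ × ℝ) ∈ ball 0 η := by
    intro ζ ε a1 a2
    rw [mem_ball_zero_iff, Prod.norm_def, max_lt_iff]
    refine ⟨a1, ?_⟩
    rw [Real.norm_of_nonneg a2.1]
    linarith only [a2.2, hη]
  set d : ℂ := ((η / 4 : ℝ) : ℂ) with hd
  have nd : ‖d‖ = η / 4 := by
    rw [hd, Complex.norm_real, Real.norm_of_nonneg (by positivity)]
  have d0 : d ≠ 0 := norm_pos_iff.1 (by rw [nd]; positivity)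
  have dη : ‖d‖ < η := by rw [nd]; linarith only [hη]
  have hK : IsCompact ((fun ε : ℝ => c (g (d, ε))) '' Icc 0 (η / 2)) := by
    refine isCompact_Icc.image_of_continuousOn fun ε hε => ?_
    refine ContinuousAt.continuousWithinAt ?_
    exact ContinuousAt.comp (f := fun ε : ℝ => g (d, ε)) (hball _ (hin d ε dη hε)).1.continuousAt
      (by fun_prop)
  have hKU : (fun ε : ℝ => c (g (d, ε))) '' Icc 0 (η / 2) ⊆ U := by
    rintro _ ⟨ε, hε, rfl⟩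
    exact (hball _ (hin d ε dη hε)).2 hε.1 fun h => d0 (congrArg Prod.fst h)
  obtain ⟨K', hK', hK'U, hT⟩ := hU _ hK hKU (1 / 2) (by norm_num)
  have hmem : ∀ ε ∈ Ioc (0 : ℝ) (η / 2), c (g (0, ε)) ∈ K' := fun ε hε => by
    have hε' : ε ∈ Icc (0 : ℝ) (η / 2) := Ioc_subset_Icc_self hε
    have a1 : ∀ ζ ∈ ball (0 : ℂ) 1, ‖d + 2 * d * ζ‖ < η := fun ζ hζ => by
      rw [mem_ball_zero_iff] at hζ
      have b1 := norm_add_le d (2 * d * ζ)
      rw [norm_mul, norm_mul, Complex.norm_ofNat, nd] at b1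
      nlinarith only [b1, hζ, hη]
    have a2 := hT (fun ζ => c (g (d + 2 * d * ζ, ε)))
      (fun ζ hζ => by
        refine DifferentiableAt.differentiableWithinAt ?_
        refine DifferentiableAt.comp (f := fun ζ : ℂ => g (d + 2 * d * ζ, ε)) ζ
          (hball _ (hin _ ε (a1 ζ hζ) hε')).1.differentiableAt ?_
        simp only [hg, hx]
        fun_prop)
      (fun ζ hζ => (hball _ (hin _ ε (a1 ζ hζ) hε')).2 hε.1.le
        fun h => hε.1.ne' (congrArg Prod.snd h))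
      ⟨ε, hε', by simp⟩ (x := -(1 / 2)) (by simp)
    have a3 : d + 2 * d * (-(1 / 2)) = 0 := by ring
    simpa only [a3] using a2
  have hlim : Tendsto (fun ε : ℝ => c (g (0, ε))) (𝓝[>] 0) (𝓝 (c p)) := by
    refine Tendsto.mono_left ?_ nhdsWithin_le_nhds
    refine hc.continuousAt.tendsto.comp (tg.comp ?_)
    exact (Continuous.prodMk_right (0 : ℂ)).tendsto (0 : ℝ)
  exact hp (hK'U (hK'.isClosed.mem_of_tendsto hlim
    (mem_of_superset (Ioc_mem_nhdsGT (by positivity)) hmem)))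

end Crest.Agent.R264
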