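import Crest.Agent.R264.Defs
import Crest.Agent.R264.P3.Inv

/-!
# Row 264, P3: sets covered by countably many Lipschitz images of subsets of `ℝ^k`
-/

set_option autoImplicit false
open Set Filter Topology Metric

noncomputable section
namespace Crest.Agent.R264

/-- `A` is covered by countably many Lipschitz images of subsets of `ℝ^k`. -/
def LipCov {X : Type*} [PseudoEMetricSpace X] (k : ℕ) (A : Set X) : Prop :=
  ∃ (f : ℕ → (Fin k → ℝ) → X) (S : ℕ → Set (Fin k → ℝ)),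
    (∀ i, ∃ C : NNReal, LipschitzOnWith C (f i) (S i)) ∧ A ⊆ ⋃ i, f i '' S i

theorem thin2_iff {n : ℕ} (A : Set (CN n)) : Thin2 A ↔ LipCov (2 * n - 2) A := Iff.rfl

section Basic
variable {X Y : Type*} [PseudoEMetricSpace X] [PseudoEMetricSpace Y] {k : ℕ}

theorem LipCov.mono {A B : Set X} (h : LipCov k B) (hAB : A ⊆ B) : LipCov k A := by
  obtain ⟨f, S, h1, h2⟩ := h
  exact ⟨f, S, h1, hAB.trans h2⟩

theorem LipCov.empty [Nonempty X] : LipCov k (∅ : Set X) := by
  exact ⟨fun _ _ => Classical.arbitrary X, fun _ => ∅,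
    fun _ => ⟨0, lipschitzOnWith_empty _ _⟩, empty_subset _⟩

/-- Hint: reindex with `Nat.unpair` / an enumeration of `ι × ℕ` (`Encodable.decode`). -/
theorem LipCov.iUnion [Nonempty X] {ι : Sort*} [Countable ι] {A : ι → Set X}
    (h : ∀ i, LipCov k (A i)) : LipCov k (⋃ i, A i) := by
  rcases isEmpty_or_nonempty ι with hι | hι
  · rw [iUnion_of_empty]
    exact LipCov.empty
  · choose f S h1 h2 using h
    obtain ⟨e, he⟩ := exists_surjective_nat (PLift ι × ℕ)
    refine ⟨fun n => f (e n).1.down (e n).2, fun n => S (e n).1.down (e n).2,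
      fun n => h1 _ _, ?_⟩
    intro x hx
    obtain ⟨i, hi⟩ := mem_iUnion.1 hx
    obtain ⟨j, hj⟩ := mem_iUnion.1 (h2 i hi)
    obtain ⟨n, hn⟩ := he (⟨i⟩, j)
    refine mem_iUnion.2 ⟨n, ?_⟩
    simp only [hn]
    exact hj

theorem LipCov.biUnion [Nonempty X] {ι : Type*} {s : Set ι} (hs : s.Countable) {A : ι → Set X}
    (h : ∀ i ∈ s, LipCov k (A i)) : LipCov k (⋃ i ∈ s, A i) := by
  have := hs.to_subtype
  rw [biUnion_eq_iUnion]
  exact LipCov.iUnion fun i => h i.1 i.2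

theorem LipCov.union [Nonempty X] {A B : Set X} (hA : LipCov k A) (hB : LipCov k B) :
    LipCov k (A ∪ B) := by
  rw [union_eq_iUnion]
  refine LipCov.iUnion fun b => ?_
  cases b
  · exact hB
  · exact hA

/-- Hint: replace `S i` by `S i ∩ f i ⁻¹' T`. -/
theorem LipCov.image {A T : Set X} (h : LipCov k A) (hAT : A ⊆ T) {g : X → Y} {C : NNReal}
    (hg : LipschitzOnWith C g T) : LipCov k (g '' A) := by
  obtain ⟨f, S, h1, h2⟩ := h
  refine ⟨fun i => g ∘ f i, fun i => S i ∩ f i ⁻¹' T, fun i => ?_, ?_⟩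
  · obtain ⟨C', hC'⟩ := h1 i
    exact ⟨C * C', hg.comp (hC'.mono inter_subset_left) fun x hx => hx.2⟩
  · rintro _ ⟨x, hx, rfl⟩
    obtain ⟨i, y, hy, rfl⟩ := mem_iUnion.1 (h2 hx)
    exact mem_iUnion.2 ⟨i, y, ⟨hy, hAT hx⟩, rfl⟩

/-- Local to global (Lindelöf: `TopologicalSpace.countable_cover_nhdsWithin`). -/
theorem LipCov.of_locally [Nonempty X] [SecondCountableTopology X] {A : Set X}
    (h : ∀ x ∈ A, ∃ t ∈ 𝓝[A] x, LipCov k (A ∩ t)) : LipCov k A := by
  choose! t ht1 ht2 using h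
  obtain ⟨s, hsA, hsc, hcov⟩ := TopologicalSpace.countable_cover_nhdsWithin ht1
  refine (LipCov.biUnion hsc (A := fun x => A ∩ t x) fun x hx => ht2 x (hsA hx)).mono ?_
  intro x hx
  obtain ⟨y, hy, hxy⟩ := mem_iUnion₂.1 (hcov hx)
  exact mem_iUnion₂.2 ⟨y, hy, hx, hxy⟩

/-- Images under locally Lipschitz maps. -/
theorem LipCov.image_of_locally [Nonempty Y] [SecondCountableTopology X] {A : Set X}
    (h : LipCov k A) {g : X → Y}
    (hg : ∀ x ∈ A, ∃ C : NNReal, ∃ t ∈ 𝓝[A] x, LipschitzOnWith C g t) : LipCov k (g '' A) := by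
  choose! C t ht1 ht2 using hg
  obtain ⟨s, hsA, hsc, hcov⟩ := TopologicalSpace.countable_cover_nhdsWithin ht1
  refine (LipCov.biUnion hsc (A := fun x => g '' (A ∩ t x)) fun x hx =>
    (h.mono inter_subset_left).image inter_subset_right (ht2 x (hsA hx))).mono ?_
  rintro _ ⟨x, hx, rfl⟩
  obtain ⟨y, hy, hxy⟩ := mem_iUnion₂.1 (hcov hx)
  exact mem_iUnion₂.2 ⟨y, hy, x, ⟨hx, hxy⟩, rfl⟩

end Basic

section Normed
variable {E F : Type*} [NormedAddCommGroup E] [NormedSpace ℝ E] [FiniteDimensional ℝ E]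
  [NormedAddCommGroup F] [NormedSpace ℝ F] {k : ℕ}

/-- Images under `C¹` maps (`ContDiffAt.exists_lipschitzOnWith`). -/
theorem LipCov.image_of_contDiffAt {A : Set E} (h : LipCov k A) {g : E → F}
    (hg : ∀ x ∈ A, ContDiffAt ℝ 1 g x) : LipCov k (g '' A) := by
  refine h.image_of_locally fun x hx => ?_
  obtain ⟨C, t, ht, hC⟩ := (hg x hx).exists_lipschitzOnWith
  exact ⟨C, t, mem_nhdsWithin_of_mem_nhds ht, hC⟩

/-- Hint: a surjective linear map `(Fin k → ℝ) → E` is Lipschitz. -/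
theorem lipCov_univ (hk : Module.finrank ℝ E ≤ k) : LipCov k (univ : Set E) := by
  obtain ⟨L, hL⟩ : ∃ L : (Fin k → ℝ) →ₗ[ℝ] E, Function.Surjective L := by
    let b := Module.finBasis ℝ E
    refine ⟨b.equivFun.symm.toLinearMap ∘ₗ LinearMap.funLeft ℝ ℝ (Fin.castLE hk), ?_⟩
    exact b.equivFun.symm.surjective.comp
      (LinearMap.funLeft_surjective_of_injective ℝ ℝ _ (Fin.castLE_injective hk))
  let L' : (Fin k → ℝ) →L[ℝ] E := LinearMap.toContinuousLinearMap L
  refine ⟨fun _ => L', fun _ => univ, fun _ => ⟨‖L'‖₊, L'.lipschitz.lipschitzOnWith⟩, ?_⟩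
  intro x _
  obtain ⟨y, rfl⟩ := hL x
  exact mem_iUnion.2 ⟨0, y, mem_univ _, rfl⟩

/-- The regular part of a zero set has codimension one.  Hint: at a point `p` of the set let
`K = ker (fderiv g p)` (dimension `finrank E - 1`), `ℓ : E →L[ℝ] K` a projection
(`Submodule.ClosedComplemented.of_finiteDimensional` or `LinearMap.exists_leftInverse_of_injective`),
apply `exists_locInv_of_inj` to `x ↦ (g x, ℓ x)`; near `p` the set lies in the image of
`{y | (0, y) ∈ ball}` under `y ↦ χ (0, y)`. -/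
theorem lipCov_regular_zero {g : E → ℝ} {s : Set E} (hg : AnalyticOnNhd ℝ g s) :
    LipCov (Module.finrank ℝ E - 1) {x | x ∈ s ∧ g x = 0 ∧ fderiv ℝ g x ≠ 0} := by
  refine LipCov.of_locally fun p hp => ?_
  obtain ⟨hps, hp0, hpd⟩ := hp
  set K : Submodule ℝ E := LinearMap.ker (fderiv ℝ g p : E →ₗ[ℝ] ℝ) with hK
  have hrange : LinearMap.range (fderiv ℝ g p : E →ₗ[ℝ] ℝ) = ⊤ := by
    obtain ⟨v, hv⟩ : ∃ v, fderiv ℝ g p v ≠ 0 := by
      by_contra hcon
      push Not at hcon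
      exact hpd (ContinuousLinearMap.ext hcon)
    rw [LinearMap.range_eq_top]
    intro c
    refine ⟨(c / fderiv ℝ g p v) • v, ?_⟩
    simp only [ContinuousLinearMap.coe_coe, map_smul, smul_eq_mul]
    field_simp
  have hdim : 1 + Module.finrank ℝ K = Module.finrank ℝ E := by
    have := LinearMap.finrank_range_add_finrank_ker (fderiv ℝ g p : E →ₗ[ℝ] ℝ)
    rw [hrange, finrank_top, Module.finrank_self] at this
    exact this
  obtain ⟨l0, hl0⟩ := LinearMap.exists_leftInverse_of_injective K.subtype K.ker_subtype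
  let l : E →L[ℝ] K := LinearMap.toContinuousLinearMap l0
  have hl : ∀ v : K, l v = v := fun v => congrArg (fun L : K →ₗ[ℝ] K => L v) hl0
  have hgp : AnalyticAt ℝ g p := hg p hps
  have hΦ : AnalyticAt ℝ (fun x => (g x, l x)) p := hgp.prod (l.analyticAt p)
  have hd : Module.finrank ℝ E = Module.finrank ℝ (ℝ × K) := by
    rw [Module.finrank_prod, Module.finrank_self, hdim]
  have hfd : fderiv ℝ (fun x => (g x, l x)) p = (fderiv ℝ g p).prod l :=
    (hgp.differentiableAt.hasFDerivAt.prodMk l.hasFDerivAt).fderiv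
  have hb : ∀ v, fderiv ℝ (fun x => (g x, l x)) p v = 0 → v = 0 := by
    intro v hv
    rw [hfd, ContinuousLinearMap.prod_apply, Prod.mk_eq_zero] at hv
    have h1 : v ∈ K := hv.1
    have h2 := hl ⟨v, h1⟩
    rw [hv.2] at h2
    exact (congrArg Subtype.val h2).symm
  have : CompleteSpace E := FiniteDimensional.complete ℝ E
  have : CompleteSpace (ℝ × K) := FiniteDimensional.complete ℝ (ℝ × K)
  obtain ⟨χ, O, R, -, hpO, -, hinv⟩ := exists_locInv_of_inj hd hΦ hb univ_mem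
  refine ⟨O, mem_nhdsWithin_of_mem_nhds (hinv.o1.mem_nhds hpO), ?_⟩
  have hcov : LipCov (Module.finrank ℝ E - 1)
      {y : K | ((0 : ℝ), y) ∈ ball (g p, l p) R} :=
    (lipCov_univ (by omega)).mono (subset_univ _)
  have himg := hcov.image_of_contDiffAt (g := fun y : K => χ ((0 : ℝ), y)) fun y hy =>
    ((hinv.a2 _ hy).contDiffAt (n := 1)).comp y (contDiffAt_const.prodMk contDiffAt_id)
  refine himg.mono ?_
  rintro x ⟨⟨-, hx0, -⟩, hxO⟩
  refine ⟨l x, ?_, ?_⟩
  · have := hinv.m1 hxO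
    rw [hx0] at this
    exact this
  · have := hinv.li x hxO
    rw [hx0] at this
    exact this

end Normed

end Crest.Agent.R264
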