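import Crest.Agent.R264.P3.Cx
import Crest.Agent.R264.Osgood
import Crest.Agent.R264.A2
import Crest.Agent.R264.Frame

/-!
# Row 264, P3: polarised polynomials, charts, sections, good sides
-/

set_option autoImplicit false
open Set Filter Topology Metric

noncomputable section
namespace Crest.Agent.R264

theorem pe_fderiv_fst {W W' : Type*} [NormedAddCommGroup W] [NormedSpace ℂ W]
    [NormedAddCommGroup W'] [NormedSpace ℂ W'] {F : W × W' → ℂ} {x : W} {y : W'}
    (hF : DifferentiableAt ℂ F (x, y)) (v : W) :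
    fderiv ℂ (fun x' => F (x', y)) x v = fderiv ℂ F (x, y) (v, 0) := by
  have := (hF.hasFDerivAt.comp x (hasFDerivAt_prodMk_left (𝕜 := ℂ) x y)).fderiv
  exact congrArg (fun L : W →L[ℂ] ℂ => L v) this

section Poly
variable {N : ℕ}

theorem pe_analyticAt (P : P2 N) (z : CN N × CN N) :
    AnalyticAt ℂ (fun z : CN N × CN N => pe P z.1 z.2) z := analyticAt_pe P z

/-- derivative of the polarised polynomial (`A.fderiv_eval`, `Fintype.sum_sum_type`) -/
theorem fderiv_pe (P : P2 N) (z α : CN N × CN N) :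
    fderiv ℂ (fun z : CN N × CN N => pe P z.1 z.2) z α =
      ∑ a, pe (MvPolynomial.pderiv (Sum.inl a) P) z.1 z.2 * α.1 a +
        ∑ a, pe (MvPolynomial.pderiv (Sum.inr a) P) z.1 z.2 * α.2 a := by
  let L : CN N × CN N →L[ℂ] (Fin N ⊕ Fin N → ℂ) := ContinuousLinearMap.pi fun i =>
    Sum.elim (fun a => (ContinuousLinearMap.proj a : CN N →L[ℂ] ℂ).comp (.fst ℂ _ _))
      (fun a => (ContinuousLinearMap.proj a : CN N →L[ℂ] ℂ).comp (.snd ℂ _ _)) i
  have hL : ∀ w, L w = Sum.elim w.1 w.2 := fun w => by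
    funext i
    cases i <;> rfl
  have e : (fun z : CN N × CN N => pe P z.1 z.2) = (fun y => MvPolynomial.eval y P) ∘ L := by
    funext w
    simp only [Function.comp, hL, pe]
  rw [e, fderiv_comp z (A.hasFDerivAt_eval P (L z)).differentiableAt L.differentiableAt, L.fderiv,
    ContinuousLinearMap.comp_apply, A.fderiv_eval, Fintype.sum_sum_type, hL, hL]
  rfl

theorem dx_eq_fderiv (P : P2 N) (x y v : CN N) :
    dx P x y v = fderiv ℂ (fun z : CN N × CN N => pe P z.1 z.2) (x, y) (v, 0) :=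
  pe_fderiv_fst (F := fun z : CN N × CN N => pe P z.1 z.2) (pe_analyticAt P _).differentiableAt v

theorem dx_neg (P : P2 N) (x y v : CN N) : dx (-P) x y v = -dx P x y v := by
  have e : (fun x' => pe (-P) x' y) = fun x' => -pe P x' y := by
    funext x'
    simp [pe]
  rw [dx, e, fderiv_fun_neg]
  rfl

theorem continuous_rv (P : P2 N) : Continuous (rv P) := (contDiff_rv P).continuous

theorem IsHerm.pe_real {P : P2 N} (h : IsHerm P) (x : CN N) : pe P x (star x) = (rv P x : ℂ) :=
  h.pe_eq_rv x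

/-- Hermitian part.  Hint: `ρ = C (1/2) * (P + rename Sum.swap (map (starRingEnd ℂ) P))`. -/
theorem exists_herm (P : P2 N) : ∃ ρ : P2 N, IsHerm ρ ∧ ∀ x, rv ρ x = rv P x := by
  have hQ : ∀ x y : CN N, pe (MvPolynomial.rename Sum.swap (MvPolynomial.map (starRingEnd ℂ) P)) x y =
      star (pe P (star y) (star x)) := fun x y => by
    induction P using MvPolynomial.induction_on with
    | C c => simp [pe]
    | add a b ha hb =>
      simp only [pe] at ha hb
      simp only [pe, map_add, star_add, ha, hb]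
    | mul_X a i ha =>
      simp only [pe] at ha
      simp only [pe, map_mul, star_mul', ha, MvPolynomial.map_X, MvPolynomial.rename_X,
        MvPolynomial.eval_X]
      cases i <;> simp
  have hρ : ∀ x y : CN N, pe (MvPolynomial.C (1 / 2) *
      (P + MvPolynomial.rename Sum.swap (MvPolynomial.map (starRingEnd ℂ) P))) x y =
      1 / 2 * (pe P x y + star (pe P (star y) (star x))) := fun x y => by
    rw [← hQ]
    simp only [pe, map_mul, map_add, MvPolynomial.eval_C]
  refine ⟨MvPolynomial.C (1 / 2) *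
      (P + MvPolynomial.rename Sum.swap (MvPolynomial.map (starRingEnd ℂ) P)),
    fun x y => ?_, fun x => ?_⟩
  · rw [hρ, hρ]
    simp [add_comm]
  · rw [rv, hρ, star_star, rv, Complex.star_def, Complex.add_conj]
    simp

end Poly

section Cpol
variable {N : ℕ} {E : Type*} [NormedAddCommGroup E] [NormedSpace ℂ E] [StarAddMonoid E]
  [StarModule ℂ E] [ContinuousStar E]

/-- The polarisation of `rv ρ ∘ c`. -/
def cpol (ρ : P2 N) (c : E → CN N) (z : E × E) : ℂ := pe ρ (c z.1) (star (c (star z.2)))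

theorem cpol_analyticAt [FiniteDimensional ℂ E] (ρ : P2 N) {c : E → CN N} {z : E × E}
    (h1 : AnalyticAt ℂ c z.1) (h2 : AnalyticAt ℂ c (star z.2)) : AnalyticAt ℂ (cpol ρ c) z := by
  have a1 : AnalyticAt ℂ (fun w : E × E => c w.1) z := h1.comp analyticAt_fst
  have a2 : AnalyticAt ℂ (fun w : E × E => star (c (star w.2))) z :=
    (analyticAt_star_star h2).comp analyticAt_snd
  exact AnalyticAt.comp (f := fun w : E × E => (c w.1, star (c (star w.2))))
    (pe_analyticAt ρ _) (a1.prod a2)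

omit [NormedSpace ℂ E] [StarModule ℂ E] [ContinuousStar E] in
theorem cpol_sw {ρ : P2 N} (h : IsHerm ρ) (c : E → CN N) (z : E × E) :
    cpol ρ c (sw z) = star (cpol ρ c z) := by
  rw [cpol, cpol, h]
  simp [sw]

omit [NormedSpace ℂ E] [StarModule ℂ E] [ContinuousStar E] in
theorem cpol_real {ρ : P2 N} (h : IsHerm ρ) (c : E → CN N) (x : E) :
    cpol ρ c (x, star x) = (rv ρ (c x) : ℂ) := by
  rw [cpol, star_star]
  exact h.pe_real _

theorem fderiv_cpol_fst [FiniteDimensional ℂ E] (ρ : P2 N) {c : E → CN N} {z : E × E}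
    (h1 : AnalyticAt ℂ c z.1) (h2 : AnalyticAt ℂ c (star z.2)) (v : E) :
    fderiv ℂ (cpol ρ c) z (v, 0) = dx ρ (c z.1) (star (c (star z.2))) (fderiv ℂ c z.1 v) := by
  rw [← pe_fderiv_fst (F := cpol ρ c) (x := z.1) (y := z.2)
    (cpol_analyticAt ρ h1 h2).differentiableAt v]
  have a : DifferentiableAt ℂ (fun x' => pe ρ x' (star (c (star z.2)))) (c z.1) :=
    DifferentiableAt.comp (f := fun x' : CN N => (x', star (c (star z.2)))) (c z.1)
      (pe_analyticAt ρ _).differentiableAt (by fun_prop)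
  exact congrArg (fun L : E →L[ℂ] ℂ => L v) (fderiv_comp z.1 a h1.differentiableAt)

/-- real derivative of `rv ρ ∘ c` for Hermitian `ρ` (`fderiv_sw`) -/
theorem fderiv_rv_comp [FiniteDimensional ℂ E] {ρ : P2 N} (h : IsHerm ρ) {c : E → CN N} {x : E}
    (hc : AnalyticAt ℂ c x) (v : E) :
    fderiv ℝ (fun u => rv ρ (c u)) x v = 2 * (dx ρ (c x) (star (c x)) (fderiv ℂ c x v)).re := by
  have hc' : AnalyticAt ℂ c (star (star x)) := by rwa [star_star]
  have hP := cpol_analyticAt ρ (z := (x, star x)) hc hc'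
  have e : (fun u => rv ρ (c u)) = fun u => Complex.reCLM (cpol ρ c (u, star u)) := by
    funext u
    simp [rv, cpol]
  have h1 : HasFDerivAt (fun u : E => ((u, star u) : E × E)) _ x :=
    (hasFDerivAt_id (𝕜 := ℝ) x).prodMk (hasFDerivAt_id (𝕜 := ℝ) x).star
  have h2 := (Complex.reCLM.hasFDerivAt.comp x
    ((hP.differentiableAt.hasFDerivAt.restrictScalars ℝ).comp x h1)).fderiv
  have h3 := fderiv_sw hP (.of_forall (cpol_sw h c)) (v, 0)
  have h4 := fderiv_cpol_fst ρ (z := (x, star x)) hc hc' v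
  simp only [star_star] at h4
  rw [sw_real, h4] at h3
  have h5 : fderiv ℂ (cpol ρ c) (x, star x) (v, star v) =
      fderiv ℂ (cpol ρ c) (x, star x) (v, 0) + fderiv ℂ (cpol ρ c) (x, star x) (sw (v, 0)) := by
    rw [← map_add]
    simp [sw]
  rw [h3, h4] at h5
  rw [e]
  refine (congrArg (fun L : E →L[ℝ] ℝ => L v) h2).trans ?_
  change (fderiv ℂ (cpol ρ c) (x, star x) (v, star v)).re = _
  rw [h5]
  simp [two_mul]

theorem analyticAt_rv_comp [FiniteDimensional ℂ E] (ρ : P2 N) {c : E → CN N} {x : E}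
    (hc : AnalyticAt ℂ c x) : AnalyticAt ℝ (fun u => rv ρ (c u)) x := by
  have hc' : AnalyticAt ℂ c (star (star x)) := by rwa [star_star]
  have hP := cpol_analyticAt ρ (z := (x, star x)) hc hc'
  have e : (fun u => rv ρ (c u)) = fun u => Complex.reCLM (cpol ρ c (u, star u)) := by
    funext u
    simp [rv, cpol]
  have h1 : AnalyticAt ℝ (fun u : E => ((u, star u) : E × E)) x :=
    analyticAt_id.prod (((starL' ℝ : E ≃L[ℝ] E) : E →L[ℝ] E).analyticAt x)
  rw [e]
  exact (Complex.reCLM.analyticAt _).comp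
    (AnalyticAt.comp (f := fun u : E => ((u, star u) : E × E)) hP.restrictScalars h1)

end Cpol

end Crest.Agent.R264
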