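import Crest.Agent.R264.P3.Pe
import Crest.Agent.R264.Side

/-!
# Row 264, P3: polarised polynomials, charts, sections, good sides
-/

set_option autoImplicit false
open Set Filter Topology Metric

noncomputable section
namespace Crest.Agent.R264

namespace Chart
variable {n N : ℕ} {U : Set (CN N)} (ch : Chart n U)

theorem an : AnalyticOnNhd ℂ ch.c ch.s := SCV.analyticOnNhd ch.s_open ch.c_diff

theorem eventually_mem {u : CN n} (hu : u ∈ ch.s) :
    ∀ᶠ x in 𝓝 (ch.c u), x ∈ U → ch.l x ∈ ch.s ∧ ch.c (ch.l x) = x := by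
  filter_upwards [eventually_nhdsWithin_iff.1 (ch.nhds u hu)] with x hx hxU
  obtain ⟨v, hv, rfl⟩ := hx hxU
  rw [ch.left v hv]
  exact ⟨hv, rfl⟩

/-- transfer of a local property from the chart to the set -/
theorem eventually_of_chart {u : CN n} (hu : u ∈ ch.s) {Q : CN N → Prop}
    (h : ∀ᶠ u' in 𝓝 u, Q (ch.c u')) : ∀ᶠ x in 𝓝 (ch.c u), x ∈ U → Q x := by
  have ht : Tendsto ch.l (𝓝 (ch.c u)) (𝓝 u) := by
    have := ch.l_diff.continuous.tendsto (ch.c u)
    rwa [ch.left u hu] at this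
  filter_upwards [ch.eventually_mem hu, ht.eventually h] with x h1 h2 hx
  rwa [(h1 hx).2] at h2

end Chart

namespace AlgFrame
variable {N n : ℕ} {U : Set (CN N)} (F : AlgFrame n U)

theorem continuous_dv : Continuous F.dv := F.differentiable_dv.continuous

theorem continuous_xi (i : Fin n) : Continuous (F.xi i) := (F.differentiable_xi i).continuous

theorem U_subset : U ⊆ F.V := F.ropen.1

/-- `U` is open in `V` -/
theorem eventually_mem_U {x : CN N} (hx : x ∈ U) : ∀ᶠ y in 𝓝 x, y ∈ F.V → y ∈ U :=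
  eventually_nhdsWithin_iff.1 (F.ropen.2 x hx)

theorem exists_sect' {x : CN N} (hx : x ∈ F.V) (hD : F.dv x ≠ 0) :
    ∃ ch : Chart n F.V, F.IsSect ch ∧ ∃ u ∈ ch.s, ch.c u = x := by
  obtain ⟨ch, ⟨u, hu, e⟩, h1, h2⟩ := F.sect x hx hD
  exact ⟨ch, ⟨h1, h2⟩, u, hu, e⟩

variable {F}

theorem IsSect.dv_eq {ch : Chart n F.V} (h : F.IsSect ch) {u : CN n} (hu : u ∈ ch.s) :
    F.dv (ch.c u) = MvPolynomial.eval u F.D := by
  rw [dv, (h.pr_c hu).1]

theorem IsSect.sum_xi {ch : Chart n F.V} (h : F.IsSect ch) {u : CN n} (hu : u ∈ ch.s)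
    (c : Fin n → ℂ) :
    ∑ i, c i • F.xi i (ch.c u) = fderiv ℂ ch.c u (MvPolynomial.eval u F.D • c) := by
  rw [← h.fderiv_c hu, h.dv_eq hu, map_smul]

theorem xi_indep {x : CN N} (hx : x ∈ F.V) (hD : F.dv x ≠ 0) {c : Fin n → ℂ}
    (h : ∑ i, c i • F.xi i x = 0) : c = 0 := by
  have := F.fderiv_pr_xi hx hD c
  rw [h, map_zero] at this
  exact (smul_eq_zero.1 this.symm).resolve_left hD

theorem GoodSide.not_mem {p : CN N} {ρ : P2 N} (h : F.GoodSide p ρ) : p ∉ U :=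
  h.mem_frontier.2

/-- nearby points of the hypersurface are good sides for the same polynomial -/
theorem GoodSide.eventually {p : CN N} {ρ : P2 N} (h : F.GoodSide p ρ) :
    ∀ᶠ x in 𝓝 p, x ∈ F.V → rv ρ x = 0 → F.GoodSide x ρ := h.near

theorem GoodSide.eventually_mem {p : CN N} {ρ : P2 N} (h : F.GoodSide p ρ) :
    ∀ᶠ x in 𝓝 p, x ∈ F.V → 0 < rv ρ x → x ∈ U := by
  obtain ⟨O, hO, hp, h1, -⟩ := h.nbhd
  filter_upwards [hO.mem_nhds hp] with x hx hV using h1 x ⟨hx, hV⟩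

/-- in a section the gradient condition says that the polarised function is regular -/
theorem GoodSide.exists_fderiv_ne {ch : Chart n F.V} (hs : F.IsSect ch) {u : CN n}
    (hu : u ∈ ch.s) {ρ : P2 N} (h : F.GoodSide (ch.c u) ρ) :
    ∃ ν, fderiv ℂ (cpol ρ ch.c) (u, star u) (ν, 0) ≠ 0 := by
  obtain ⟨i, hi⟩ := h.grad
  refine ⟨MvPolynomial.eval u F.D • Pi.single i 1, ?_⟩
  rw [fderiv_cpol_fst ρ (z := (u, star u)) (ch.an u hu) (by simpa using ch.an u hu), map_smul,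
    (hs.2 u hu).2 i]
  simpa using hi

/-- a good point is a boundary point (move along a direction in which `rv ρ ∘ c` increases) -/
theorem GoodSide.mem_closure {p : CN N} {ρ : P2 N} (h : F.GoodSide p ρ) : p ∈ closure U :=
  h.mem_frontier.1

/-- a good side from a chart (`fderiv_rv_comp`, `IsSect.sum_xi`, `Chart.eventually_of_chart`) -/
theorem goodSide_of_chart {ch : Chart n F.V} (hs : F.IsSect ch) {u : CN n} (hu : u ∈ ch.s)
    {ρ : P2 N} (hρ : IsHerm ρ) (h0 : rv ρ (ch.c u) = 0)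
    (h1 : fderiv ℝ (fun u' => rv ρ (ch.c u')) u ≠ 0)
    (hp : ∀ᶠ u' in 𝓝 u, 0 < rv ρ (ch.c u') → ch.c u' ∈ U)
    (hz : ∀ᶠ u' in 𝓝 u, rv ρ (ch.c u') = 0 → ch.c u' ∉ U)
    (hn : (∀ᶠ u' in 𝓝 u, rv ρ (ch.c u') < 0 → ch.c u' ∈ U) ∨
      ∀ᶠ u' in 𝓝 u, rv ρ (ch.c u') < 0 → ch.c u' ∉ U) : F.GoodSide (ch.c u) ρ := by
  refine ⟨hρ, ch.maps hu, (hs.pr_c hu).2, h0, ?_, ?_⟩
  · by_contra hc
    push Not at hc
    refine h1 (ContinuousLinearMap.ext fun v => ?_)
    have e : fderiv ℂ ch.c u v =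
        ∑ i, ((MvPolynomial.eval u F.D)⁻¹ • v) i • F.xi i (ch.c u) := by
      rw [hs.sum_xi hu, smul_inv_smul₀ (hs.2 u hu).1]
    simp only [dx] at hc
    rw [fderiv_rv_comp hρ (ch.an u hu), e, dx, map_sum]
    simp [hc]
  · have a1 := ch.eventually_of_chart hu (Q := fun x => 0 < rv ρ x → x ∈ U) hp
    have a2 := ch.eventually_of_chart hu (Q := fun x => rv ρ x = 0 → x ∉ U) hz
    rcases hn with hn | hn
    · have a3 := ch.eventually_of_chart hu (Q := fun x => rv ρ x < 0 → x ∈ U) hn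
      obtain ⟨O, h, hO, hm⟩ := _root_.eventually_nhds_iff.1 (a1.and (a2.and a3))
      exact ⟨O, hO, hm, fun x hx => (h x hx.1).1 hx.2, fun x hx => (h x hx.1).2.1 hx.2,
        Or.inl fun x hx => (h x hx.1).2.2 hx.2⟩
    · have a3 := ch.eventually_of_chart hu (Q := fun x => rv ρ x < 0 → x ∉ U) hn
      obtain ⟨O, h, hO, hm⟩ := _root_.eventually_nhds_iff.1 (a1.and (a2.and a3))
      exact ⟨O, hO, hm, fun x hx => (h x hx.1).1 hx.2, fun x hx => (h x hx.1).2.1 hx.2,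
        Or.inr fun x hx => (h x hx.1).2.2 hx.2⟩

end AlgFrame

end Crest.Agent.R264
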