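import Crest.Agent.R264.G
import Crest.Agent.R264.P3.Sect

/-!
# Row 264, P3: calculus for raw Segre data
-/

set_option autoImplicit false
open Set Filter Topology Metric Complex

noncomputable section
namespace Crest.Agent.R264.P3

variable {N r k : ℕ} (σ : SegRaw N r k)

/-- The polarised defining function of the slice hypersurface. -/
def pol : (ℂ × CN r) × (ℂ × CN r) → ℂ := cpol σ.ρ σ.a

theorem pol_eq (z : (ℂ × CN r) × (ℂ × CN r)) : pol σ z = σ.ϱ (σ.a z.1) z.2 := rfl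

variable {σ}

theorem Pol_fderiv_snd {W W' : Type*} [NormedAddCommGroup W] [NormedSpace ℂ W]
    [NormedAddCommGroup W'] [NormedSpace ℂ W'] {F : W × W' → ℂ} {x : W} {y : W'}
    (hF : DifferentiableAt ℂ F (x, y)) (v : W') :
    fderiv ℂ (fun y' => F (x, y')) y v = fderiv ℂ F (x, y) (0, v) := by
  have := (hF.hasFDerivAt.comp y (hasFDerivAt_prodMk_right (𝕜 := ℂ) x y)).fderiv
  exact congrArg (fun L : W' →L[ℂ] ℂ => L v) this

theorem Pol_ev {η : ℂ × CN r} (ha : AnalyticAt ℂ σ.a (star η)) :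
    ∀ᶠ η' in 𝓝 η, AnalyticAt ℂ σ.a (star η') :=
  (continuous_star.tendsto η).eventually ha.eventually_analyticAt

/-- joint analyticity (`pe_analyticAt`, `analyticAt_star_star`) -/
theorem amb_analyticAt (x : CN N) {η : ℂ × CN r} (ha : AnalyticAt ℂ σ.a (star η)) :
    AnalyticAt ℂ (fun z : CN N × (ℂ × CN r) => σ.ϱ z.1 z.2) (x, η) := by
  have a2 : AnalyticAt ℂ (fun w : CN N × (ℂ × CN r) => star (σ.a (star w.2))) (x, η) :=
    AnalyticAt.comp (f := Prod.snd) (x := (x, η)) (analyticAt_star_star ha) analyticAt_snd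
  exact AnalyticAt.comp (f := fun w : CN N × (ℂ × CN r) => (w.1, star (σ.a (star w.2))))
    (pe_analyticAt σ.ρ _) (analyticAt_fst.prod a2)

theorem rho_analyticAt (x : CN N) {η : ℂ × CN r} (ha : AnalyticAt ℂ σ.a (star η)) :
    AnalyticAt ℂ (σ.ϱ x) η :=
  AnalyticAt.comp (f := fun η' : ℂ × CN r => (x, η')) (amb_analyticAt x ha)
    (analyticAt_const.prod analyticAt_id)

theorem fderiv_rho (x : CN N) {η : ℂ × CN r} (ha : AnalyticAt ℂ σ.a (star η)) (β : ℂ × CN r) :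
    fderiv ℂ (σ.ϱ x) η β =
      fderiv ℂ (fun z : CN N × (ℂ × CN r) => σ.ϱ z.1 z.2) (x, η) (0, β) :=
  Pol_fderiv_snd (F := fun z : CN N × (ℂ × CN r) => σ.ϱ z.1 z.2)
    (amb_analyticAt x ha).differentiableAt β

/-- the partial derivative in `η` is jointly analytic -/
theorem fderiv_rho_analyticAt (x : CN N) {η : ℂ × CN r} (ha : AnalyticAt ℂ σ.a (star η))
    (β : ℂ × CN r) :
    AnalyticAt ℂ (fun z : CN N × (ℂ × CN r) => fderiv ℂ (σ.ϱ z.1) z.2 β) (x, η) := by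
  refine (analyticAt_fderiv_apply (amb_analyticAt x ha) (0, β)).congr ?_
  have h : ∀ᶠ z : CN N × (ℂ × CN r) in 𝓝 (x, η), AnalyticAt ℂ σ.a (star z.2) :=
    (continuous_snd.tendsto (x, η)).eventually (Pol_ev ha)
  filter_upwards [h] with z hz
  exact (fderiv_rho z.1 hz β).symm

theorem pol_analyticAt {ω η : ℂ × CN r} (h1 : AnalyticAt ℂ σ.a ω)
    (h2 : AnalyticAt ℂ σ.a (star η)) : AnalyticAt ℂ (pol σ) (ω, η) :=
  cpol_analyticAt σ.ρ h1 h2

theorem fderiv_rho_pol {ω η : ℂ × CN r} (h1 : AnalyticAt ℂ σ.a ω)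
    (h2 : AnalyticAt ℂ σ.a (star η)) (β : ℂ × CN r) :
    fderiv ℂ (σ.ϱ (σ.a ω)) η β = fderiv ℂ (pol σ) (ω, η) (0, β) :=
  Pol_fderiv_snd (F := pol σ) (pol_analyticAt h1 h2).differentiableAt β

theorem r2_pol {ω η : ℂ × CN r} (h1 : AnalyticAt ℂ σ.a ω) (h2 : AnalyticAt ℂ σ.a (star η))
    (i j : Fin r) :
    σ.r2 (σ.a ω) η i j = d2 (pol σ) (ω, η) (0, (0, Pi.single i 1)) (0, (0, Pi.single j 1)) := by
  have e : (fun η' => σ.r1 (σ.a ω) η' j) =ᶠ[𝓝 η]
      fun η' => fderiv ℂ (pol σ) (ω, η') (0, (0, Pi.single j 1)) := by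
    filter_upwards [Pol_ev h2] with η' h
    exact fderiv_rho_pol h1 h _
  have hP := pol_analyticAt h1 h2
  rw [SegRaw.r2, e.fderiv_eq, ← fderiv_fderiv_apply hP]
  exact Pol_fderiv_snd (F := fun z => fderiv ℂ (pol σ) z (0, (0, Pi.single j 1)))
    (analyticAt_fderiv_apply hP _).differentiableAt _

theorem fderiv_r1_pol {ω η : ℂ × CN r} (h1 : AnalyticAt ℂ σ.a ω)
    (h2 : AnalyticAt ℂ σ.a (star η)) (j : Fin r) (v : ℂ × CN r) :
    fderiv ℂ (fun ω' => σ.r1 (σ.a ω') η j) ω v =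
      d2 (pol σ) (ω, η) (v, 0) (0, (0, Pi.single j 1)) := by
  have e : (fun ω' => σ.r1 (σ.a ω') η j) =ᶠ[𝓝 ω]
      fun ω' => fderiv ℂ (pol σ) (ω', η) (0, (0, Pi.single j 1)) := by
    filter_upwards [h1.eventually_analyticAt] with ω' h
    exact fderiv_rho_pol h h2 _
  have hP := pol_analyticAt h1 h2
  rw [e.fderiv_eq, ← fderiv_fderiv_apply hP]
  exact pe_fderiv_fst (F := fun z => fderiv ℂ (pol σ) z (0, (0, Pi.single j 1)))
    (analyticAt_fderiv_apply hP _).differentiableAt _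

/-- a linear form on `ℂ × CN r` in coordinates -/
theorem fderiv_rho_apply (x : CN N) (η β : ℂ × CN r) :
    fderiv ℂ (σ.ϱ x) η β = β.1 * σ.r0 x η + ∑ i, β.2 i * σ.r1 x η i := by
  have e : β = β.1 • ((1, 0) : ℂ × CN r) + ∑ i, β.2 i • ((0, Pi.single i 1) : ℂ × CN r) := by
    refine Prod.ext ?_ (funext fun j => ?_)
    · simp [Prod.fst_sum]
    · simp [Prod.snd_sum, Finset.sum_apply, Pi.single_apply]
  conv_lhs => rw [e]
  simp only [map_add, map_sum, map_smul, smul_eq_mul]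
  rfl

/-- coordinate-free description of the leaves -/
theorem mem_L_iff (V : Set (CN N)) {η : ℂ × CN r} (h : σ.r0 (σ.a (star η)) η ≠ 0) (x : CN N) :
    x ∈ σ.L V η ↔ x ∈ V ∧ σ.ϱ x η = 0 ∧
      ∃ c : ℂ, ∀ β, fderiv ℂ (σ.ϱ x) η β = c * fderiv ℂ (σ.ϱ (σ.a (star η))) η β := by
  refine and_congr_right fun _ => and_congr_right fun _ => ⟨fun h1 => ?_, ?_⟩
  · refine ⟨σ.r0 x η * (σ.r0 (σ.a (star η)) η)⁻¹, fun β => ?_⟩
    rw [fderiv_rho_apply, fderiv_rho_apply, h1, mul_add, Finset.mul_sum]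
    congr 1
    · field_simp
    · refine Finset.sum_congr rfl fun i _ => ?_
      simp only [SegRaw.p, Pi.smul_apply, smul_eq_mul]
      ring
  · rintro ⟨c, hc⟩
    funext i
    have e0 : σ.r0 x η = c * σ.r0 (σ.a (star η)) η := hc _
    have e1 : σ.r1 x η i = c * σ.r1 (σ.a (star η)) η i := hc _
    simp only [SegRaw.p, Pi.smul_apply, smul_eq_mul]
    rw [e0, e1]
    field_simp

theorem continuousAt_r0 {η : ℂ × CN r} (ha : AnalyticAt ℂ σ.a (star η)) :
    ContinuousAt (fun η' => σ.r0 (σ.a (star η')) η') η := by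
  have h1 : ContinuousAt (fun η' : ℂ × CN r => (σ.a (star η'), η')) η :=
    (ContinuousAt.comp (f := star) ha.continuousAt continuous_star.continuousAt).prodMk
      continuousAt_id
  exact ContinuousAt.comp (f := fun η' : ℂ × CN r => (σ.a (star η'), η'))
    (fderiv_rho_analyticAt (σ.a (star η)) ha (1, 0)).continuousAt h1

theorem star_mem_ball {η : ℂ × CN r} {δ : ℝ} : star η ∈ ball (0 : ℂ × CN r) δ ↔ η ∈ ball 0 δ := by
  rw [mem_ball_zero_iff, mem_ball_zero_iff, norm_star]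

theorem isLocallyClosed_S (ha : AnalyticOnNhd ℂ σ.a (ball 0 σ.δ)) : IsLocallyClosed σ.S := by
  have hc : ContinuousOn (fun η : ℂ × CN r => σ.ϱ (σ.a (star η)) η) (ball 0 σ.δ) := by
    intro η hη
    have h := ha _ (star_mem_ball.2 hη)
    have h1 : ContinuousAt (fun η' : ℂ × CN r => (σ.a (star η'), η')) η :=
      (ContinuousAt.comp (f := star) h.continuousAt continuous_star.continuousAt).prodMk
        continuousAt_id
    exact (ContinuousAt.comp (f := fun η' : ℂ × CN r => (σ.a (star η'), η'))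
      (amb_analyticAt (σ.a (star η)) h).continuousAt h1).continuousWithinAt
  obtain ⟨u, hu, e⟩ := continuousOn_iff_isClosed.1 hc {0} isClosed_singleton
  refine ⟨ball 0 σ.δ, u, isOpen_ball, hu, ?_⟩
  rw [inter_comm, ← e, inter_comm]
  rfl

end Crest.Agent.R264.P3
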