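import Crest.Agent.R264.P3.PreDef
import Crest.Agent.R264.P3.Adapt
import Crest.Agent.R264.P3.Levi

/-!
# Row 264, P3: adapted sections and raw data
-/

set_option autoImplicit false
open Set Filter Topology Metric Complex

noncomputable section
namespace Crest.Agent.R264.P3

variable {N n : ℕ} {U : Set (CN N)} {F : AlgFrame n U}

/-- Adapted section.  Hint: `exists_sect'`; let `N₀` be the interior of the set of `u ∈ ch.s` with
`c u ∈ interior W` and `rv ρ (c u) = 0 → GoodSide (c u) ρ` (`GoodSide.eventually`); apply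
`exists_adapted` to `P = cpol ρ ch.c` (`cpol_analyticAt`, `cpol_sw`, `cpol_real`,
`GoodSide.exists_fderiv_ne`, `levi_nonpos` with `GoodSide.eventually_mem`, `GoodSide.not_mem`);
`pull (cpol ρ c) u₀ Λ = cpol ρ fun x => c (u₀ + Λ x)` by `star_star`. -/
theorem exists_adapted_sect (hU : TautSet U) {p : CN N} {ρ : P2 N} (hp : F.GoodSide p ρ)
    {W : Set (CN N)} (hW : W ∈ 𝓝 p) :
    ∃ (r k : ℕ) (ch : Chart n F.V) (u₀ : CN n) (Λ : PM r k ≃L[ℂ] CN n), F.IsSect ch ∧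
      n = 1 + r + k ∧ u₀ ∈ ch.s ∧ W ∈ 𝓝 (ch.c u₀) ∧ F.GoodSide (ch.c u₀) ρ ∧
      lam (cpol ρ fun x => ch.c (u₀ + Λ x)) 0 ≠ 0 ∧ SliceNeg (cpol ρ fun x => ch.c (u₀ + Λ x)) 0 ∧
      ∀ᶠ x in 𝓝 (0 : PM r k), cpol ρ (fun x => ch.c (u₀ + Λ x)) (x, star x) = 0 →
        RC (cpol ρ fun x => ch.c (u₀ + Λ x)) (x, star x) := by
  obtain ⟨ch, hs, u, hu, rfl⟩ := F.exists_sect' hp.mem hp.dv_ne
  have hev : ∀ᶠ x in 𝓝 u, x ∈ ch.s ∧ W ∈ 𝓝 (ch.c x) ∧
      (rv ρ (ch.c x) = 0 → F.GoodSide (ch.c x) ρ) := by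
    have ht := (ch.an u hu).continuousAt.tendsto
    filter_upwards [ch.s_open.mem_nhds hu, ht.eventually (eventually_mem_nhds_iff.2 hW),
      ht.eventually hp.eventually] with x h1 h2 h3
    exact ⟨h1, h2, h3 (ch.maps h1)⟩
  obtain ⟨O, hO, hOo, huO⟩ := _root_.eventually_nhds_iff.1 hev
  have han : ∀ x ∈ O, AnalyticAt ℂ (cpol ρ ch.c) (x, star x) := fun x hx =>
    cpol_analyticAt ρ (ch.an x (hO x hx).1) (by simpa using ch.an x (hO x hx).1)
  have hgood : ∀ x ∈ O, cpol ρ ch.c (x, star x) = 0 → F.GoodSide (ch.c x) ρ := fun x hx h =>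
    (hO x hx).2.2 (by rwa [cpol_real hp.herm, ofReal_eq_zero] at h)
  obtain ⟨r, k, u₀, Λ, h1, h2, h3, h4, h5, h6⟩ := exists_adapted (P := cpol ρ ch.c) hOo han
    (cpol_sw hp.herm _) ⟨u, huO, by rw [cpol_real hp.herm, hp.zero, ofReal_zero]⟩
    (fun x hx h => (hgood x hx h).exists_fderiv_ne hs (hO x hx).1)
    fun x hx h v hv => levi_nonpos hU (ch.an x (hO x hx).1) (hgood x hx h).not_mem (han x hx)
      (Eventually.of_forall (cpol_sw hp.herm _)) h
      ((hgood x hx h).exists_fderiv_ne hs (hO x hx).1) (by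
        filter_upwards [ch.s_open.mem_nhds (hO x hx).1,
          (ch.an x (hO x hx).1).continuousAt.tendsto.eventually (hgood x hx h).eventually_mem]
          with y a1 a2 a3
        rw [cpol_real hp.herm, ofReal_re] at a3
        exact a2 (ch.maps a1) a3) hv
  have e : pull (cpol ρ ch.c) u₀ (Λ : PM r k →L[ℂ] CN n) = cpol ρ fun x => ch.c (u₀ + Λ x) := by
    funext z
    simp only [pull, cpol, star_star, ContinuousLinearEquiv.coe_coe]
  rw [e] at h4 h5 h6
  exact ⟨r, k, ch, u₀, Λ, hs, h1, (hO u₀ h2).1, (hO u₀ h2).2.1, hgood u₀ h2 h3, h4, h5, h6⟩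

/-- the slice inclusion -/
def inc (r k : ℕ) : (ℂ × CN r) →L[ℂ] PM r k :=
  (ContinuousLinearMap.fst ℂ ℂ (CN r)).prod ((ContinuousLinearMap.snd ℂ ℂ (CN r)).prod 0)

@[simp] theorem inc_apply {r k : ℕ} (ω : ℂ × CN r) : inc r k ω = (ω.1, ω.2, 0) := rfl

theorem inc_star {r k : ℕ} (ω : ℂ × CN r) : inc r k (star ω) = star (inc r k ω) := by
  ext <;> simp

theorem norm_inc {r k : ℕ} (ω : ℂ × CN r) : ‖inc r k ω‖ = ‖ω‖ := by
  simp [Prod.norm_def]

/-- The raw data attached to a parametrisation `C : PM r k → CN N`. -/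
def raw {r k : ℕ} (ρ : P2 N) (C : PM r k → CN N) (t : CN N → CN k) (δ : ℝ) : SegRaw N r k :=
  ⟨ρ, fun ω => C (inc r k ω), t, δ⟩

/-- `η`-derivatives of the raw data at a point `C x` (chain rule: `(raw ..).ϱ (C x) η'` equals
`cpol ρ C (x, inc η')` by `inc_star`). -/
theorem raw_fderiv {r k : ℕ} (ρ : P2 N) {C : PM r k → CN N} (t : CN N → CN k) (δ : ℝ)
    {x : PM r k} {η : ℂ × CN r} (hx : AnalyticAt ℂ C x) (hη : AnalyticAt ℂ C (star (inc r k η)))
    (β : ℂ × CN r) :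
    fderiv ℂ ((raw ρ C t δ).ϱ (C x)) η β = fderiv ℂ (cpol ρ C) (x, inc r k η) (0, inc r k β) := by
  have e : (raw ρ C t δ).ϱ (C x) = cpol ρ C ∘ fun η' => (x, inc r k η') := by
    funext η'
    simp only [raw, SegRaw.ϱ, cpol, Function.comp_apply, inc_star]
  have h1 : HasFDerivAt (fun η' => (x, inc r k η'))
      ((0 : (ℂ × CN r) →L[ℂ] PM r k).prod (inc r k)) η :=
    (hasFDerivAt_const x η).prodMk (inc r k).hasFDerivAt
  rw [e, (((cpol_analyticAt ρ (z := (x, inc r k η)) hx hη).differentiableAt.hasFDerivAt).comp η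
    h1).fderiv]
  rfl

/-- `pol (raw ..) = pull (cpol ρ C) 0 (inc r k)`; `fderiv_pull`, `d2_pull`. -/
theorem raw_neg {r k : ℕ} (ρ : P2 N) {C : PM r k → CN N} (t : CN N → CN k) (δ : ℝ)
    {η : ℂ × CN r} (hη : AnalyticAt ℂ C (inc r k (star η)))
    (hs : SliceNeg (cpol ρ C) (inc r k (star η))) (v : ℂ × CN r) (hv : v ≠ 0)
    (h : fderiv ℂ (pol (raw ρ C t δ)) (star η, η) (v, 0) = 0) :
    (d2 (pol (raw ρ C t δ)) (star η, η) (v, 0) (0, star v)).re < 0 := by
  have e : pol (raw ρ C t δ) = pull (cpol ρ C) 0 (inc r k) := by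
    funext z
    simp only [pol, raw, pull, cpol, star_star, zero_add]
  have hP : AnalyticAt ℂ (cpol ρ C) (0 + inc r k (star η, η).1,
      star (0 + inc r k (star (star η, η).2))) :=
    cpol_analyticAt ρ (by simpa only [zero_add] using hη) (by simpa only [zero_add, star_star] using hη)
  rw [e, fderiv_pull hP] at h
  rw [e, d2_pull hP]
  simp only [zero_add, star_zero, map_zero, star_star] at h ⊢
  refine hs (inc r k v) rfl (fun h0 => hv ?_) h
  rwa [← norm_eq_zero, norm_inc, norm_eq_zero] at h0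

end Crest.Agent.R264.P3
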