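import Crest.Agent.R264.P3.Pol

/-!
# Row 264, P3: Segre data before normalisation (definition)
-/

set_option autoImplicit false
open Set Filter Topology Metric Complex

noncomputable section
namespace Crest.Agent.R264.P3

/-- Segre data with all properties uniform along the slice, not normalised and not generic. -/
structure PreSegre {N n : ℕ} {U : Set (CN N)} (F : AlgFrame n U) (r k : ℕ)
    extends SegRaw N r k where
  dim : n = 1 + r + k
  herm : IsHerm ρ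
  a_an : AnalyticOnNhd ℂ a (ball 0 δ)
  a_mem : MapsTo a (ball 0 δ) F.V
  t_diff : Differentiable ℂ t
  t_a : ∀ ω ∈ ball (0 : ℂ × CN r) δ, t (a ω) = t (a 0)
  zero_mem : 0 ∈ toSegRaw.S
  good : ∀ η ∈ toSegRaw.S, F.GoodSide (a (star η)) ρ
  r0_ne : ∀ η ∈ toSegRaw.S, toSegRaw.r0 (a (star η)) η ≠ 0
  neg : ∀ η ∈ toSegRaw.S, ∀ v, v ≠ 0 → fderiv ℂ (pol toSegRaw) (star η, η) (v, 0) = 0 →
    (d2 (pol toSegRaw) (star η, η) (v, 0) (0, star v)).re < 0
  span : ∀ ω ∈ ball (0 : ℂ × CN r) δ, ∀ c : Fin n → ℂ,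
    fderiv ℂ t (a ω) (∑ i, c i • F.xi i (a ω)) = 0 →
      ∃ β, ∑ i, c i • F.xi i (a ω) = fderiv ℂ a ω β
  leaf : ∃ O : Set (CN N), IsOpen O ∧ ∀ η ∈ toSegRaw.S, a (star η) ∈ O ∧
    ∀ x ∈ toSegRaw.L F.V η ∩ O, rv ρ x = 0

end Crest.Agent.R264.P3
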