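import Crest.Agent.R264.P3.Sect
import Crest.Agent.R264.P3.Strat

/-!
# Row 264, P3: rational functions in a section
-/

set_option autoImplicit false
open Set Filter Topology Metric Crest.AlgGeometry.Semialg

noncomputable section
namespace Crest.Agent.R264

/-- Polynomial functions of `(x, conj x)`. -/
def Rat_IsP {N : ℕ} (f : CN N → ℂ) : Prop := ∃ P : P2 N, ∀ x, f x = pe P x (star x)

theorem Rat_const {N : ℕ} (a : ℂ) : Rat_IsP fun _ : CN N => a :=
  ⟨MvPolynomial.C a, fun x => by rw [pe, MvPolynomial.eval_C]⟩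

theorem Rat_pe {N : ℕ} (P : P2 N) : Rat_IsP fun x => pe P x (star x) := ⟨P, fun _ => rfl⟩

theorem Rat_IsP.add {N : ℕ} {f g : CN N → ℂ} (hf : Rat_IsP f) (hg : Rat_IsP g) :
    Rat_IsP fun x => f x + g x := by
  obtain ⟨P, hP⟩ := hf
  obtain ⟨Q, hQ⟩ := hg
  exact ⟨P + Q, fun x => by simp only [hP, hQ, pe, map_add]⟩

theorem Rat_IsP.mul {N : ℕ} {f g : CN N → ℂ} (hf : Rat_IsP f) (hg : Rat_IsP g) :
    Rat_IsP fun x => f x * g x := by
  obtain ⟨P, hP⟩ := hf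
  obtain ⟨Q, hQ⟩ := hg
  exact ⟨P * Q, fun x => by simp only [hP, hQ, pe, map_mul]⟩

theorem Rat_IsP.congr {N : ℕ} {f g : CN N → ℂ} (hf : Rat_IsP f) (h : ∀ x, g x = f x) :
    Rat_IsP g := by
  obtain ⟨P, hP⟩ := hf
  exact ⟨P, fun x => (h x).trans (hP x)⟩

theorem Rat_sum {N : ℕ} {ι : Type} (s : Finset ι) {f : ι → CN N → ℂ} (hf : ∀ i, Rat_IsP (f i)) :
    Rat_IsP fun x => ∑ i ∈ s, f i x := by
  choose P hP using hf
  exact ⟨∑ i ∈ s, P i, fun x => by simp only [hP, pe, map_sum]⟩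

theorem Rat_coord {N : ℕ} (a : Fin N) : Rat_IsP fun x : CN N => x a :=
  ⟨MvPolynomial.X (Sum.inl a), fun x => by rw [pe, MvPolynomial.eval_X]; rfl⟩

theorem Rat_coord' {N : ℕ} (a : Fin N) : Rat_IsP fun x : CN N => star (x a) :=
  ⟨MvPolynomial.X (Sum.inr a), fun x => by rw [pe, MvPolynomial.eval_X]; rfl⟩

/-- Substitution into a polynomial. -/
theorem Rat_eval₂ {N : ℕ} {σ R : Type} [CommSemiring R] (φ : R →+* ℂ) {f : σ → CN N → ℂ}
    (hf : ∀ i, Rat_IsP (f i)) (Q : MvPolynomial σ R) :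
    Rat_IsP fun x => MvPolynomial.eval₂ φ (fun i => f i x) Q := by
  induction Q using MvPolynomial.induction_on with
  | C a => exact (Rat_const (φ a)).congr fun x => MvPolynomial.eval₂_C _ _ _
  | add p q hp hq => exact (hp.add hq).congr fun x => MvPolynomial.eval₂_add _ _
  | mul_X p i hp =>
    exact (hp.mul (hf i)).congr fun x => by rw [MvPolynomial.eval₂_mul, MvPolynomial.eval₂_X]

theorem Rat_eval {N : ℕ} {σ : Type} {f : σ → CN N → ℂ} (hf : ∀ i, Rat_IsP (f i))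
    (Q : MvPolynomial σ ℂ) : Rat_IsP fun x => MvPolynomial.eval (fun i => f i x) Q :=
  Rat_eval₂ (RingHom.id ℂ) hf Q

theorem Rat_IsP.star {N : ℕ} {f : CN N → ℂ} (hf : Rat_IsP f) : Rat_IsP fun x => star (f x) := by
  obtain ⟨P, hP⟩ := hf
  have h1 : ∀ i : Fin N ⊕ Fin N,
      Rat_IsP fun x : CN N => (starRingEnd ℂ) (Sum.elim x (Star.star x) i) := by
    rintro (a | a)
    · exact Rat_coord' a
    · exact (Rat_coord a).congr fun x => star_star _
  refine (Rat_eval₂ (starRingEnd ℂ) h1 P).congr fun x => ?_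
  rw [hP, pe]
  exact MvPolynomial.eval₂_comp (starRingEnd ℂ) _ P

theorem Rat_IsP.re {N : ℕ} {f : CN N → ℂ} (hf : Rat_IsP f) :
    Rat_IsP fun x => (((f x).re : ℝ) : ℂ) :=
  ((hf.add hf.star).mul (Rat_const (1 / 2))).congr fun x => by
    rw [Complex.re_eq_add_conj, div_eq_mul_one_div]
    rfl

theorem Rat_IsP.im {N : ℕ} {f : CN N → ℂ} (hf : Rat_IsP f) :
    Rat_IsP fun x => (((f x).im : ℝ) : ℂ) :=
  ((hf.add ((Rat_const (-1)).mul hf.star)).mul (Rat_const (1 / (2 * Complex.I)))).congr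
    fun x => by
      rw [Complex.im_eq_sub_conj, div_eq_mul_one_div, neg_one_mul, sub_eq_add_neg]
      rfl

theorem Rat_rv {N : ℕ} (P : P2 N) : Rat_IsP fun x => ((rv P x : ℝ) : ℂ) := (Rat_pe P).re

theorem Rat_IsP.exists_rv {N : ℕ} {r : CN N → ℝ} (h : Rat_IsP fun x => ((r x : ℝ) : ℂ)) :
    ∃ P : P2 N, ∀ x, r x = rv P x := by
  obtain ⟨P, hP⟩ := h
  exact ⟨P, fun x => by rw [rv, ← hP, Complex.ofReal_re]⟩

theorem Rat_dx {N : ℕ} (P : P2 N) {w : CN N → CN N} (hw : ∀ a, Rat_IsP fun x => w x a) :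
    Rat_IsP fun x => dx P x (star x) (w x) :=
  (Rat_sum Finset.univ fun a =>
    (Rat_pe (MvPolynomial.pderiv (Sum.inl a) P)).mul (hw a)).congr fun x => by
      rw [dx_eq_fderiv, fderiv_pe]
      simp only [Pi.zero_apply, mul_zero, Finset.sum_const_zero, add_zero]

theorem Rat_dx_smul {N : ℕ} (P : P2 N) (x y v : CN N) (c : ℂ) :
    dx P x y (c • v) = c * dx P x y v := by
  rw [dx, dx, map_smul, smul_eq_mul]

namespace AlgFrame
variable {N n : ℕ} {U : Set (CN N)} {F : AlgFrame n U} {ch : Chart n F.V}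

theorem Rat_dv (F : AlgFrame n U) : Rat_IsP F.dv :=
  Rat_eval (fun i => Rat_eval Rat_coord (F.π i)) F.D

theorem Rat_xi (F : AlgFrame n U) (i : Fin n) (a : Fin N) : Rat_IsP fun x => F.xi i x a :=
  Rat_eval Rat_coord (F.ξ i a)

theorem Rat_normSq (F : AlgFrame n U) : ∃ Q : P2 N, ∀ x, ‖F.dv x‖ ^ 2 = rv Q x :=
  Rat_IsP.exists_rv ((F.Rat_dv.mul F.Rat_dv.star).congr fun x => by
    rw [Complex.star_def, Complex.mul_conj, Complex.normSq_eq_norm_sq])

theorem Rat_deriv (hs : F.IsSect ch) (P : P2 N) (v : CN n) : ∃ P' : P2 N, ∀ u ∈ ch.s,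
    fderiv ℝ (fun u => rv P (ch.c u)) u v * ‖F.dv (ch.c u)‖ ^ 2 = rv P' (ch.c u) := by
  obtain ⟨ρ, hρ, e⟩ := exists_herm P
  have hw : ∀ a, Rat_IsP fun x => (∑ i, v i • F.xi i x) a := fun a =>
    (Rat_sum Finset.univ fun i => (Rat_const (v i)).mul (F.Rat_xi i a)).congr fun x => by
      simp only [Finset.sum_apply, Pi.smul_apply, smul_eq_mul]
  obtain ⟨P', hP'⟩ := (Rat_const 2).mul (F.Rat_dv.star.mul (Rat_dx ρ hw))
  refine ⟨P', fun u hu => ?_⟩
  have e' : (fun u => rv P (ch.c u)) = fun u => rv ρ (ch.c u) := funext fun u => (e _).symm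
  rw [e', fderiv_rv_comp hρ (ch.an u hu), rv, ← hP']
  beta_reduce
  rw [← hs.fderiv_c hu v, Rat_dx_smul,
    ← mul_assoc (star _), Complex.star_def, ← Complex.normSq_eq_conj_mul_self,
    Complex.normSq_eq_norm_sq]
  simp only [Complex.mul_re, Complex.re_ofNat, Complex.im_ofNat, Complex.ofReal_re,
    Complex.ofReal_im, zero_mul, sub_zero]
  ring

/-- Functions of the form `rv P ∘ c / |D|^(2m)` on the chart domain. -/
def IsRat (F : AlgFrame n U) (ch : Chart n F.V) (g : CN n → ℝ) : Prop :=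
  ∃ (P : P2 N) (m : ℕ), ∀ u ∈ ch.s, g u * ‖MvPolynomial.eval u F.D‖ ^ (2 * m) = rv P (ch.c u)

/-- Hint: `‖D u‖ ^ 2 = re (D u * conj (D u))` is real analytic and not zero on `ch.s`;
`AnalyticOnNhd.congr`/`AnalyticAt.congr`, `analyticAt_rv_comp`. -/
theorem IsRat.analytic (hs : F.IsSect ch) {g : CN n → ℝ} (h : F.IsRat ch g) :
    AnalyticOnNhd ℝ g ch.s := by
  obtain ⟨P, m, hP⟩ := h
  obtain ⟨Q, hQ⟩ := F.Rat_normSq
  intro u hu
  have h0 : ∀ w ∈ ch.s, rv Q (ch.c w) ^ m ≠ 0 := fun w hw => by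
    rw [← hQ]
    exact pow_ne_zero _ (pow_ne_zero _ (norm_ne_zero_iff.2 (hs.pr_c hw).2))
  have h1 : AnalyticAt ℝ (fun w => rv P (ch.c w) / rv Q (ch.c w) ^ m) u :=
    (analyticAt_rv_comp P (ch.an u hu)).fun_div ((analyticAt_rv_comp Q (ch.an u hu)).fun_pow m)
      (h0 u hu)
  refine h1.congr ?_
  filter_upwards [ch.s_open.mem_nhds hu] with w hw
  rw [div_eq_iff (h0 w hw), ← hP w hw, ← hQ, hs.dv_eq hw, pow_mul]

/-- Hint: call `f : CN N → ℂ` polynomial if `∃ P, ∀ x, f x = pe P x (star x)`; these functions are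
closed under sums, products, `star`, and contain `x ↦ eval x q`, in particular `F.dv`, `F.xi i · a`
and `x ↦ eval (F.pr x) (pderiv j F.D)`.  Take `P` Hermitian (`exists_herm`).  Differentiate
`g * (‖D‖²)^m = rv P ∘ c` along `v` with `fderiv_rv_comp`, `IsSect.sum_xi`
(`D u • fderiv c u v = ∑ v i • xi i (c u)`), `dx_eq_fderiv`, `fderiv_pe`, and multiply by `‖D‖²`:
`dd v g * (‖D‖²)^(m+1) = ‖D‖² ∂_v (rv P ∘ c) - m * rv P ∘ c * ∂_v ‖D‖²`. -/
theorem IsRat.dirDeriv (hs : F.IsSect ch) {g : CN n → ℝ} (h : F.IsRat ch g) (v : CN n) :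
    F.IsRat ch (dd v g) := by
  have hg := h.analytic hs
  obtain ⟨P, m, hP⟩ := h
  obtain ⟨Q, hQ⟩ := F.Rat_normSq
  obtain ⟨P', hP'⟩ := Rat_deriv hs P v
  obtain ⟨Q', hQ'⟩ := Rat_deriv hs Q v
  obtain ⟨R, hR⟩ := Rat_IsP.exists_rv
    (r := fun x => rv Q x * rv P' x + (-(m : ℝ)) * (rv P x * rv Q' x))
    ((((Rat_rv Q).mul (Rat_rv P')).add
      ((Rat_const (-(m : ℂ))).mul ((Rat_rv P).mul (Rat_rv Q')))).congr fun x => by
        push_cast
        rfl)
  refine ⟨R, m + 2, fun u hu => ?_⟩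
  have h1 : ∀ w ∈ ch.s, rv P (ch.c w) = g w * rv Q (ch.c w) ^ m := fun w hw => by
    rw [← hP w hw, ← hQ, hs.dv_eq hw, pow_mul]
  have h2 : (fun w => rv P (ch.c w)) =ᶠ[𝓝 u] fun w => g w * rv Q (ch.c w) ^ m :=
    eventually_of_mem (ch.s_open.mem_nhds hu) h1
  have h3 := ((hg u hu).differentiableAt.hasFDerivAt.fun_mul
    ((analyticAt_rv_comp Q (ch.an u hu)).differentiableAt.hasFDerivAt.pow m)).fderiv
  rw [← h2.fderiv_eq] at h3
  have h4 := congrArg (fun L : CN n →L[ℝ] ℝ => L v) h3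
  simp only [add_apply, smul_apply, smul_eq_mul,
    nsmul_eq_mul] at h4
  rw [← hR, ← hP' u hu, ← hQ' u hu, h4, h1 u hu, pow_mul, ← hs.dv_eq hu, hQ, dd]
  rcases m with _ | m
  · simp only [Nat.cast_zero]
    ring
  · rw [Nat.add_sub_cancel]
    ring

/-- Hint: substitute `(X (inl a) + X (inr a)) / 2` and `(X (inl a) - X (inr a)) / (2 I)`. -/
theorem isRat_real (Q : MvPolynomial (Fin N ⊕ Fin N) ℝ) :
    F.IsRat ch fun u => MvPolynomial.eval (realCoords (ch.c u)) Q := by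
  have h1 : ∀ i : Fin N ⊕ Fin N, Rat_IsP fun x : CN N => Complex.ofRealHom (realCoords x i) := by
    rintro (a | a)
    · exact (Rat_coord a).re
    · exact (Rat_coord a).im
  obtain ⟨P, hP⟩ := Rat_IsP.exists_rv (r := fun x => MvPolynomial.eval (realCoords x) Q)
    ((Rat_eval₂ Complex.ofRealHom h1 Q).congr fun x =>
      MvPolynomial.eval₂_comp Complex.ofRealHom _ Q)
  exact ⟨P, 0, fun u _ => by rw [mul_zero, pow_zero, mul_one, ← hP]⟩

end AlgFrame
end Crest.Agent.R264
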