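import Crest.Agent.R264.P3.Lip

/-!
# Row 264, P3: zero sets of real analytic functions
-/

set_option autoImplicit false
open Set Filter Topology Metric

noncomputable section
namespace Crest.Agent.R264

variable {E : Type*} [NormedAddCommGroup E] [NormedSpace ℝ E]

/-- Directional derivative. -/
def dd (v : E) (g : E → ℝ) : E → ℝ := fun x => fderiv ℝ g x v

/-- Iterated directional derivative along a word of directions (the head is applied last). -/
def ddL : List E → (E → ℝ) → (E → ℝ)
  | [], g => g
  | v :: l, g => dd v (ddL l g)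

theorem dd_analytic [CompleteSpace E] {g : E → ℝ} {s : Set E} (hg : AnalyticOnNhd ℝ g s) (v : E) :
    AnalyticOnNhd ℝ (dd v g) s :=
  fun x hx => ((ContinuousLinearMap.apply ℝ ℝ v).analyticAt _).comp (hg.fderiv x hx)

theorem ddL_analytic [CompleteSpace E] {g : E → ℝ} {s : Set E} (hg : AnalyticOnNhd ℝ g s)
    (l : List E) : AnalyticOnNhd ℝ (ddL l g) s := by
  induction l with
  | nil => exact hg
  | cons v l ih => exact dd_analytic ih v

theorem Zero_iter {g : E → ℝ} {s : Set E} (hg : AnalyticOnNhd ℝ g s) (hs : IsOpen s) (m : ℕ)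
    (w : Fin m → E) : ∀ x ∈ s, iteratedFDeriv ℝ m g x w = ddL (List.ofFn w) g x := by
  induction m with
  | zero => intro x _; simp [ddL]
  | succ m ih =>
    intro x hx
    rw [((hg.iteratedFDeriv m x hx).differentiableAt).iteratedFDeriv_succ_apply_left',
      List.ofFn_succ]
    have h1 : (fun y => iteratedFDeriv ℝ m g y (Fin.tail w)) =ᶠ[𝓝 x]
        ddL (List.ofFn (Fin.tail w)) g := by
      filter_upwards [hs.mem_nhds hx] with y hy using ih _ y hy
    rw [h1.fderiv_eq]
    rfl

/-- If all iterated derivatives along basis vectors vanish at `p` then the function vanishes near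
`p`.  Hint: `iteratedFDeriv ℝ m g x (fun j => b (w j)) = ddL (List.ofFn fun j => b (w j)) g x` near
`p` (induction, `iteratedFDeriv_succ_apply_left`), a multilinear map vanishing on basis tuples is
zero (`Module.Basis.ext_multilinear`), then `HasFPowerSeriesOnBall.hasSum_iteratedFDeriv` or
`AnalyticAt.hasFPowerSeriesAt`. -/
theorem eventually_zero_of_ddL [FiniteDimensional ℝ E] {ι : Type*} (b : Module.Basis ι ℝ E)
    {g : E → ℝ} {p : E} (hg : AnalyticAt ℝ g p)
    (h : ∀ l : List ι, ddL (l.map b) g p = 0) : ∀ᶠ x in 𝓝 p, g x = 0 := by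
  obtain ⟨q, r, hq⟩ := hg
  have hs : AnalyticOnNhd ℝ g (Metric.eball p r) := hq.analyticOnNhd
  have hp : p ∈ Metric.eball p r := Metric.mem_eball_self hq.r_pos
  have h0 : ∀ m : ℕ, iteratedFDeriv ℝ m g p = 0 := by
    intro m
    apply ContinuousMultilinearMap.toMultilinearMap_injective
    refine Module.Basis.ext_multilinear (fun _ : Fin m => b) fun v => ?_
    have h1 := Zero_iter hs Metric.isOpen_eball m (fun i => b (v i)) p hp
    have h2 : List.ofFn (fun i => b (v i)) = (List.ofFn v).map b := by
      rw [List.map_ofFn]; rfl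
    rw [h2, h] at h1
    simpa using h1
  filter_upwards [Metric.eball_mem_nhds p hq.r_pos] with x hx
  have hy : x - p ∈ Metric.eball (0 : E) r := by
    rw [Metric.mem_eball, edist_zero_right, ← edist_eq_enorm_sub]; exact hx
  have h1 := hq.hasSum_iteratedFDeriv hy
  simp only [h0, _root_.zero_apply, smul_zero, add_sub_cancel] at h1
  exact h1.unique hasSum_zero

/-- A zero of an analytic function that does not vanish identically is a regular zero of an
iterated derivative (take a shortest word with nonzero value). -/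
theorem exists_regular_ddL [FiniteDimensional ℝ E] {ι : Type*} (b : Module.Basis ι ℝ E)
    {g : E → ℝ} {p : E} (hg : AnalyticAt ℝ g p) (h0 : g p = 0) (h : ¬ ∀ᶠ x in 𝓝 p, g x = 0) :
    ∃ l : List ι, ddL (l.map b) g p = 0 ∧ fderiv ℝ (ddL (l.map b) g) p ≠ 0 := by
  by_contra hc
  push Not at hc
  refine h (eventually_zero_of_ddL b hg fun l => ?_)
  induction l with
  | nil => exact h0
  | cons i l ih =>
    show fderiv ℝ (ddL (l.map b) g) p (b i) = 0
    rw [hc l ih]
    rfl

/-- The nontrivial zeros of an analytic function have codimension one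
(`exists_regular_ddL`, `lipCov_regular_zero`, `LipCov.iUnion` over `List (Fin d)`). -/
theorem lipCov_zero [FiniteDimensional ℝ E] {g : E → ℝ} {s : Set E}
    (hg : AnalyticOnNhd ℝ g s) :
    LipCov (Module.finrank ℝ E - 1) {x | x ∈ s ∧ g x = 0 ∧ ¬ ∀ᶠ y in 𝓝 x, g y = 0} := by
  have : CompleteSpace E := FiniteDimensional.complete ℝ E
  let b := Module.finBasis ℝ E
  refine LipCov.mono (LipCov.iUnion fun l : List (Fin (Module.finrank ℝ E)) =>
    lipCov_regular_zero (ddL_analytic hg (l.map b))) ?_
  rintro x ⟨hx, h0, h1⟩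
  obtain ⟨l, h2, h3⟩ := exists_regular_ddL b (hg x hx) h0 h1
  exact mem_iUnion.2 ⟨l, hx, h2, h3⟩

end Crest.Agent.R264
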